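import Vale.Agent.P224.Defs

/-!
P224, uniform volume gap: gradient and Laplacian of an induced metric in coordinates, and the
statements that are proved inside one chart (module `Gap/Local`).
-/

namespace Vale.Agent.P224.Gap

open scoped RealInnerProductSpace ContDiff Matrix

variable {m : ℕ}

/-- The inner product of the gradients of `u` and `w` in the metric induced by `f`. -/
noncomputable def gradU (f : E m → E (m + 2)) (u w : E m → ℝ) (p : E m) : ℝ :=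
  ∑ i, ∑ j, (metric f p)⁻¹ i j * (D u i p * D w j p)

/-- The Laplacian of the metric induced by `f`: the trace of the Hessian, whose Christoffel part is
the tangential part of the second derivative of `f`. -/
noncomputable def lapU (f : E m → E (m + 2)) (u : E m → ℝ) (p : E m) : ℝ :=
  ∑ i, ∑ j, (metric f p)⁻¹ i j *
    (D (D u i) j p - ∑ k, ∑ l, ⟪D (D f i) j p, D f k p⟫ * (metric f p)⁻¹ k l * D u l p)

/-- Invariance under a change of coordinates. -/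
def InvarianceStmt (m : ℕ) : Prop :=
  ∀ (U : Set (E m)) (f : E m → E (m + 2)) (V : Set (E m)) (φ : E m → E m),
    IsOpen U → IsOpen V → ContDiffOn ℝ ∞ f U → ContDiffOn ℝ ∞ φ V → Set.MapsTo φ V U →
    (∀ p ∈ U, (metric f p).det ≠ 0) → ∀ p ∈ V, (fderiv ℝ φ p).det ≠ 0 →
      (∀ u w, ContDiffOn ℝ ∞ u U → ContDiffOn ℝ ∞ w U →
        gradU (f ∘ φ) (u ∘ φ) (w ∘ φ) p = gradU f u w (φ p) ∧
        lapU (f ∘ φ) (u ∘ φ) p = lapU f u (φ p)) ∧
      volDensity (f ∘ φ) p = |(fderiv ℝ φ p).det| * volDensity f (φ p) ∧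
      (∀ ν, IsUnitNormal (f ∘ φ) p ν ↔ IsUnitNormal f (φ p) ν) ∧
      ∀ ν, IsUnitNormal f (φ p) ν → normSq (f ∘ φ) p ν = normSq f (φ p) ν

/-- The pointwise identities of a minimal hypersurface of the sphere. -/
def PointStmt (m : ℕ) : Prop :=
  ∀ (U : Set (E m)) (f ν : E m → E (m + 2)), IsOpen U → ContDiffOn ℝ ∞ f U → ContDiffOn ℝ ∞ ν U →
    (∀ p ∈ U, ‖f p‖ = 1) → (∀ p ∈ U, (metric f p).det ≠ 0) →
    (∀ p ∈ U, IsUnitNormal f p (ν p)) → (∀ p ∈ U, meanCurv f p (ν p) = 0) →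
    ContDiffOn ℝ ∞ (fun p => normSq f p (ν p)) U ∧ ∀ p ∈ U,
      0 ≤ normSq f p (ν p) ∧
      (∀ a c : E (m + 2), lapU f (fun y => ⟪f y, a⟫) p = -(m : ℝ) * ⟪f p, a⟫ ∧
        gradU f (fun y => ⟪f y, a⟫) (fun y => ⟪f y, c⟫) p =
          ⟪a, c⟫ - ⟪f p, a⟫ * ⟪f p, c⟫ - ⟪ν p, a⟫ * ⟪ν p, c⟫) ∧
      (∀ a : E (m + 2), lapU f (fun y => ⟪ν y, a⟫) p = -normSq f p (ν p) * ⟪ν p, a⟫ ∧
        gradU f (fun y => ⟪ν y, a⟫) (fun y => ⟪ν y, a⟫) p ≤
          normSq f p (ν p) * (‖a‖ ^ 2 - ⟪f p, a⟫ ^ 2 - ⟪ν p, a⟫ ^ 2)) ∧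
      2 * normSq f p (ν p) * ((m : ℝ) - normSq f p (ν p)) ≤
        lapU f (fun y => normSq f y (ν y)) p

/-- Chain rule and divergence theorem in one chart. -/
def DivergenceStmt (m : ℕ) : Prop :=
  ∀ (U : Set (E m)) (f : E m → E (m + 2)), IsOpen U → ContDiffOn ℝ ∞ f U →
    (∀ p ∈ U, (metric f p).det ≠ 0) →
    ∀ u w : E m → ℝ, ContDiffOn ℝ ∞ u U → ContDiffOn ℝ ∞ w U →
      (∃ K, IsCompact K ∧ K ⊆ U ∧ ∀ p, p ∉ K → w p = 0) →
      ∫ p in U, (w p * lapU f u p + gradU f w u p) * volDensity f p = 0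

end Vale.Agent.P224.Gap
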