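import Vale.Agent.P224.Gap.ConeBasic

/-!
P224, uniform volume gap, module Cone: the Gaussian calculus on the cone.
-/

namespace Vale.Agent.P224.Gap

open MeasureTheory Set Filter
open scoped Topology ContDiff

variable {m : ℕ} {X : Type*} [TopologicalSpace X] [CompactSpace X] [T2Space X]
  [MeasurableSpace X] [BorelSpace X] (D : Data m X)

namespace Data

lemma poly_t : Poly fun x (_ : ℝ) => D.t x := Poly.of_x (D.sm_cont _ D.sm_t)

lemma poly_b : Poly fun x (_ : ℝ) => D.b x := Poly.of_x (D.sm_cont _ D.sm_b)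

lemma poly_kap (σ : ℝ) : Poly fun x r => kap m σ r (D.t x) := by
  refine ((Poly.const (-((m : ℝ) + 1) / (2 * σ))).add ((((Poly.radius.pow 2).sub
    (((Poly.const 2).mul Poly.radius).mul D.poly_t)).add (Poly.const 1)).mul
      (Poly.const (4 * σ ^ 2)⁻¹)))

lemma I_eq (σ : ℝ) (f : X → ℝ → ℝ) :
    D.I σ f = ∫ z, phi m σ z.2 (D.t z.1) * (z.2 ^ m * f z.1 z.2) ∂D.cone := by
  unfold Data.I
  congr 1
  funext z
  ring

lemma I_split {σ : ℝ} (hσ : 0 < σ) {f g : X → ℝ → ℝ} (hf : Poly f) (hg : Poly g) (c : ℝ) :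
    D.I σ (fun x r => f x r + c * g x r) = D.I σ f + c * D.I σ g := by
  simp only [I_eq]
  rw [← integral_const_mul, ← integral_add (D.integrable_poly hσ ((Poly.radius.pow m).mul hf))
    ((D.integrable_poly hσ ((Poly.radius.pow m).mul hg)).const_mul c)]
  congr 1
  funext z
  ring

lemma hasDerivAt_I {σ : ℝ} (hσ : 0 < σ) {f : X → ℝ → ℝ} (hf : Poly f) :
    HasDerivAt (fun s => D.I s f) (D.I σ fun x r => kap m σ r (D.t x) * f x r) σ := by
  obtain ⟨cf, C, k, hC, hb⟩ := (Poly.radius.pow m).mul hf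
  set A := (2 * Real.pi * σ) ^ (-(((m : ℝ) + 1) / 2)) * Real.exp (1 / (2 * σ)) with hA
  set c := 1 / (16 * σ) with hcd
  have hc : 0 < c := by positivity
  have hA0 : 0 ≤ A := by have := Real.pi_pos; positivity
  set K0 := ((m : ℝ) + 1) / σ + 1 / σ ^ 2 with hK0
  have hcont : ∀ s, Continuous fun z : X × ℝ =>
      phi m s z.2 (D.t z.1) * (z.2 ^ m * f z.1 z.2) := fun s => (D.continuous_weight s).mul cf
  have hint : Integrable (fun z : X × ℝ => phi m σ z.2 (D.t z.1) * (z.2 ^ m * f z.1 z.2)) D.cone :=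
    D.integrable_poly hσ ⟨cf, C, k, hC, hb⟩
  have key := hasDerivAt_integral_of_dominated_loc_of_deriv_le
    (F := fun s z => phi m s z.2 (D.t z.1) * (z.2 ^ m * f z.1 z.2))
    (F' := fun s z => phi m s z.2 (D.t z.1) * kap m s z.2 (D.t z.1) * (z.2 ^ m * f z.1 z.2))
    (bound := fun z => A * K0 * C * ((1 + z.2) ^ (k + 2) * Real.exp (-c * z.2 ^ 2)))
    (μ := D.cone) (Ioo_mem_nhds (show σ / 2 < σ by linarith) (show σ < 2 * σ by linarith))
    (Eventually.of_forall fun s => (hcont s).aestronglyMeasurable) hint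
    (((D.continuous_weight σ).mul (D.poly_kap σ).1).mul cf).aestronglyMeasurable ?_ ?_ ?_
  · simp only [I_eq]
    refine key.2.congr_deriv ?_
    congr 1
    funext z
    ring
  · filter_upwards [D.cone_ae_pos] with z hz s hs
    have hs0 : 0 < s := by linarith [hs.1]
    rw [Real.norm_eq_abs, abs_mul, abs_mul, abs_of_nonneg (phi_nonneg hs0 _ _)]
    have hk : |kap m s z.2 (D.t z.1)| ≤ K0 * (1 + z.2) ^ 2 := by
      have hq : |z.2 ^ 2 - 2 * z.2 * D.t z.1 + 1| ≤ (1 + z.2) ^ 2 := by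
        obtain ⟨h1, h2⟩ := abs_le.1 (D.abs_t z.1)
        rw [abs_le]
        constructor <;> nlinarith
      unfold kap
      refine (abs_add_le _ _).trans ?_
      rw [abs_div, abs_div, abs_neg, abs_of_nonneg (by positivity : (0 : ℝ) ≤ (m : ℝ) + 1),
        abs_of_nonneg (by positivity : (0 : ℝ) ≤ 2 * s),
        abs_of_nonneg (by positivity : (0 : ℝ) ≤ 4 * s ^ 2)]
      have e1 : ((m : ℝ) + 1) / (2 * s) ≤ ((m : ℝ) + 1) / σ :=
        div_le_div_of_nonneg_left (by positivity) hσ (by linarith [hs.1])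
      have e2 : |z.2 ^ 2 - 2 * z.2 * D.t z.1 + 1| / (4 * s ^ 2) ≤ (1 + z.2) ^ 2 / σ ^ 2 :=
        div_le_div₀ (sq_nonneg _) hq (by positivity) (by nlinarith [hs.1])
      have e3 : 1 ≤ (1 + z.2) ^ 2 := one_le_pow₀ (by linarith)
      calc _ ≤ ((m : ℝ) + 1) / σ + (1 + z.2) ^ 2 / σ ^ 2 := add_le_add e1 e2
        _ ≤ ((m : ℝ) + 1) / σ * (1 + z.2) ^ 2 + (1 + z.2) ^ 2 / σ ^ 2 :=
          add_le_add (le_mul_of_one_le_right (by positivity) e3) le_rfl
        _ = _ := by ring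
    calc _ ≤ (A * Real.exp (-c * z.2 ^ 2)) * (K0 * (1 + z.2) ^ 2) * (C * (1 + z.2) ^ k) := by
          refine mul_le_mul (mul_le_mul (phi_le hσ hs.1.le hs.2.le hz (D.abs_t z.1)) hk
            (abs_nonneg _) (by positivity)) (hb z.1 z.2 hz) (abs_nonneg _) (by positivity)
      _ = _ := by ring
  · have := D.finite
    exact ((integrableOn_dom (k + 2) hc).comp_snd D.μ).const_mul _
  · filter_upwards with z s hs
    exact (hasDerivAt_phi_sigma (m := m) (by linarith [hs.1] : 0 < s) z.2 (D.t z.1)).mul_const _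

/-- Evolution of a test function. -/
theorem deriv_test (hm : 1 ≤ m) (T : Test D) {σ : ℝ} (hσ : 0 < σ) :
    HasDerivAt (fun s => D.I s T.f)
      (D.I σ T.lf + D.I σ (fun x r => D.s2 x * T.f x r) / (4 * σ ^ 2)) σ := by
  obtain ⟨n, rfl⟩ : ∃ n, m = n + 1 := ⟨m - 1, by omega⟩
  obtain ⟨C, hC⟩ := T.bound
  have pf : Poly T.f := Poly.of_bound T.cont_f fun x r hr => (hC x r hr).1
  have pfr : Poly T.fr := Poly.of_bound T.cont_fr fun x r hr => (hC x r hr).2.1
  have pfrr : Poly T.frr := Poly.of_bound T.cont_frr fun x r hr => (hC x r hr).2.2.1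
  have plf : Poly T.lf := Poly.of_bound T.cont_lf fun x r hr => (hC x r hr).2.2.2
  have ps : Poly fun x (_ : ℝ) => D.s2 x := Poly.of_x D.cont_s2
  refine (D.hasDerivAt_I hσ pf).congr_deriv ?_
  rw [div_eq_inv_mul, ← D.I_split hσ plf (ps.mul pf) (4 * σ ^ 2)⁻¹]
  refine (sub_eq_zero.1 ?_).symm
  simp only [I_eq]
  rw [← integral_sub (D.integrable_poly hσ ((Poly.radius.pow _).mul
      (plf.add ((Poly.const _).mul (ps.mul pf)))))
    (D.integrable_poly hσ ((Poly.radius.pow _).mul ((D.poly_kap σ).mul pf)))]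
  set g : X → ℝ → ℝ := fun x r =>
    r ^ (n + 1) * (T.fr x r + (r - D.t x) * (2 * σ)⁻¹ * T.f x r) with hg
  set g' : X → ℝ → ℝ := fun x r =>
    ((n : ℝ) + 1) * r ^ n * (T.fr x r + (r - D.t x) * (2 * σ)⁻¹ * T.f x r) +
      r ^ (n + 1) * (T.frr x r + ((2 * σ)⁻¹ * T.f x r + (r - D.t x) * (2 * σ)⁻¹ * T.fr x r)) +
      -(r - D.t x) * (2 * σ)⁻¹ * (r ^ (n + 1) * (T.fr x r + (r - D.t x) * (2 * σ)⁻¹ * T.f x r))
    with hg'
  have prt := (Poly.radius.sub D.poly_t).mul (Poly.const (2 * σ)⁻¹)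
  have p1 := pfr.add (prt.mul pf)
  have pg : Poly g := (Poly.radius.pow _).mul p1
  have pg' : Poly g' := ((((Poly.const ((n : ℝ) + 1)).mul (Poly.radius.pow n)).mul p1).add
      ((Poly.radius.pow _).mul (pfrr.add (((Poly.const _).mul pf).add (prt.mul pfr))))).add
      (((Poly.radius.sub D.poly_t).neg.mul (Poly.const _)).mul pg)
  refine D.cone_zero
    (F := fun x r => phi (n + 1) σ r (D.t x) *
        (r ^ (n + 1) * (T.lf x r + (4 * σ ^ 2)⁻¹ * (D.s2 x * T.f x r))) -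
      phi (n + 1) σ r (D.t x) * (r ^ (n + 1) * (kap (n + 1) σ r (D.t x) * T.f x r)))
    (B := fun x r => phi (n + 1) σ r (D.t x) * g' x r) ?_ (D.integrable_poly hσ pg') ?_ ?_
  · exact (D.integrable_poly hσ ((Poly.radius.pow _).mul
      (plf.add ((Poly.const _).mul (ps.mul pf))))).sub
      (D.integrable_poly hσ ((Poly.radius.pow _).mul ((D.poly_kap σ).mul pf)))
  · refine fun x => D.radial_zero hσ pg pg' x (fun r => ?_) (by simp [hg])
    have h2 : HasDerivAt (fun r => T.fr x r + (r - D.t x) * (2 * σ)⁻¹ * T.f x r)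
        (T.frr x r + ((2 * σ)⁻¹ * T.f x r + (r - D.t x) * (2 * σ)⁻¹ * T.fr x r)) r := by
      refine ((T.deriv2 x r).fun_add ((((hasDerivAt_id r).sub_const (D.t x)).mul_const
        (2 * σ)⁻¹).fun_mul (T.deriv1 x r))).congr_deriv ?_
      simp
    refine ((hasDerivAt_phi_r (m := n + 1) σ r (D.t x)).fun_mul
      ((hasDerivAt_pow (n + 1) r).fun_mul h2)).congr_deriv ?_
    simp only [hg']
    push_cast
    field_simp
    ring
  · intro r hr
    have hsm := D.lap_phi (m := n + 1) σ r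
    have hgr := D.green_symm (hsm D.p).1 (T.sm r)
    calc _ = ∫ x, r ^ (n + 1) / r ^ 2 * (phi (n + 1) σ r (D.t x) * D.Lap (fun y => T.f y r) x -
          T.f x r * D.Lap (fun y => phi (n + 1) σ r (D.t y)) x) ∂D.μ := by
            refine integral_congr_ae (ae_of_all _ fun x => ?_)
            have hl := T.lap_eq x r hr
            have hLf : D.Lap (fun y => T.f y r) x =
                r ^ 2 * T.lf x r - r ^ 2 * T.frr x r - ((n : ℝ) + 1) * r * T.fr x r := by
              push_cast at hl; linarith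
            simp only [hg', kap, (hsm x).2, hLf]
            have := hr.ne'
            have := hσ.ne'
            push_cast
            field_simp
            ring
      _ = 0 := by rw [integral_const_mul, hgr, mul_zero]

/-- Integration by parts against the tangential part of a constant vector. -/
theorem ibp_aux (hm : 1 ≤ m) {A A' P P' : ℝ → ℝ} (hP : ContDiff ℝ ∞ P)
    (hA' : ∀ r, HasDerivAt A (A' r) r) (hP' : ∀ h, HasDerivAt P (P' h) h)
    (hb : ∃ C, ∀ r, |A r| ≤ C ∧ |A' r| ≤ C ∧ |P r| ≤ C ∧ |P' r| ≤ C)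
    (hc : Continuous A' ∧ Continuous P') {σ : ℝ} (hσ : 0 < σ) :
    2 * σ * D.I σ (fun x r => A r * P' (r * D.b x) * D.q x + A' r * P (r * D.b x) * D.b x) =
      D.I σ (fun x r => A r * P (r * D.b x) * (r * D.b x + D.su x)) := by
  obtain ⟨n, rfl⟩ : ∃ n, m = n + 1 := ⟨m - 1, by omega⟩
  obtain ⟨C, hC⟩ := hb
  have cA : Continuous A := continuous_iff_continuousAt.2 fun r => (hA' r).continuousAt
  have crb : Continuous fun z : X × ℝ => z.2 * D.b z.1 :=
    continuous_snd.mul ((D.sm_cont _ D.sm_b).comp continuous_fst)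
  have pA : Poly fun (_ : X) r => A r :=
    Poly.of_bound (cA.comp continuous_snd) fun _ r _ => (hC r).1
  have pA' : Poly fun (_ : X) r => A' r :=
    Poly.of_bound (hc.1.comp continuous_snd) fun _ r _ => (hC r).2.1
  have pP : Poly fun x r => P (r * D.b x) :=
    Poly.of_bound (hP.continuous.comp crb) fun _ _ _ => (hC _).2.2.1
  have pP' : Poly fun x r => P' (r * D.b x) :=
    Poly.of_bound (hc.2.comp crb) fun _ _ _ => (hC _).2.2.2
  have pq : Poly fun x (_ : ℝ) => D.q x := Poly.of_x (D.sm_cont _ D.sm_q)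
  have pL := ((pA.mul pP').mul pq).add ((pA'.mul pP).mul D.poly_b)
  have pR := (pA.mul pP).mul ((Poly.radius.mul D.poly_b).add (Poly.of_x D.cont_su))
  refine sub_eq_zero.1 ?_
  simp only [I_eq]
  rw [← integral_const_mul, ← integral_sub
    ((D.integrable_poly hσ ((Poly.radius.pow _).mul pL)).const_mul _)
    (D.integrable_poly hσ ((Poly.radius.pow _).mul pR))]
  set g : X → ℝ → ℝ := fun x r => 2 * σ * D.b x * (r ^ (n + 1) * (A r * P (r * D.b x))) with hg
  set g' : X → ℝ → ℝ := fun x r =>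
    2 * σ * D.b x * (((n : ℝ) + 1) * r ^ n * (A r * P (r * D.b x)) +
      r ^ (n + 1) * (A' r * P (r * D.b x) + A r * (P' (r * D.b x) * D.b x))) +
      -(r - D.t x) * (2 * σ)⁻¹ * (2 * σ * D.b x * (r ^ (n + 1) * (A r * P (r * D.b x)))) with hg'
  have pg : Poly g := ((Poly.const _).mul D.poly_b).mul ((Poly.radius.pow _).mul (pA.mul pP))
  have pg' : Poly g' := (((Poly.const _).mul D.poly_b).mul
      ((((Poly.const ((n : ℝ) + 1)).mul (Poly.radius.pow n)).mul (pA.mul pP)).add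
        ((Poly.radius.pow _).mul ((pA'.mul pP).add (pA.mul (pP'.mul D.poly_b)))))).add
      (((Poly.radius.sub D.poly_t).neg.mul (Poly.const _)).mul pg)
  refine D.cone_zero
    (F := fun x r => 2 * σ * (phi (n + 1) σ r (D.t x) * (r ^ (n + 1) *
        (A r * P' (r * D.b x) * D.q x + A' r * P (r * D.b x) * D.b x))) -
      phi (n + 1) σ r (D.t x) * (r ^ (n + 1) * (A r * P (r * D.b x) * (r * D.b x + D.su x))))
    (B := fun x r => phi (n + 1) σ r (D.t x) * g' x r) ?_ (D.integrable_poly hσ pg') ?_ ?_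
  · exact ((D.integrable_poly hσ ((Poly.radius.pow _).mul pL)).const_mul _).sub
      (D.integrable_poly hσ ((Poly.radius.pow _).mul pR))
  · refine fun x => D.radial_zero hσ pg pg' x (fun r => ?_) (by simp [hg])
    have h3 := ((hasDerivAt_pow (n + 1) r).fun_mul ((hA' r).fun_mul
      ((hP' (r * D.b x)).comp r ((hasDerivAt_id r).mul_const (D.b x))))).const_mul
        (2 * σ * D.b x)
    refine ((hasDerivAt_phi_r (m := n + 1) σ r (D.t x)).fun_mul h3).congr_deriv ?_
    simp only [hg', Function.comp_apply, id_eq]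
    push_cast
    field_simp
    ring
  · intro r _
    calc _ = ∫ x, 2 * σ * r ^ n * A r * (phi (n + 1) σ r (D.t x) *
          (-((n + 1 : ℕ) : ℝ) * D.b x * P (r * D.b x) -
            r / (2 * σ) * P (r * D.b x) * (D.t x * D.b x + D.su x) +
            r * P' (r * D.b x) * (D.q x - D.b x ^ 2))) ∂D.μ := by
            refine integral_congr_ae (ae_of_all _ fun x => ?_)
            simp only [hg']
            have := hσ.ne'
            push_cast
            field_simp
            ring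
      _ = 0 := by rw [integral_const_mul, D.green_b hP hP' σ r, mul_zero]

lemma theta_mono (hm : 1 ≤ m) {σ S : ℝ} (hσ : 0 < σ) (hS : σ ≤ S) : D.theta σ ≤ D.theta S := by
  have hd : ∀ s : ℝ, 0 < s → HasDerivAt D.theta
      (D.I s (fun x _ => D.s2 x * 1) / (4 * s ^ 2)) s := fun s hs => by
    have h := D.deriv_test hm (oneTest D) hs
    refine h.congr_deriv ?_
    have : D.I s (oneTest D).lf = 0 := by simp [Data.I, oneTest]
    rw [this, zero_add]
    rfl
  refine monotoneOn_of_hasDerivWithinAt_nonneg (convex_Ici σ)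
    (fun s hs => (hd s (lt_of_lt_of_le hσ hs)).continuousAt.continuousWithinAt)
    (f' := fun s => D.I s (fun x _ => D.s2 x * 1) / (4 * s ^ 2)) (fun s hs => ?_) (fun s hs => ?_)
    self_mem_Ici hS hS
  · rw [interior_Ici] at hs
    exact (hd s (hσ.trans hs)).hasDerivWithinAt
  · rw [interior_Ici] at hs
    refine div_nonneg (integral_nonneg_of_ae ?_) (by positivity)
    filter_upwards [D.cone_ae_pos] with z hz
    have := phi_nonneg (m := m) (hσ.trans hs) z.2 (D.t z.1)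
    have := (D.s2_mem z.1).1
    simp only [Pi.zero_apply, mul_one]
    positivity

lemma theta_asymp {S ε : ℝ} (hS : 0 < S) (hε : 0 < ε) (hε1 : ε < 1) :
    D.theta S ≤ Real.exp (1 / (4 * ε * S)) * (1 - ε) ^ (-(((m : ℝ) + 1) / 2)) *
      (D.μ.real univ / sphereArea m) := by
  have := D.finite
  set b := (1 - ε) / (4 * S) with hb
  have hb0 : 0 < b := div_pos (by linarith) (by linarith)
  set K := (4 * Real.pi * S) ^ (-(((m : ℝ) + 1) / 2)) * Real.exp (1 / (4 * ε * S)) with hK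
  have hK0 : 0 ≤ K := by have := Real.pi_pos; positivity
  have hg : IntegrableOn (fun r : ℝ => r ^ (m : ℝ) * Real.exp (-b * r ^ 2)) (Ioi 0) :=
    (integrable_rpow_mul_exp_neg_mul_sq hb0 (by linarith [m.cast_nonneg (α := ℝ)])).integrableOn
  have hint : Integrable (fun z : X × ℝ => z.2 ^ m * phi m S z.2 (D.t z.1) * 1) D.cone :=
    (D.integrable_poly hS (Poly.radius.pow m)).congr (ae_of_all _ fun z => by ring)
  have hle : D.theta S ≤ ∫ z, K * (z.2 ^ (m : ℝ) * Real.exp (-b * z.2 ^ 2)) ∂D.cone := by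
    refine integral_mono_ae hint ((hg.comp_snd D.μ).const_mul K) ?_
    filter_upwards [D.cone_ae_pos] with z hz
    rw [Real.rpow_natCast, mul_one, hK]
    unfold phi
    have key : Real.exp (-(z.2 ^ 2 - 2 * z.2 * D.t z.1 + 1) / (4 * S)) ≤
        Real.exp (1 / (4 * ε * S)) * Real.exp (-b * z.2 ^ 2) := by
      rw [← Real.exp_add, Real.exp_le_exp, hb]
      have h2 : 2 * z.2 ≤ ε * z.2 ^ 2 + 1 / ε := by
        rw [← sub_nonneg]
        have : ε * z.2 ^ 2 + 1 / ε - 2 * z.2 = (ε * z.2 - 1) ^ 2 / ε := by field_simp; ring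
        rw [this]; positivity
      have h1 : -(z.2 ^ 2 - 2 * z.2 * D.t z.1 + 1) ≤ -(1 - ε) * z.2 ^ 2 + 1 / ε := by
        nlinarith [mul_le_mul_of_nonneg_left (abs_le.1 (D.abs_t z.1)).2 hz.le]
      calc _ ≤ (-(1 - ε) * z.2 ^ 2 + 1 / ε) / (4 * S) := by gcongr
        _ = _ := by field_simp; ring
    have hp : 0 ≤ z.2 ^ m * (4 * Real.pi * S) ^ (-(((m : ℝ) + 1) / 2)) := by
      have := Real.pi_pos; positivity
    calc _ = z.2 ^ m * (4 * Real.pi * S) ^ (-(((m : ℝ) + 1) / 2)) *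
          Real.exp (-(z.2 ^ 2 - 2 * z.2 * D.t z.1 + 1) / (4 * S)) := by ring
      _ ≤ _ := mul_le_mul_of_nonneg_left key hp
      _ = _ := by ring
  refine hle.trans (le_of_eq ?_)
  unfold Data.cone
  rw [integral_prod (fun z : X × ℝ => K * (z.2 ^ (m : ℝ) * Real.exp (-b * z.2 ^ 2)))
    ((hg.comp_snd D.μ).const_mul K)]
  have hgam : ∫ r in Ioi (0 : ℝ), r ^ (m : ℝ) * Real.exp (-b * r ^ 2) =
      b ^ (-((m : ℝ) + 1) / 2) * (1 / 2) * Real.Gamma (((m : ℝ) + 1) / 2) := by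
    have h := integral_rpow_mul_exp_neg_mul_rpow (p := 2) (q := (m : ℝ)) two_pos
      (by linarith [m.cast_nonneg (α := ℝ)]) hb0
    simp only [Real.rpow_two] at h
    exact h
  simp only [integral_const_mul, hgam, integral_const, smul_eq_mul]
  have hπ := Real.pi_pos
  have e1 : (4 * Real.pi * S) ^ (-(((m : ℝ) + 1) / 2)) * b ^ (-((m : ℝ) + 1) / 2) =
      (1 - ε) ^ (-(((m : ℝ) + 1) / 2)) * Real.pi ^ (-(((m : ℝ) + 1) / 2)) := by
    rw [neg_div, ← Real.mul_rpow (by positivity) hb0.le, ← Real.mul_rpow (by linarith) hπ.le, hb]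
    congr 1
    field_simp
  rw [hK, sphereArea]
  rw [Real.rpow_neg hπ.le] at e1
  have hG : Real.Gamma (((m : ℝ) + 1) / 2) ≠ 0 := (Real.Gamma_pos_of_pos (by positivity)).ne'
  have hpp : Real.pi ^ (((m : ℝ) + 1) / 2) ≠ 0 := by positivity
  calc _ = ((4 * Real.pi * S) ^ (-(((m : ℝ) + 1) / 2)) * b ^ (-((m : ℝ) + 1) / 2)) *
        (Real.exp (1 / (4 * ε * S)) * (D.μ.real univ * (1 / 2) *
          Real.Gamma (((m : ℝ) + 1) / 2))) := by ring
    _ = _ := by rw [e1]; field_simp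

lemma theta_le' (hm : 1 ≤ m) {σ : ℝ} (hσ : 0 < σ) :
    D.theta σ ≤ D.μ.real univ / sphereArea m := by
  set V := D.μ.real univ / sphereArea m
  -- S = n^2, ε = 1/n
  set u : ℝ → ℝ := fun n => Real.exp (1 / (4 * n)) * (1 - 1 / n) ^ (-(((m : ℝ) + 1) / 2)) * V
    with hu
  have hlim : Tendsto u atTop (𝓝 V) := by
    have h0 : Tendsto (fun n : ℝ => 1 / n) atTop (𝓝 0) := by
      simpa [one_div] using tendsto_inv_atTop_zero (𝕜 := ℝ)
    have h1 : Tendsto (fun n : ℝ => Real.exp (1 / (4 * n))) atTop (𝓝 1) := by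
      have : Tendsto (fun n : ℝ => 1 / (4 * n)) atTop (𝓝 0) :=
        h0.comp (tendsto_id.const_mul_atTop (by norm_num : (0 : ℝ) < 4))
      simpa using this.rexp
    have h2 : Tendsto (fun n : ℝ => (1 - 1 / n) ^ (-(((m : ℝ) + 1) / 2))) atTop (𝓝 1) := by
      simpa using ((h0.const_sub 1).rpow_const (p := -(((m : ℝ) + 1) / 2))
        (Or.inl (by norm_num)))
    simpa [hu] using (h1.mul h2).mul_const V
  refine ge_of_tendsto hlim ?_
  filter_upwards [eventually_ge_atTop (max 2 σ)] with n hn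
  have hn2 : 2 ≤ n := (le_max_left _ _).trans hn
  have hσn : σ ≤ n := (le_max_right _ _).trans hn
  refine (D.theta_mono hm hσ (show σ ≤ n ^ 2 by nlinarith)).trans ?_
  refine (D.theta_asymp (S := n ^ 2) (ε := 1 / n) (by positivity) (by positivity)
    (by rw [div_lt_one] <;> linarith)).trans (le_of_eq ?_)
  rw [hu]
  congr 3
  field_simp

lemma dist_sq_ge (hp : ∀ x, D.t x = 1 → x = D.p) {W : Set X} (hW : IsOpen W) (hpW : D.p ∈ W)
    {η : ℝ} (hη : 0 < η) (hη1 : η ≤ 1 / 2) :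
    ∃ δ : ℝ, 0 < δ ∧ ∀ x r, 0 < r → (x ∉ W ∨ η ≤ |r - 1|) →
      δ ≤ r ^ 2 - 2 * r * D.t x + 1 := by
  obtain ⟨d, hd, hdb⟩ : ∃ d : ℝ, 0 < d ∧ ∀ x ∉ W, d ≤ 1 - D.t x := by
    rcases Wᶜ.eq_empty_or_nonempty with h | h
    · exact ⟨1, one_pos, fun x hx => absurd (h ▸ hx : x ∈ (∅ : Set X)) (notMem_empty x)⟩
    · obtain ⟨y, hy, hmin⟩ := hW.isClosed_compl.isCompact.exists_isMinOn h
        (continuous_const.sub (D.sm_cont _ D.sm_t)).continuousOn
      refine ⟨1 - D.t y, ?_, fun x hx => hmin hx⟩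
      rcases lt_or_eq_of_le (abs_le.1 (D.abs_t y)).2 with hlt | he
      · linarith
      · exact absurd ((hp y he) ▸ hpW) hy
  refine ⟨min (η ^ 2) d, lt_min (by positivity) hd, fun x r hr h => ?_⟩
  have ht := (abs_le.1 (D.abs_t x)).2
  rcases le_or_gt η |r - 1| with h1 | h1
  · refine (min_le_left _ _).trans ?_
    nlinarith [sq_abs (r - 1), abs_nonneg (r - 1)]
  · refine (min_le_right _ _).trans ?_
    have hx := hdb x (h.resolve_right (not_le.2 h1))
    obtain ⟨h2, h3⟩ := abs_lt.1 h1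
    nlinarith [sq_nonneg (r - 1)]

lemma concentrate' (hm : 1 ≤ m) (hp : ∀ x, D.t x = 1 → x = D.p) {f : X → ℝ → ℝ}
    (hf : Continuous fun z : X × ℝ => f z.1 z.2) (hb : ∃ C, ∀ x r, 0 < r → |f x r| ≤ C) :
    Tendsto (fun σ => D.I σ f - f D.p 1 * D.theta σ) (𝓝[>] 0) (𝓝 0) := by
  have := D.finite
  obtain ⟨C, hC⟩ := hb
  set c := f D.p 1 with hc
  set C2 := max (C + |c|) 0 with hC2
  set V := D.μ.real univ / sphereArea m with hV
  have hV0 : 0 ≤ V := div_nonneg measureReal_nonneg (sphereArea_pos m).le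
  rw [Metric.tendsto_nhds]
  intro ε hε
  set e := ε / (2 * (V + 1)) with he
  have he0 : 0 < e := by positivity
  obtain ⟨W, η, hW, hpW, hη, hη1, hWη⟩ : ∃ W η, IsOpen W ∧ D.p ∈ W ∧ 0 < η ∧ η ≤ (1 / 2 : ℝ) ∧
      ∀ x ∈ W, ∀ r : ℝ, |r - 1| < η → |f x r - c| ≤ e := by
    have hn : {z : X × ℝ | |f z.1 z.2 - c| < e} ∈ 𝓝 (D.p, (1 : ℝ)) :=
      (isOpen_lt (hf.sub continuous_const).abs continuous_const).mem_nhds (by simp [he0, c])
    rw [nhds_prod_eq, Filter.mem_prod_iff] at hn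
    obtain ⟨W₀, hW₀, J, hJ, hsub⟩ := hn
    obtain ⟨W, hWs, hW, hpW⟩ := mem_nhds_iff.1 hW₀
    obtain ⟨η, hη, hηJ⟩ := Metric.mem_nhds_iff.1 hJ
    refine ⟨W, min η (1 / 2), hW, hpW, lt_min hη (by norm_num), min_le_right _ _,
      fun x hx r hr => le_of_lt ?_⟩
    exact hsub (mk_mem_prod (hWs hx)
      (hηJ (by rw [Metric.mem_ball, Real.dist_eq]; exact hr.trans_le (min_le_left _ _))))
  obtain ⟨δ, hδ, hδb⟩ := D.dist_sq_ge hp hW hpW hη hη1
  set J0 := ∫ z, z.2 ^ (m : ℝ) * Real.exp (-(1 / 16) * z.2 ^ 2) ∂D.cone with hJ0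
  have hgi : IntegrableOn (fun r : ℝ => r ^ (m : ℝ) * Real.exp (-(1 / 16) * r ^ 2)) (Ioi 0) :=
    (integrable_rpow_mul_exp_neg_mul_sq (by norm_num : (0 : ℝ) < 1 / 16)
      (by linarith [m.cast_nonneg (α := ℝ)])).integrableOn
  set tail : ℝ → ℝ := fun σ =>
    C2 * Real.exp (1 / 8) * ((4 * Real.pi * σ) ^ (-(((m : ℝ) + 1) / 2)) *
      Real.exp (-δ / (8 * σ))) * J0 with htail
  have htl : Tendsto tail (𝓝[>] 0) (𝓝 0) := by
    have hπ := Real.pi_pos
    have h1 := (tendsto_rpow_mul_exp_neg_mul_atTop_nhds_zero (((m : ℝ) + 1) / 2) (δ / 8)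
      (by positivity)).comp (tendsto_inv_nhdsGT_zero (𝕜 := ℝ))
    have h2 := ((h1.const_mul ((4 * Real.pi) ^ (-(((m : ℝ) + 1) / 2)))).const_mul
      (C2 * Real.exp (1 / 8))).mul_const J0
    simp only [mul_zero, zero_mul] at h2
    refine h2.congr' ?_
    filter_upwards [self_mem_nhdsWithin] with σ hσ
    rw [mem_Ioi] at hσ
    simp only [htail, Function.comp_apply]
    rw [Real.mul_rpow (by positivity) hσ.le, Real.inv_rpow hσ.le, ← Real.rpow_neg hσ.le]
    rw [show -(δ / 8) * σ⁻¹ = -δ / (8 * σ) by field_simp]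
    ring
  filter_upwards [Metric.tendsto_nhds.1 htl (ε / 2) (by positivity),
    Ioc_mem_nhdsGT (show (0 : ℝ) < 1 by norm_num)] with σ ht hσ
  have hσ0 : 0 < σ := hσ.1
  rw [Real.dist_eq, sub_zero] at ht ⊢
  have pf : Poly f := Poly.of_bound hf hC
  have hdiff : D.I σ f - c * D.theta σ =
      ∫ z, phi m σ z.2 (D.t z.1) * (z.2 ^ m * (f z.1 z.2 - c)) ∂D.cone := by
    have h := D.I_split hσ0 pf (Poly.const 1) (-c)
    rw [show D.theta σ = D.I σ (fun _ _ => 1) from rfl, sub_eq_add_neg, ← neg_mul, ← h, I_eq]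
    congr 1
    funext z
    ring
  have hth : Integrable (fun z : X × ℝ => z.2 ^ m * phi m σ z.2 (D.t z.1) * 1) D.cone :=
    (D.integrable_poly hσ0 (Poly.radius.pow m)).congr (ae_of_all _ fun z => by ring)
  set T2 : X × ℝ → ℝ := fun z => C2 * Real.exp (1 / 8) *
    ((4 * Real.pi * σ) ^ (-(((m : ℝ) + 1) / 2)) * Real.exp (-δ / (8 * σ))) *
      (z.2 ^ (m : ℝ) * Real.exp (-(1 / 16) * z.2 ^ 2)) with hT2
  have hT2i : Integrable T2 D.cone := (hgi.comp_snd D.μ).const_mul _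
  have hpt : ∀ᵐ z ∂D.cone, ‖phi m σ z.2 (D.t z.1) * (z.2 ^ m * (f z.1 z.2 - c))‖ ≤
      e * (z.2 ^ m * phi m σ z.2 (D.t z.1) * 1) + T2 z := by
    filter_upwards [D.cone_ae_pos] with z hz
    have hπ := Real.pi_pos
    have hph := phi_nonneg (m := m) hσ0 z.2 (D.t z.1)
    have hC20 : 0 ≤ C2 := le_max_right _ _
    have hT20 : 0 ≤ T2 z := by rw [hT2]; positivity
    rw [Real.norm_eq_abs, abs_mul, abs_mul, abs_of_nonneg hph,
      abs_of_nonneg (by positivity : (0 : ℝ) ≤ z.2 ^ m)]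
    by_cases hin : z.1 ∈ W ∧ |z.2 - 1| < η
    · have := hWη z.1 hin.1 z.2 hin.2
      calc _ ≤ phi m σ z.2 (D.t z.1) * (z.2 ^ m * e) := by gcongr
        _ ≤ _ := by linarith
    · rw [not_and_or, not_lt] at hin
      have hq := hδb z.1 z.2 hz hin
      have hfc : |f z.1 z.2 - c| ≤ C2 :=
        (abs_sub _ _).trans ((by linarith [hC z.1 z.2 hz] : _ ≤ C + |c|).trans (le_max_left _ _))
      have hex : Real.exp (-(z.2 ^ 2 - 2 * z.2 * D.t z.1 + 1) / (4 * σ)) ≤
          Real.exp (-δ / (8 * σ)) * (Real.exp (1 / 8) * Real.exp (-(1 / 16) * z.2 ^ 2)) := by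
        rw [← Real.exp_add, ← Real.exp_add, Real.exp_le_exp]
        set q := z.2 ^ 2 - 2 * z.2 * D.t z.1 + 1 with hqd
        have h1 : q / 8 ≤ q / (8 * σ) :=
          div_le_div_of_nonneg_left (hδ.le.trans hq) (by positivity) (by linarith [hσ.2])
        have h2 : δ / (8 * σ) ≤ q / (8 * σ) := by gcongr
        have h3 : z.2 ^ 2 / 2 - 1 ≤ q := by
          nlinarith [mul_le_mul_of_nonneg_left (abs_le.1 (D.abs_t z.1)).2 hz.le,
            sq_nonneg (z.2 - 2)]
        rw [show -q / (4 * σ) = -(q / (8 * σ)) - q / (8 * σ) by field_simp; ring, neg_div]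
        linarith
      have h4 : phi m σ z.2 (D.t z.1) * (z.2 ^ m * |f z.1 z.2 - c|) ≤ T2 z := by
        calc _ ≤ (4 * Real.pi * σ) ^ (-(((m : ℝ) + 1) / 2)) * (Real.exp (-δ / (8 * σ)) *
              (Real.exp (1 / 8) * Real.exp (-(1 / 16) * z.2 ^ 2))) * (z.2 ^ m * C2) := by
              refine mul_le_mul (mul_le_mul_of_nonneg_left hex (by positivity)) (by gcongr)
                (by positivity) (by positivity)
          _ = T2 z := by simp only [hT2, Real.rpow_natCast]; ring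
      have : 0 ≤ e * (z.2 ^ m * phi m σ z.2 (D.t z.1) * 1) := by positivity
      linarith
  have hsum := (hth.const_mul e).add hT2i
  rw [hdiff, ← Real.norm_eq_abs]
  refine lt_of_le_of_lt (norm_integral_le_of_norm_le hsum hpt) ?_
  rw [integral_add' (hth.const_mul e) hT2i, integral_const_mul]
  have h1 : e * D.theta σ ≤ ε / 2 := by
    calc e * D.theta σ ≤ e * V := mul_le_mul_of_nonneg_left (D.theta_le' hm hσ0) he0.le
      _ ≤ e * (V + 1) := by nlinarith
      _ = _ := by rw [he]; field_simp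
  have h2 : ∫ z, T2 z ∂D.cone = tail σ := by
    simp only [hT2, htail, hJ0, integral_const_mul]
  rw [h2]
  have h3 : e * ∫ z, z.2 ^ m * phi m σ z.2 (D.t z.1) * 1 ∂D.cone ≤ ε / 2 := h1
  linarith [(abs_lt.1 ht).2]

end Data

/-- **The cone module.** -/
theorem cone_stmt {m : ℕ} {X : Type*} [TopologicalSpace X] [CompactSpace X] [T2Space X]
    [MeasurableSpace X] [BorelSpace X] (hm : 2 ≤ m) (D : Data m X) : ConeStmt D where
  integrable σ hσ f hf hb := by
    obtain ⟨C, hC⟩ := hb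
    have pf : Poly f := ⟨hf, max C 0, 1, le_max_right _ _, fun x r hr => by
      rw [pow_one]
      exact (hC x r hr).trans (mul_le_mul_of_nonneg_right (le_max_left _ _) (by linarith))⟩
    exact (D.integrable_poly hσ ((Poly.radius.pow m).mul pf)).congr
      (ae_of_all _ fun z => by ring)
  deriv T σ hσ := D.deriv_test (by omega) T hσ
  ibp A A' P P' hA hP hA' hP' hb σ hσ := by
    refine D.ibp_aux (by omega) hP hA' hP' hb ⟨?_, ?_⟩ hσ
    · rw [show A' = deriv A from funext fun r => (hA' r).deriv.symm]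
      exact hA.continuous_deriv (by simp)
    · rw [show P' = deriv P from funext fun r => (hP' r).deriv.symm]
      exact hP.continuous_deriv (by simp)
  concentrate hp f hf hb := D.concentrate' (by omega) hp hf hb
  theta_le σ hσ := D.theta_le' (by omega) hσ

end Vale.Agent.P224.Gap
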