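import Mathlib

/-!
P224, uniform volume gap: the radial cutoff and the saturated height square.
-/

namespace Vale.Agent.P224.Gap

open scoped ContDiff

/-- Radial cutoff `2r²/(1+r⁴)`. -/
noncomputable def gR (r : ℝ) : ℝ := 2 * r ^ 2 / (1 + r ^ 4)

/-- `gR r / r²`. -/
noncomputable def wR (r : ℝ) : ℝ := 2 / (1 + r ^ 4)

/-- `gR' r / r`. -/
noncomputable def dR (r : ℝ) : ℝ := 4 * (1 - r ^ 4) / (1 + r ^ 4) ^ 2

/-- The second derivative of `gR`. -/
noncomputable def g2R (r : ℝ) : ℝ :=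
  4 * (1 - 5 * r ^ 4) / (1 + r ^ 4) ^ 2 - 32 * r ^ 4 * (1 - r ^ 4) / (1 + r ^ 4) ^ 3

/-- The radial Laplacian of `gR` on a cone of dimension `m + 1`. -/
noncomputable def lR (m : ℕ) (r : ℝ) : ℝ := g2R r + m * dR r

/-- The saturated square `W h²/(W+h²)`. -/
noncomputable def psi (W h : ℝ) : ℝ := W * h ^ 2 / (W + h ^ 2)

/-- Half the derivative of `psi`. -/
noncomputable def half1 (W h : ℝ) : ℝ := W ^ 2 * h / (W + h ^ 2) ^ 2

/-- Half the second derivative of `psi`. -/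
noncomputable def half2 (W h : ℝ) : ℝ := W ^ 2 * (W - 3 * h ^ 2) / (W + h ^ 2) ^ 3

theorem den_pos (r : ℝ) : 0 < 1 + r ^ 4 := by positivity

theorem contDiff_gR : ContDiff ℝ ∞ gR :=
  (by fun_prop : ContDiff ℝ ∞ fun r : ℝ => 2 * r ^ 2).div (by fun_prop) fun r => (den_pos r).ne'

theorem gR_deriv (r : ℝ) : HasDerivAt gR (r * dR r) r := by
  have h := (((hasDerivAt_pow 2 r).const_mul (2 : ℝ)).div ((hasDerivAt_pow 4 r).const_add 1)
    (den_pos r).ne')
  refine h.congr_deriv ?_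
  have := (den_pos r).ne'
  unfold dR
  field_simp
  push_cast
  ring

theorem gR_deriv2 (r : ℝ) : HasDerivAt (fun s => s * dR s) (g2R r) r := by
  have h := (hasDerivAt_id r).mul (((((hasDerivAt_pow 4 r).const_sub 1).const_mul (4 : ℝ)).div
    (((hasDerivAt_pow 4 r).const_add 1).pow 2) (pow_ne_zero 2 (den_pos r).ne')))
  refine (h.congr_of_eventuallyEq ?_).congr_deriv ?_
  · exact Filter.Eventually.of_forall fun s => by simp [dR]
  · have := (den_pos r).ne'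
    simp only [id_eq, g2R, Pi.pow_apply, Pi.div_apply]
    field_simp
    push_cast
    ring

theorem gR_nonneg (r : ℝ) : 0 ≤ gR r := by unfold gR; positivity

theorem gR_le (r : ℝ) : gR r ≤ 1 := by
  unfold gR; rw [div_le_one (den_pos r)]; nlinarith [sq_nonneg (r ^ 2 - 1)]

theorem gR_one : gR 1 = 1 := by norm_num [gR]

theorem wR_nonneg (r : ℝ) : 0 ≤ wR r := by unfold wR; positivity

theorem wR_le (r : ℝ) : wR r ≤ 2 := by
  unfold wR; rw [div_le_iff₀ (den_pos r)]; nlinarith [sq_nonneg (r ^ 2)]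

theorem sq_mul_wR (r : ℝ) : r ^ 2 * wR r = gR r := by unfold wR gR; ring

theorem abs_dR (r : ℝ) : |dR r| ≤ 4 := by
  have h := den_pos r
  unfold dR
  rw [abs_div, abs_of_pos (pow_pos h 2), div_le_iff₀ (pow_pos h 2), abs_le]
  constructor <;> nlinarith [pow_nonneg (sq_nonneg r) 2, sq_nonneg (r ^ 4)]

theorem abs_mul_dR (r : ℝ) : |r * dR r| ≤ 4 := by
  have h := den_pos r
  unfold dR
  rw [mul_div_assoc', abs_div, abs_of_pos (pow_pos h 2), div_le_iff₀ (pow_pos h 2)]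
  have h1 : |r| ≤ 1 + r ^ 4 := by
    nlinarith [sq_abs r, sq_nonneg (|r| - 1), sq_nonneg (r ^ 2 - 1), sq_nonneg r, abs_nonneg r]
  have h2 : |4 * (1 - r ^ 4)| ≤ 4 * (1 + r ^ 4) := by
    rw [abs_le]; constructor <;> nlinarith [pow_nonneg (sq_nonneg r) 2]
  calc |r * (4 * (1 - r ^ 4))| = |r| * |4 * (1 - r ^ 4)| := abs_mul _ _
    _ ≤ (1 + r ^ 4) * (4 * (1 + r ^ 4)) := mul_le_mul h1 h2 (abs_nonneg _) h.le
    _ = 4 * (1 + r ^ 4) ^ 2 := by ring

theorem abs_g2R (r : ℝ) : |g2R r| ≤ 18 := by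
  have h := den_pos r
  set u := r ^ 4 with hu
  have u0 : 0 ≤ u := by positivity
  have a1 : |4 * (1 - 5 * u) / (1 + u) ^ 2| ≤ 10 := by
    rw [abs_div, abs_of_pos (pow_pos h 2), div_le_iff₀ (pow_pos h 2), abs_le]
    constructor <;> nlinarith [sq_nonneg (u - 1)]
  have a2 : |32 * u * (1 - u) / (1 + u) ^ 3| ≤ 8 := by
    rw [abs_div, abs_of_pos (pow_pos h 3), div_le_iff₀ (pow_pos h 3), abs_le]
    constructor <;> nlinarith [mul_nonneg u0 (sq_nonneg (u - 1)), sq_nonneg (u - 1)]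
  unfold g2R
  rw [← hu]
  calc |4 * (1 - 5 * u) / (1 + u) ^ 2 - 32 * u * (1 - u) / (1 + u) ^ 3|
      ≤ |4 * (1 - 5 * u) / (1 + u) ^ 2| + |32 * u * (1 - u) / (1 + u) ^ 3| := abs_sub _ _
    _ ≤ 18 := by linarith

theorem abs_lR {m : ℕ} (hm : 2 ≤ m) (r : ℝ) : |lR m r| ≤ 13 * m := by
  have hm' : (2 : ℝ) ≤ m := by exact_mod_cast hm
  have h1 := abs_le.1 (abs_g2R r)
  have h2 := abs_le.1 (abs_dR r)
  unfold lR
  rw [abs_le]
  constructor <;> nlinarith

/-- `|w - g| ≤ e + η/e`. -/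
theorem wR_ge (r : ℝ) {e : ℝ} (he : 0 < e) : gR r - (e + (1 - gR r) / e) ≤ wR r := by
  have h := den_pos r
  set z := (r ^ 2 - 1) ^ 2 / (1 + r ^ 4) with hz
  have hg : 1 - gR r = z := by rw [hz, gR]; field_simp; ring
  have key : (gR r - wR r) ^ 2 ≤ 4 * z := by
    have : gR r - wR r = 2 * (r ^ 2 - 1) / (1 + r ^ 4) := by rw [gR, wR]; ring
    rw [this, hz, div_pow, ← mul_div_assoc, div_le_div_iff₀ (pow_pos h 2) h]
    nlinarith [mul_nonneg (sq_nonneg (r ^ 2 - 1)) (pow_nonneg (sq_nonneg r) 2), sq_nonneg (r ^ 2 - 1)]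
  have z0 : 0 ≤ z := by positivity
  rw [hg]
  have h4 : 4 * z ≤ (e + z / e) ^ 2 := by
    have : z = e * (z / e) := by field_simp
    nlinarith [sq_nonneg (e - z / e)]
  nlinarith [sq_nonneg (gR r - wR r - (e + z / e)), div_nonneg z0 he.le]

variable {W : ℝ}

theorem pden_pos (hW : 0 < W) (h : ℝ) : 0 < W + h ^ 2 := by positivity

theorem contDiff_psi (hW : 0 < W) : ContDiff ℝ ∞ (psi W) :=
  (by fun_prop : ContDiff ℝ ∞ fun h : ℝ => W * h ^ 2).div (by fun_prop) fun h => (pden_pos hW h).ne'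

theorem contDiff_half1 (hW : 0 < W) : ContDiff ℝ ∞ (half1 W) :=
  (by fun_prop : ContDiff ℝ ∞ fun h : ℝ => W ^ 2 * h).div (by fun_prop)
    fun h => pow_ne_zero 2 (pden_pos hW h).ne'

theorem psi_deriv (hW : 0 < W) (h : ℝ) : HasDerivAt (psi W) (2 * half1 W h) h := by
  have := ((hasDerivAt_pow 2 h).const_mul W).div ((hasDerivAt_pow 2 h).const_add W)
    (pden_pos hW h).ne'
  refine this.congr_deriv ?_
  have := (pden_pos hW h).ne'
  unfold half1
  field_simp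
  push_cast
  ring

theorem half1_deriv (hW : 0 < W) (h : ℝ) : HasDerivAt (half1 W) (half2 W h) h := by
  have := ((hasDerivAt_id h).const_mul (W ^ 2)).div (((hasDerivAt_pow 2 h).const_add W).pow 2)
    (pow_ne_zero 2 (pden_pos hW h).ne')
  refine this.congr_deriv ?_
  have := (pden_pos hW h).ne'
  simp only [id_eq, half2, Pi.pow_apply]
  field_simp
  push_cast
  ring

theorem psi_nonneg (hW : 0 < W) (h : ℝ) : 0 ≤ psi W h := by
  have := pden_pos hW h; unfold psi; positivity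

theorem psi_le (hW : 0 < W) (h : ℝ) : psi W h ≤ W := by
  unfold psi; rw [div_le_iff₀ (pden_pos hW h)]; nlinarith

theorem half1_mul_eq (hW : 0 < W) (h : ℝ) : half1 W h * h = psi W h * (W / (W + h ^ 2)) := by
  unfold half1 psi; field_simp

theorem frac_mem (hW : 0 < W) (h : ℝ) : 0 ≤ W / (W + h ^ 2) ∧ W / (W + h ^ 2) ≤ 1 := by
  refine ⟨div_nonneg hW.le (pden_pos hW h).le, ?_⟩
  rw [div_le_one (pden_pos hW h)]; nlinarith [sq_nonneg h]

theorem half1_mul_mem (hW : 0 < W) (h : ℝ) :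
    0 ≤ half1 W h * h ∧ half1 W h * h ≤ psi W h := by
  rw [half1_mul_eq hW]
  exact ⟨mul_nonneg (psi_nonneg hW h) (frac_mem hW h).1,
    mul_le_of_le_one_right (psi_nonneg hW h) (frac_mem hW h).2⟩

theorem half1_sq (hW : 0 < W) (h : ℝ) : half1 W h ^ 2 ≤ psi W h := by
  have e : half1 W h ^ 2 = psi W h * (W / (W + h ^ 2)) ^ 3 := by
    unfold half1 psi; field_simp
  rw [e]
  exact mul_le_of_le_one_right (psi_nonneg hW h) (pow_le_one₀ (frac_mem hW h).1 (frac_mem hW h).2)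

theorem abs_half1 (hW : 0 < W) (h : ℝ) : |half1 W h| ≤ W + 1 := by
  have h1 := half1_sq hW h
  have h2 := psi_le hW h
  rw [abs_le]; constructor <;> nlinarith [sq_nonneg (half1 W h - 1), sq_nonneg (half1 W h + 1)]

theorem abs_half2 (hW : 0 < W) (h : ℝ) : |half2 W h| ≤ 1 := by
  have hd := pow_pos (pden_pos hW h) 3
  unfold half2
  rw [abs_div, abs_of_pos hd, div_le_one hd, abs_le]
  have u0 := sq_nonneg h
  constructor <;> nlinarith [mul_nonneg (sq_nonneg W) u0, mul_nonneg hW.le (sq_nonneg (h ^ 2)),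
    pow_nonneg u0 3, pow_pos hW 3]

theorem one_sub_half2 (hW : 0 < W) (h : ℝ) : 1 - half2 W h ≤ 6 * psi W h / W := by
  have hd := pden_pos hW h
  have e : 6 * psi W h / W = 6 * h ^ 2 * (W + h ^ 2) ^ 2 / (W + h ^ 2) ^ 3 := by
    unfold psi; field_simp
  have e2 : 1 - half2 W h =
      ((W + h ^ 2) ^ 3 - W ^ 2 * (W - 3 * h ^ 2)) / (W + h ^ 2) ^ 3 := by
    unfold half2; field_simp
  rw [e, e2]
  refine div_le_div_of_nonneg_right ?_ (pow_nonneg hd.le 3)
  nlinarith [mul_nonneg (mul_nonneg hW.le (sq_nonneg h)) (sq_nonneg h), pow_nonneg (sq_nonneg h) 3]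

theorem psi_zero : psi W 0 = 0 := by simp [psi]

end Vale.Agent.P224.Gap
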