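import Vale.Agent.P224.Gap.Interfaces
import Vale.Agent.P224.Gap.Profile

/-!
P224, uniform volume gap: the test functions on the cone.
-/

namespace Vale.Agent.P224.Gap

open MeasureTheory Set Filter
open scoped Topology ContDiff

variable {m : ℕ} {X : Type*} [TopologicalSpace X] [CompactSpace X] [T2Space X]
  [MeasurableSpace X] [BorelSpace X] (D : Data m X)

theorem fderiv_fst_fun {F F1 : ℝ → ℝ} (h1 : ∀ s, HasDerivAt F (F1 s) s) (z : ℝ × ℝ) :
    fderiv ℝ (fun w : ℝ × ℝ => F w.1) z = F1 z.1 • ContinuousLinearMap.fst ℝ ℝ ℝ :=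
  ((h1 z.1).comp_hasFDerivAt z (hasFDerivAt_fst (p := z))).fderiv

theorem second_fst_fun {F F1 F2 : ℝ → ℝ} (h1 : ∀ s, HasDerivAt F (F1 s) s)
    (h2 : ∀ s, HasDerivAt F1 (F2 s) s) (z a c : ℝ × ℝ) :
    iteratedFDeriv ℝ 2 (fun w : ℝ × ℝ => F w.1) z ![a, c] = F2 z.1 * a.1 * c.1 := by
  rw [iteratedFDeriv_two_apply]
  have e : fderiv ℝ (fun w : ℝ × ℝ => F w.1) = fun w => F1 w.1 • ContinuousLinearMap.fst ℝ ℝ ℝ :=
    funext (fderiv_fst_fun h1)
  rw [e]
  have hf : HasFDerivAt (Prod.fst : ℝ × ℝ → ℝ) (ContinuousLinearMap.fst ℝ ℝ ℝ) z := hasFDerivAt_fst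
  have h := ((h2 z.1).comp_hasFDerivAt z hf).smul_const (ContinuousLinearMap.fst ℝ ℝ ℝ)
  simp only [Function.comp_apply] at h
  rw [h.fderiv]
  simp

/-- The Laplacian of a function of one smooth function. -/
theorem Data.lap_comp1 {f : X → ℝ} (hf : D.Sm f) {F F1 F2 : ℝ → ℝ} (hF : ContDiff ℝ ∞ F)
    (h1 : ∀ s, HasDerivAt F (F1 s) s) (h2 : ∀ s, HasDerivAt F1 (F2 s) s) (x : X) :
    D.Lap (fun y => F (f y)) x = F1 (f x) * D.Lap f x + F2 (f x) * D.G f f x := by
  rw [D.lap_comp f f hf hf (fun w => F w.1) (hF.comp contDiff_fst) x, fderiv_fst_fun h1,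
    second_fst_fun h1 h2, second_fst_fun h1 h2, second_fst_fun h1 h2]
  simp

theorem Data.sm_comp1 {f : X → ℝ} (hf : D.Sm f) {F : ℝ → ℝ} (hF : ContDiff ℝ ∞ F) :
    D.Sm fun y => F (f y) := D.sm_comp f f hf hf (fun w => F w.1) (hF.comp contDiff_fst)

theorem Data.lap_mul {f : X → ℝ} (hf : D.Sm f) (c : ℝ) (x : X) :
    D.Lap (fun y => c * f y) x = c * D.Lap f x := by
  rw [D.lap_comp1 hf (F := fun s => c * s) (F1 := fun _ => c) (F2 := fun _ => 0)
    (contDiff_const.mul contDiff_id) (fun s => by simpa using (hasDerivAt_id s).const_mul c)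
    (fun s => hasDerivAt_const s c) x]
  ring

theorem Data.lap_one (c : ℝ) (x : X) : D.Lap (fun _ => c) x = 0 := by
  rw [D.lap_comp1 D.sm_t (F := fun _ => c) (F1 := fun _ => 0) (F2 := fun _ => 0) contDiff_const
    (fun s => hasDerivAt_const s c) (fun s => hasDerivAt_const s 0) x]
  ring

omit [T2Space X] [MeasurableSpace X] [BorelSpace X] in
theorem Data.abs_bound {f : X → ℝ} (hf : Continuous f) : ∃ C, ∀ x, |f x| ≤ C := by
  obtain ⟨C, hC⟩ := isCompact_univ.exists_bound_of_continuousOn hf.continuousOn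
  exact ⟨C, fun x => hC x (mem_univ x)⟩

theorem continuous_gR : Continuous gR := contDiff_gR.continuous

theorem continuous_dR : Continuous dR :=
  (by fun_prop : Continuous fun r : ℝ => 4 * (1 - r ^ 4)).div (by fun_prop)
    fun r => pow_ne_zero 2 (den_pos r).ne'

theorem continuous_wR : Continuous wR :=
  continuous_const.div (by fun_prop) fun r => (den_pos r).ne'

theorem continuous_g2R : Continuous g2R :=
  ((by fun_prop : Continuous fun r : ℝ => 4 * (1 - 5 * r ^ 4)).div (by fun_prop)
    fun r => pow_ne_zero 2 (den_pos r).ne').sub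
  ((by fun_prop : Continuous fun r : ℝ => 32 * r ^ 4 * (1 - r ^ 4)).div (by fun_prop)
    fun r => pow_ne_zero 3 (den_pos r).ne')

theorem continuous_lR (m : ℕ) : Continuous (lR m) :=
  continuous_g2R.add (continuous_const.mul continuous_dR)

/-- The constant test. -/
noncomputable def oneTest : Test D where
  f _ _ := 1
  fr _ _ := 0
  frr _ _ := 0
  lf _ _ := 0
  cont_f := continuous_const
  cont_fr := continuous_const
  cont_frr := continuous_const
  cont_lf := continuous_const
  deriv1 _ r := hasDerivAt_const r 1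
  deriv2 _ r := hasDerivAt_const r 0
  sm _ := D.sm_const 1
  lap_eq x r _ := by rw [D.lap_one]; ring
  bound := ⟨1, fun x r _ => by simp⟩

/-- `1 - g`. -/
noncomputable def etaTest : Test D where
  f _ r := 1 - gR r
  fr _ r := -(r * dR r)
  frr _ r := -g2R r
  lf _ r := -lR m r
  cont_f := continuous_const.sub (continuous_gR.comp continuous_snd)
  cont_fr := (continuous_snd.mul (continuous_dR.comp continuous_snd)).neg
  cont_frr := (continuous_g2R.comp continuous_snd).neg
  cont_lf := ((continuous_lR m).comp continuous_snd).neg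
  deriv1 _ r := (gR_deriv r).const_sub 1
  deriv2 _ r := (gR_deriv2 r).neg
  sm r := D.sm_const _
  lap_eq x r _ := by rw [D.lap_one]; unfold lR; ring
  bound := ⟨22 + 4 * m, fun x r _ => by
    have h1 := gR_le r
    have h2 := gR_nonneg r
    have h3 := abs_g2R r
    have h4 := abs_dR r
    have h5 := abs_mul_dR r
    have hm : (0 : ℝ) ≤ m := m.cast_nonneg
    simp only [abs_neg, lR, abs_le] at *
    refine ⟨⟨?_, ?_⟩, ⟨?_, ?_⟩, ⟨?_, ?_⟩, ?_, ?_⟩ <;> nlinarith⟩

/-- `g · u` for a smooth `u` on the hypersurface. -/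
noncomputable def prodTest (u : X → ℝ) (hu : D.Sm u) : Test D where
  f x r := gR r * u x
  fr x r := r * dR r * u x
  frr x r := g2R r * u x
  lf x r := lR m r * u x + wR r * D.Lap u x
  cont_f := (continuous_gR.comp continuous_snd).mul ((D.sm_cont u hu).comp continuous_fst)
  cont_fr := (continuous_snd.mul (continuous_dR.comp continuous_snd)).mul
    ((D.sm_cont u hu).comp continuous_fst)
  cont_frr := (continuous_g2R.comp continuous_snd).mul ((D.sm_cont u hu).comp continuous_fst)
  cont_lf := (((continuous_lR m).comp continuous_snd).mul ((D.sm_cont u hu).comp continuous_fst)).add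
    ((continuous_wR.comp continuous_snd).mul ((D.lap_cont u hu).comp continuous_fst))
  deriv1 x r := (gR_deriv r).mul_const (u x)
  deriv2 x r := (gR_deriv2 r).mul_const (u x)
  sm r := D.sm_comp1 hu (F := fun s => gR r * s) (contDiff_const.mul contDiff_id)
  lap_eq x r _ := by
    rw [D.lap_mul hu, ← sq_mul_wR r]
    unfold lR
    ring
  bound := by
    obtain ⟨A, hA⟩ := Data.abs_bound (D.sm_cont u hu)
    obtain ⟨B, hB⟩ := Data.abs_bound (D.lap_cont u hu)
    refine ⟨(22 + 4 * m) * A + 2 * B, fun x r _ => ?_⟩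
    have hA0 : 0 ≤ A := (abs_nonneg _).trans (hA x)
    have hB0 : 0 ≤ B := (abs_nonneg _).trans (hB x)
    have hm : (0 : ℝ) ≤ m := m.cast_nonneg
    have hg : |gR r| ≤ 1 := by rw [abs_of_nonneg (gR_nonneg r)]; exact gR_le r
    have hl : |lR m r| ≤ 18 + m * 4 := (abs_add_le _ _).trans (add_le_add (abs_g2R r)
      (by rw [abs_mul, Nat.abs_cast]; exact mul_le_mul_of_nonneg_left (abs_dR r) hm))
    have hw : |wR r| ≤ 2 := by rw [abs_of_nonneg (wR_nonneg r)]; exact wR_le r
    have hbd : ∀ {a k : ℝ}, |a| ≤ k → |a * u x| ≤ k * A := fun {a k} h => by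
      rw [abs_mul]; exact mul_le_mul h (hA x) (abs_nonneg _) ((abs_nonneg _).trans h)
    refine ⟨(hbd hg).trans ?_, (hbd (abs_mul_dR r)).trans ?_, (hbd (abs_g2R r)).trans ?_, ?_⟩
    · nlinarith
    · nlinarith
    · nlinarith
    · have h2 : |wR r * D.Lap u x| ≤ 2 * B := by
        rw [abs_mul]; exact mul_le_mul hw (hB x) (abs_nonneg _) (by norm_num)
      exact (abs_add_le _ _).trans ((add_le_add (hbd hl) h2).trans (by nlinarith))

variable {W : ℝ}

theorem continuous_half2 (hW : 0 < W) : Continuous (half2 W) :=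
  (by fun_prop : Continuous fun h : ℝ => W ^ 2 * (W - 3 * h ^ 2)).div (by fun_prop)
    fun h => pow_ne_zero 3 (pden_pos hW h).ne'

theorem Data.cont_h : Continuous fun z : X × ℝ => z.2 * D.b z.1 :=
  continuous_snd.mul ((D.sm_cont _ D.sm_b).comp continuous_fst)

theorem hasDeriv_h (hW : 0 < W) (c r : ℝ) :
    HasDerivAt (fun s => psi W (s * c)) (2 * half1 W (r * c) * c) r ∧
      HasDerivAt (fun s => 2 * half1 W (s * c) * c) (2 * half2 W (r * c) * c ^ 2) r := by
  have hc : HasDerivAt (fun s : ℝ => s * c) c r := by simpa using (hasDerivAt_id r).mul_const c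
  refine ⟨(psi_deriv hW _).comp r hc, ?_⟩
  exact ((((half1_deriv hW _).comp r hc).const_mul 2).mul_const c).congr_deriv (by ring)

theorem Data.lap_psi (hW : 0 < W) (r : ℝ) (x : X) :
    D.Lap (fun y => psi W (r * D.b y)) x =
      -(2 * (m : ℝ)) * half1 W (r * D.b x) * (r * D.b x)
        + 2 * r ^ 2 * half2 W (r * D.b x) * (D.q x - D.b x ^ 2) := by
  have hc : ∀ s : ℝ, HasDerivAt (fun s : ℝ => r * s) r s :=
    fun s => by simpa using (hasDerivAt_id s).const_mul r
  rw [D.lap_comp1 D.sm_b (F := fun s => psi W (r * s)) (F1 := fun s => 2 * half1 W (r * s) * r)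
    (F2 := fun s => 2 * half2 W (r * s) * r ^ 2)
    ((contDiff_psi hW).comp (contDiff_const.mul contDiff_id))
    (fun s => (psi_deriv hW _).comp s (hc s))
    (fun s => ((((half1_deriv hW _).comp s (hc s)).const_mul 2).mul_const r).congr_deriv (by ring)) x,
    D.lap_b, D.g_bb]
  ring

/-- The saturated square of the height. -/
noncomputable def psiTest (hW : 0 < W) : Test D where
  f x r := psi W (r * D.b x)
  fr x r := 2 * half1 W (r * D.b x) * D.b x
  frr x r := 2 * half2 W (r * D.b x) * D.b x ^ 2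
  lf x r := 2 * half2 W (r * D.b x) * D.q x
  cont_f := (contDiff_psi hW).continuous.comp D.cont_h
  cont_fr := (continuous_const.mul ((contDiff_half1 hW).continuous.comp D.cont_h)).mul
    ((D.sm_cont _ D.sm_b).comp continuous_fst)
  cont_frr := (continuous_const.mul ((continuous_half2 hW).comp D.cont_h)).mul
    (((D.sm_cont _ D.sm_b).comp continuous_fst).pow 2)
  cont_lf := (continuous_const.mul ((continuous_half2 hW).comp D.cont_h)).mul
    ((D.sm_cont _ D.sm_q).comp continuous_fst)
  deriv1 x r := (hasDeriv_h hW (D.b x) r).1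
  deriv2 x r := (hasDeriv_h hW (D.b x) r).2
  sm r := D.sm_comp1 D.sm_b ((contDiff_psi hW).comp (contDiff_const.mul contDiff_id))
  lap_eq x r _ := by rw [D.lap_psi hW]; ring
  bound := by
    refine ⟨2 * W + 2, fun x r _ => ?_⟩
    have hb := D.abs_b x
    have hb2 : |D.b x ^ 2| ≤ 1 := by
      rw [abs_pow]; exact pow_le_one₀ (abs_nonneg _) hb
    have hq : |D.q x| ≤ 1 := by
      rw [abs_of_nonneg (D.q_mem x).1]; exact (D.q_mem x).2
    have h2 : |2 * half2 W (r * D.b x)| ≤ 2 := by
      rw [abs_mul, abs_two]; linarith [abs_half2 hW (r * D.b x)]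
    have h1 : |2 * half1 W (r * D.b x)| ≤ 2 * W + 2 := by
      rw [abs_mul, abs_two]; linarith [abs_half1 hW (r * D.b x)]
    refine ⟨?_, ?_, ?_, ?_⟩
    · rw [abs_of_nonneg (psi_nonneg hW _)]; linarith [psi_le hW (r * D.b x)]
    · rw [abs_mul]; exact (mul_le_mul h1 hb (abs_nonneg _) (by positivity)).trans (by linarith)
    · rw [abs_mul]; exact (mul_le_mul h2 hb2 (abs_nonneg _) (by positivity)).trans (by linarith)
    · rw [abs_mul]; exact (mul_le_mul h2 hq (abs_nonneg _) (by positivity)).trans (by linarith)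

/-- The saturated square of the height, cut off near the vertex. -/
noncomputable def gpsiTest (hW : 0 < W) : Test D where
  f x r := gR r * psi W (r * D.b x)
  fr x r := r * dR r * psi W (r * D.b x) + gR r * (2 * half1 W (r * D.b x) * D.b x)
  frr x r := g2R r * psi W (r * D.b x) + r * dR r * (2 * half1 W (r * D.b x) * D.b x)
    + (r * dR r * (2 * half1 W (r * D.b x) * D.b x)
      + gR r * (2 * half2 W (r * D.b x) * D.b x ^ 2))
  lf x r := lR m r * psi W (r * D.b x) + 4 * dR r * (half1 W (r * D.b x) * (r * D.b x))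
    + 2 * gR r * half2 W (r * D.b x) * D.q x
  cont_f := (continuous_gR.comp continuous_snd).mul (psiTest D hW).cont_f
  cont_fr := ((continuous_snd.mul (continuous_dR.comp continuous_snd)).mul
    (psiTest D hW).cont_f).add ((continuous_gR.comp continuous_snd).mul (psiTest D hW).cont_fr)
  cont_frr := (((continuous_g2R.comp continuous_snd).mul (psiTest D hW).cont_f).add
      ((continuous_snd.mul (continuous_dR.comp continuous_snd)).mul (psiTest D hW).cont_fr)).add
    (((continuous_snd.mul (continuous_dR.comp continuous_snd)).mul (psiTest D hW).cont_fr).add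
      ((continuous_gR.comp continuous_snd).mul (psiTest D hW).cont_frr))
  cont_lf := by
    have c1 := D.cont_h
    have c2 := (contDiff_psi hW).continuous
    have c3 := (contDiff_half1 hW).continuous
    have c4 := continuous_half2 hW
    have c5 := continuous_lR m
    have c6 := continuous_dR
    have c7 := continuous_gR
    have c8 := D.sm_cont _ D.sm_q
    fun_prop
  deriv1 x r := (gR_deriv r).mul (hasDeriv_h hW (D.b x) r).1
  deriv2 x r := ((gR_deriv2 r).mul (hasDeriv_h hW (D.b x) r).1).add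
    ((gR_deriv r).mul (hasDeriv_h hW (D.b x) r).2)
  sm r := D.sm_comp1 D.sm_b (F := fun s => gR r * psi W (r * s))
    (contDiff_const.mul ((contDiff_psi hW).comp (contDiff_const.mul contDiff_id)))
  lap_eq x r _ := by
    have hs : D.Sm fun y => psi W (r * D.b y) := (psiTest D hW).sm r
    rw [D.lap_mul hs, D.lap_psi hW, ← sq_mul_wR r]
    unfold lR
    ring
  bound := by
    obtain ⟨C, hC⟩ := (psiTest D hW).bound
    refine ⟨(27 + 4 * m) * C + 4 * (4 * C) + 2, fun x r hr => ?_⟩
    obtain ⟨hf, hfr, hfrr, -⟩ := hC x r hr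
    change |psi W (r * D.b x)| ≤ C at hf
    change |2 * half1 W (r * D.b x) * D.b x| ≤ C at hfr
    change |2 * half2 W (r * D.b x) * D.b x ^ 2| ≤ C at hfrr
    have hC0 : 0 ≤ C := (abs_nonneg _).trans hf
    have hm : (0 : ℝ) ≤ m := m.cast_nonneg
    have hg : |gR r| ≤ 1 := by rw [abs_of_nonneg (gR_nonneg r)]; exact gR_le r
    have h4 := abs_mul_dR r
    have hl : |lR m r| ≤ 18 + m * 4 := (abs_add_le _ _).trans (add_le_add (abs_g2R r)
      (by rw [abs_mul, Nat.abs_cast]; exact mul_le_mul_of_nonneg_left (abs_dR r) hm))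
    have hh : |half1 W (r * D.b x) * (r * D.b x)| ≤ C := by
      rw [abs_of_nonneg (half1_mul_mem hW _).1]
      exact (half1_mul_mem hW _).2.trans ((le_abs_self _).trans hf)
    have hq : |2 * gR r * half2 W (r * D.b x) * D.q x| ≤ 2 := by
      rw [abs_mul, abs_mul, abs_mul, abs_two, abs_of_nonneg (D.q_mem x).1]
      calc 2 * |gR r| * |half2 W (r * D.b x)| * D.q x ≤ 2 * 1 * 1 * 1 := by
            gcongr
            · exact (D.q_mem x).1
            · exact abs_half2 hW _
            · exact (D.q_mem x).2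
        _ = 2 := by norm_num
    have hmul : ∀ {a k c : ℝ}, |a| ≤ k → |c| ≤ C → |a * c| ≤ k * C := fun {a k c} h h' => by
      rw [abs_mul]; exact mul_le_mul h h' (abs_nonneg _) ((abs_nonneg _).trans h)
    have hd4 : |4 * dR r| ≤ 16 := by rw [abs_mul, abs_of_pos (by norm_num : (0:ℝ) < 4)]; linarith [abs_dR r]
    refine ⟨(hmul hg hf).trans (by nlinarith), ?_, ?_, ?_⟩
    · exact (abs_add_le _ _).trans ((add_le_add (hmul h4 hf) (hmul hg hfr)).trans (by nlinarith))
    · exact (abs_add_le _ _).trans ((add_le_add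
        ((abs_add_le _ _).trans (add_le_add (hmul (abs_g2R r) hf) (hmul h4 hfr)))
        ((abs_add_le _ _).trans (add_le_add (hmul h4 hfr) (hmul hg hfrr)))).trans (by nlinarith))
    · exact (abs_add_le _ _).trans ((add_le_add
        ((abs_add_le _ _).trans (add_le_add (hmul hl hf) (hmul hd4 hh))) hq).trans (by nlinarith))

end Vale.Agent.P224.Gap
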