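import Vale.Agent.P224.Gap.Interfaces
import Vale.Agent.P224.Gap.Tests

/-!
P224, uniform volume gap: the Gaussian weight, domination on the cone, and the calculus of the
composite functions that enter Green's formula.
-/

namespace Vale.Agent.P224.Gap

open MeasureTheory Set Filter
open scoped Topology ContDiff

variable {m : ℕ} {X : Type*} [TopologicalSpace X]

/-- Continuous, and of polynomial growth in the radius. -/
def Poly (g : X → ℝ → ℝ) : Prop :=
  Continuous (fun z : X × ℝ => g z.1 z.2) ∧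
    ∃ (C : ℝ) (k : ℕ), 0 ≤ C ∧ ∀ x r, 0 < r → |g x r| ≤ C * (1 + r) ^ k

lemma Poly.add {f g : X → ℝ → ℝ} (hf : Poly f) (hg : Poly g) :
    Poly fun x r => f x r + g x r := by
  obtain ⟨cf, C, k, hC, hb⟩ := hf
  obtain ⟨cg, C', k', hC', hb'⟩ := hg
  refine ⟨cf.add cg, C + C', max k k', by positivity, fun x r hr => ?_⟩
  have h1 : (1 : ℝ) ≤ 1 + r := by linarith
  calc |f x r + g x r| ≤ |f x r| + |g x r| := abs_add_le _ _
    _ ≤ C * (1 + r) ^ max k k' + C' * (1 + r) ^ max k k' :=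
      add_le_add ((hb x r hr).trans (mul_le_mul_of_nonneg_left
          (pow_le_pow_right₀ h1 (le_max_left _ _)) hC))
        ((hb' x r hr).trans (mul_le_mul_of_nonneg_left
          (pow_le_pow_right₀ h1 (le_max_right _ _)) hC'))
    _ = _ := by ring

lemma Poly.mul {f g : X → ℝ → ℝ} (hf : Poly f) (hg : Poly g) :
    Poly fun x r => f x r * g x r := by
  obtain ⟨cf, C, k, hC, hb⟩ := hf
  obtain ⟨cg, C', k', hC', hb'⟩ := hg
  refine ⟨cf.mul cg, C * C', k + k', by positivity, fun x r hr => ?_⟩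
  rw [abs_mul, pow_add]
  calc |f x r| * |g x r| ≤ (C * (1 + r) ^ k) * (C' * (1 + r) ^ k') :=
        mul_le_mul (hb x r hr) (hb' x r hr) (abs_nonneg _) (by positivity)
    _ = _ := by ring

lemma Poly.const (c : ℝ) : Poly fun (_ : X) (_ : ℝ) => c :=
  ⟨continuous_const, |c|, 0, abs_nonneg c, fun _ _ _ => by simp⟩

lemma Poly.neg {f : X → ℝ → ℝ} (hf : Poly f) : Poly fun x r => -f x r := by
  obtain ⟨cf, C, k, hC, hb⟩ := hf
  exact ⟨cf.neg, C, k, hC, fun x r hr => by rw [abs_neg]; exact hb x r hr⟩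

lemma Poly.sub {f g : X → ℝ → ℝ} (hf : Poly f) (hg : Poly g) :
    Poly fun x r => f x r - g x r := by
  simpa only [sub_eq_add_neg] using hf.add hg.neg

lemma Poly.radius : Poly fun (_ : X) r => r :=
  ⟨continuous_snd, 1, 1, zero_le_one, fun _ r hr => by
    rw [abs_of_pos hr, pow_one, one_mul]; linarith⟩

lemma Poly.pow {f : X → ℝ → ℝ} (hf : Poly f) : ∀ n : ℕ, Poly fun x r => f x r ^ n
  | 0 => by simpa only [pow_zero] using Poly.const 1
  | n + 1 => by simpa only [pow_succ] using (hf.pow n).mul hf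

lemma Poly.of_bound {f : X → ℝ → ℝ} (hf : Continuous fun z : X × ℝ => f z.1 z.2) {C : ℝ}
    (hb : ∀ x r, 0 < r → |f x r| ≤ C) : Poly f :=
  ⟨hf, max C 0, 0, le_max_right _ _, fun x r hr => by
    simpa using Or.inl (hb x r hr)⟩

lemma Poly.of_x [CompactSpace X] {h : X → ℝ} (hh : Continuous h) :
    Poly fun x (_ : ℝ) => h x := by
  obtain ⟨C, hC⟩ := isCompact_univ.exists_bound_of_continuousOn hh.continuousOn
  exact Poly.of_bound (hh.comp continuous_fst) fun x _ _ => hC x (mem_univ x)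

/-! ### The weight -/

lemma phi_nonneg {σ : ℝ} (hσ : 0 < σ) (r t : ℝ) : 0 ≤ phi m σ r t := by
  unfold phi
  have := Real.pi_pos
  positivity

lemma hasDerivAt_phi_r (σ r t : ℝ) :
    HasDerivAt (fun r => phi m σ r t) (phi m σ r t * (-(r - t) / (2 * σ))) r := by
  unfold phi
  refine (((((hasDerivAt_pow 2 r).fun_sub (((hasDerivAt_id r).const_mul 2).mul_const t)).add_const
    1).fun_neg.div_const (4 * σ)).exp.const_mul _).congr_deriv ?_
  simp
  ring

lemma hasDerivAt_phi_t (σ r t : ℝ) :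
    HasDerivAt (phi m σ r) (phi m σ r t * (r / (2 * σ))) t := by
  unfold phi
  refine (((((hasDerivAt_id t).const_mul (2 * r)).const_sub (r ^ 2)).add_const
    1).fun_neg.div_const (4 * σ)).exp.const_mul _ |>.congr_deriv ?_
  simp
  ring

/-- The logarithmic derivative of the weight in the scale. -/
noncomputable def kap (m : ℕ) (σ r t : ℝ) : ℝ :=
  -((m : ℝ) + 1) / (2 * σ) + (r ^ 2 - 2 * r * t + 1) / (4 * σ ^ 2)

lemma hasDerivAt_phi_sigma {σ : ℝ} (hσ : 0 < σ) (r t : ℝ) :
    HasDerivAt (fun s => phi m s r t) (phi m σ r t * kap m σ r t) σ := by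
  unfold phi
  have h4 : (4 : ℝ) * Real.pi * σ ≠ 0 := by positivity
  have a := ((hasDerivAt_id σ).const_mul (4 * Real.pi)).rpow_const
    (p := -(((m : ℝ) + 1) / 2)) (Or.inl h4)
  have b := ((hasDerivAt_const σ (-(r ^ 2 - 2 * r * t + 1))).fun_div
    ((hasDerivAt_id σ).const_mul 4) (by simp; positivity)).exp
  refine (a.fun_mul b).congr_deriv ?_
  simp only [id_eq, kap]
  rw [Real.rpow_sub_one h4]
  field_simp
  ring

lemma phi_le {σ s r t : ℝ} (hσ : 0 < σ) (h1 : σ / 2 ≤ s) (h2 : s ≤ 2 * σ) (hr : 0 < r)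
    (ht : |t| ≤ 1) :
    phi m s r t ≤ ((2 * Real.pi * σ) ^ (-(((m : ℝ) + 1) / 2)) * Real.exp (1 / (2 * σ))) *
      Real.exp (-(1 / (16 * σ)) * r ^ 2) := by
  have hs : 0 < s := by linarith
  have hπ := Real.pi_pos
  unfold phi
  rw [mul_assoc ((2 * Real.pi * σ) ^ _), ← Real.exp_add]
  refine mul_le_mul (Real.rpow_le_rpow_of_nonpos (by positivity) (by nlinarith) ?_)
    (Real.exp_le_exp.2 ?_) (Real.exp_nonneg _) (by positivity)
  · have : (0 : ℝ) ≤ m := m.cast_nonneg
    linarith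
  · have hq : r ^ 2 / 2 - 1 ≤ r ^ 2 - 2 * r * t + 1 := by
      nlinarith [abs_le.1 ht, sq_nonneg (r - 2), mul_le_mul_of_nonneg_left (abs_le.1 ht).2 hr.le]
    calc -(r ^ 2 - 2 * r * t + 1) / (4 * s) ≤ (-(r ^ 2 / 2) + 1) / (4 * s) := by gcongr; linarith
      _ = -(r ^ 2 / (8 * s)) + 1 / (4 * s) := by field_simp; ring
      _ ≤ -(r ^ 2 / (16 * σ)) + 1 / (2 * σ) := by
        refine add_le_add (neg_le_neg ?_) ?_
        · exact div_le_div_of_nonneg_left (sq_nonneg r) (by positivity) (by linarith)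
        · exact div_le_div_of_nonneg_left zero_le_one (by positivity) (by linarith)
      _ = _ := by ring

lemma integrableOn_dom (k : ℕ) {c : ℝ} (hc : 0 < c) :
    IntegrableOn (fun r : ℝ => (1 + r) ^ k * Real.exp (-c * r ^ 2)) (Ioi 0) := by
  have h : ∀ n : ℕ, Integrable fun r : ℝ => r ^ n * Real.exp (-c * r ^ 2) := fun n => by
    simpa [Real.rpow_natCast] using integrable_rpow_mul_exp_neg_mul_sq hc (s := (n : ℝ))
      (by linarith [n.cast_nonneg (α := ℝ)])
  have : Integrable fun r : ℝ => (1 + r) ^ k * Real.exp (-c * r ^ 2) := by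
    simp only [add_pow, one_pow, one_mul, Finset.sum_mul]
    exact integrable_finsetSum _ fun i _ => by
      refine ((h (k - i)).const_mul (k.choose i : ℝ)).congr (ae_of_all _ fun r => ?_)
      simp only
      ring
  exact this.integrableOn

lemma continuous_phi (σ : ℝ) : Continuous fun p : ℝ × ℝ => phi m σ p.1 p.2 := by
  unfold phi
  fun_prop

variable [CompactSpace X] [T2Space X] [MeasurableSpace X] [BorelSpace X]

namespace Data

variable (D : Data m X)

lemma cone_ae_pos : ∀ᵐ z ∂D.cone, (0 : ℝ) < z.2 := by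
  have := D.finite
  exact (Measure.quasiMeasurePreserving_snd).ae (ae_restrict_mem measurableSet_Ioi)

lemma integrable_dominated {c C : ℝ} (hc : 0 < c) {k : ℕ} {F : X × ℝ → ℝ} (hF : Continuous F)
    (hb : ∀ x r, 0 < r → |F (x, r)| ≤ C * ((1 + r) ^ k * Real.exp (-c * r ^ 2))) :
    Integrable F D.cone := by
  have := D.finite
  refine Integrable.mono' (g := fun z => C * ((1 + z.2) ^ k * Real.exp (-c * z.2 ^ 2)))
    (((integrableOn_dom k hc).comp_snd D.μ).const_mul C) hF.aestronglyMeasurable ?_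
  filter_upwards [D.cone_ae_pos] with z hz
  exact hb z.1 z.2 hz

lemma continuous_weight (σ : ℝ) : Continuous fun z : X × ℝ => phi m σ z.2 (D.t z.1) :=
  (continuous_phi σ).comp
    (continuous_snd.prodMk ((D.sm_cont _ D.sm_t).comp continuous_fst))

lemma integrable_poly {σ : ℝ} (hσ : 0 < σ) {g : X → ℝ → ℝ} (hg : Poly g) :
    Integrable (fun z : X × ℝ => phi m σ z.2 (D.t z.1) * g z.1 z.2) D.cone := by
  obtain ⟨cg, C, k, hC, hb⟩ := hg
  refine D.integrable_dominated (c := 1 / (16 * σ)) (by positivity) (k := k)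
    (C := (2 * Real.pi * σ) ^ (-(((m : ℝ) + 1) / 2)) * Real.exp (1 / (2 * σ)) * C)
    ((D.continuous_weight σ).mul cg) fun x r hr => ?_
  rw [abs_mul, abs_of_nonneg (phi_nonneg hσ _ _)]
  calc _ ≤ (((2 * Real.pi * σ) ^ (-(((m : ℝ) + 1) / 2)) * Real.exp (1 / (2 * σ))) *
        Real.exp (-(1 / (16 * σ)) * r ^ 2)) * (C * (1 + r) ^ k) := by
        refine mul_le_mul (phi_le hσ (by linarith) (by linarith) hr (D.abs_t x)) (hb x r hr)
          (abs_nonneg _) ?_
        positivity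
    _ = _ := by ring

/-- Radial integrability and decay. -/
lemma slice_poly {σ : ℝ} (hσ : 0 < σ) {g : X → ℝ → ℝ} (hg : Poly g) (x : X) :
    IntegrableOn (fun r => phi m σ r (D.t x) * g x r) (Ioi 0) ∧
      Tendsto (fun r => phi m σ r (D.t x) * g x r) atTop (𝓝 0) := by
  obtain ⟨cg, C, k, hC, hb⟩ := hg
  set A := (2 * Real.pi * σ) ^ (-(((m : ℝ) + 1) / 2)) * Real.exp (1 / (2 * σ)) with hA
  set c := 1 / (16 * σ) with hcd
  have hc : 0 < c := by positivity
  have hA0 : 0 ≤ A := by positivity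
  have hle : ∀ r, 0 < r →
      ‖phi m σ r (D.t x) * g x r‖ ≤ A * C * ((1 + r) ^ k * Real.exp (-c * r ^ 2)) := by
    intro r hr
    rw [Real.norm_eq_abs, abs_mul, abs_of_nonneg (phi_nonneg hσ _ _)]
    calc _ ≤ (A * Real.exp (-c * r ^ 2)) * (C * (1 + r) ^ k) :=
          mul_le_mul (phi_le hσ (by linarith) (by linarith) hr (D.abs_t x)) (hb x r hr)
            (abs_nonneg _) (by positivity)
      _ = _ := by ring
  have hcont : Continuous fun r => phi m σ r (D.t x) * g x r :=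
    ((continuous_phi σ).comp (continuous_id.prodMk continuous_const)).mul
      (cg.comp (Continuous.prodMk_right x))
  refine ⟨Integrable.mono' ((integrableOn_dom k hc).const_mul (A * C))
    hcont.aestronglyMeasurable ((ae_restrict_mem measurableSet_Ioi).mono hle), ?_⟩
  refine squeeze_zero_norm' (a := fun r => A * C * 2 ^ k * (r ^ (k : ℝ) * Real.exp (-c * r))) ?_
    (by simpa using (tendsto_rpow_mul_exp_neg_mul_atTop_nhds_zero (k : ℝ) c hc).const_mul
            (A * C * 2 ^ k))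
  filter_upwards [eventually_ge_atTop (1 : ℝ)] with r hr
  refine (hle r (by linarith)).trans ?_
  rw [Real.rpow_natCast, mul_assoc (A * C), ← mul_assoc (2 ^ k : ℝ), ← mul_pow]
  refine mul_le_mul_of_nonneg_left (mul_le_mul (pow_le_pow_left₀ (by linarith) (by linarith) k)
    (Real.exp_le_exp.2 ?_) (Real.exp_nonneg _) (by positivity)) (by positivity)
  nlinarith [mul_nonneg (mul_nonneg hc.le (by linarith : (0 : ℝ) ≤ r))
    (by linarith : (0 : ℝ) ≤ r - 1)]

/-- A radial divergence integrates to zero. -/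
lemma radial_zero {σ : ℝ} (hσ : 0 < σ) {g g' : X → ℝ → ℝ} (hg : Poly g) (hg' : Poly g') (x : X)
    (hd : ∀ r, HasDerivAt (fun r => phi m σ r (D.t x) * g x r) (phi m σ r (D.t x) * g' x r) r)
    (h0 : g x 0 = 0) : ∫ r in Ioi 0, phi m σ r (D.t x) * g' x r = 0 := by
  rw [integral_Ioi_of_hasDerivAt_of_tendsto' (fun r _ => hd r) (D.slice_poly hσ hg' x).1
    (D.slice_poly hσ hg x).2, h0, mul_zero, sub_zero]

/-- An integrand that is a radial divergence plus, at each radius, a divergence on the link. -/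
lemma cone_zero {F B : X → ℝ → ℝ} (hF : Integrable (fun z : X × ℝ => F z.1 z.2) D.cone)
    (hB : Integrable (fun z : X × ℝ => B z.1 z.2) D.cone)
    (hr : ∀ x, ∫ r in Ioi 0, B x r = 0)
    (hx : ∀ r, 0 < r → ∫ x, (F x r - B x r) ∂D.μ = 0) :
    ∫ z, F z.1 z.2 ∂D.cone = 0 := by
  have := D.finite
  have h1 : ∫ z, B z.1 z.2 ∂D.cone = 0 := by
    unfold Data.cone
    rw [integral_prod (fun z : X × ℝ => B z.1 z.2) hB]
    simp only [hr, integral_zero]
  have h2 : ∫ z, (F z.1 z.2 - B z.1 z.2) ∂D.cone = 0 := by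
    unfold Data.cone
    rw [integral_prod_symm (fun z : X × ℝ => F z.1 z.2 - B z.1 z.2) (hF.sub hB)]
    exact integral_eq_zero_of_ae ((ae_restrict_mem measurableSet_Ioi).mono fun r hr => hx r hr)
  rw [integral_sub hF hB, h1, sub_zero] at h2
  exact h2

/-! ### Composites on the link -/

/-- Green's formula, symmetrised. -/
lemma green_symm {f g : X → ℝ} (hf : D.Sm f) (hg : D.Sm g) :
    ∫ x, (f x * D.Lap g x - g x * D.Lap f x) ∂D.μ = 0 := by
  have := D.finite
  have hi : ∀ u w, D.Sm u → D.Sm w → Integrable (fun x => u x * D.Lap w x + D.G u w x) D.μ :=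
    fun u w hu hw => (((D.sm_cont u hu).mul (D.lap_cont w hw)).add
      (D.g_cont u w hu hw)).integrable_of_hasCompactSupport (HasCompactSupport.of_compactSpace _)
  calc ∫ x, (f x * D.Lap g x - g x * D.Lap f x) ∂D.μ
      = ∫ x, ((f x * D.Lap g x + D.G f g x) - (g x * D.Lap f x + D.G g f x)) ∂D.μ :=
        integral_congr_ae (ae_of_all _ fun x => by simp only; rw [D.g_symm g f x]; ring)
    _ = 0 := by
      rw [integral_sub (hi f g hf hg) (hi g f hg hf), D.green f g hf hg, D.green g f hg hf,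
        sub_zero]

lemma lap_phi (σ r : ℝ) (x : X) :
    D.Sm (fun y => phi m σ r (D.t y)) ∧ D.Lap (fun y => phi m σ r (D.t y)) x =
      phi m σ r (D.t x) * ((r / (2 * σ)) * (-(m : ℝ) * D.t x) +
        (r / (2 * σ)) ^ 2 * (1 - D.t x ^ 2 - D.s2 x)) := by
  set K : ℝ × ℝ → ℝ := fun p => phi m σ r p.1 with hK
  set L : ℝ × ℝ →L[ℝ] ℝ := (r / (2 * σ)) • ContinuousLinearMap.fst ℝ ℝ ℝ with hL
  have hKs : ContDiff ℝ ∞ K := by
    rw [hK]; unfold phi; fun_prop
  have hd : ∀ p, HasFDerivAt K (K p • L) p := fun p => by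
    have h := (hasDerivAt_phi_t (m := m) σ r p.1).hasFDerivAt.comp p hasFDerivAt_fst
    refine h.congr_fderiv ?_
    ext <;> simp [hK, hL]
  have hfd : fderiv ℝ K = fun p => K p • L := funext fun p => (hd p).fderiv
  have h2 : ∀ p a, iteratedFDeriv ℝ 2 K p a = K p * L (a 0) * L (a 1) := fun p a => by
    rw [iteratedFDeriv_two_apply, hfd, ((hd p).smul_const L).fderiv]
    simp [hK]
  refine ⟨D.sm_comp _ _ D.sm_t D.sm_t K hKs, ?_⟩
  rw [show (fun y => phi m σ r (D.t y)) = fun y => K (D.t y, D.t y) from rfl,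
    D.lap_comp _ _ D.sm_t D.sm_t K hKs x, D.lap_t, D.g_tt, (hd _).fderiv, h2, h2, h2]
  simp [hK, hL]
  ring

/-- Green's formula for b against a function of t and b. -/
lemma green_b {P P' : ℝ → ℝ} (hP : ContDiff ℝ ∞ P) (hP' : ∀ h, HasDerivAt P (P' h) h)
    (σ r : ℝ) :
    ∫ x, phi m σ r (D.t x) * (-(m : ℝ) * D.b x * P (r * D.b x) -
      r / (2 * σ) * P (r * D.b x) * (D.t x * D.b x + D.su x) +
      r * P' (r * D.b x) * (D.q x - D.b x ^ 2)) ∂D.μ = 0 := by
  set K : ℝ × ℝ → ℝ := fun p => phi m σ r p.1 * P (r * p.2) with hK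
  have hKs : ContDiff ℝ ∞ K := by
    rw [hK]; unfold phi; fun_prop
  have hd : ∀ p, fderiv ℝ K p (1, 0) = phi m σ r p.1 * (r / (2 * σ)) * P (r * p.2) ∧
      fderiv ℝ K p (0, 1) = phi m σ r p.1 * (r * P' (r * p.2)) := fun p => by
    have h1 := (hasDerivAt_phi_t (m := m) σ r p.1).hasFDerivAt.comp p hasFDerivAt_fst
    have h2 := (hP' (r * p.2)).hasFDerivAt.comp p ((hasFDerivAt_snd (p := p)).const_mul r)
    rw [show fderiv ℝ K p = _ from (show HasFDerivAt K _ p from h1.fun_mul h2).fderiv]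
    constructor <;> simp <;> ring
  have hsm := D.sm_comp _ _ D.sm_t D.sm_b K hKs
  rw [← D.green _ _ hsm D.sm_b]
  refine integral_congr_ae (ae_of_all _ fun x => ?_)
  simp only
  rw [D.g_comp _ _ _ D.sm_t D.sm_b D.sm_b K hKs x, D.g_tb, D.g_bb, D.lap_b, (hd _).1, (hd _).2]
  simp only [hK]
  ring

end Data

end Vale.Agent.P224.Gap
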