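import Vale.Agent.P224.Gap.Tests

/-!
P224, uniform volume gap: the argument on the cone.
-/

namespace Vale.Agent.P224.Gap

open MeasureTheory Set Filter
open scoped Topology ContDiff

variable {m : ℕ} {X : Type*} [TopologicalSpace X] [CompactSpace X] [T2Space X]
  [MeasurableSpace X] [BorelSpace X] {D : Data m X}

theorem phi_nonneg' (m : ℕ) {σ : ℝ} (hσ : 0 < σ) (r t : ℝ) : 0 ≤ phi m σ r t := by
  unfold phi; positivity

/-- Continuous on the product and of linear growth on the cone. -/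
def Adm (_D : Data m X) (f : X → ℝ → ℝ) : Prop :=
  Continuous (fun z : X × ℝ => f z.1 z.2) ∧ ∃ C, ∀ x r, 0 < r → |f x r| ≤ C * (1 + r)

theorem Adm.of_bound {f : X → ℝ → ℝ} (hc : Continuous fun z : X × ℝ => f z.1 z.2)
    {C : ℝ} (h : ∀ x r, 0 < r → |f x r| ≤ C) : Adm D f :=
  ⟨hc, C, fun x r hr => (h x r hr).trans (by nlinarith [(abs_nonneg _).trans (h x r hr)])⟩

theorem Adm.add {f g : X → ℝ → ℝ} (hf : Adm D f) (hg : Adm D g) :
    Adm D fun x r => f x r + g x r := by
  obtain ⟨hfc, A, hA⟩ := hf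
  obtain ⟨hgc, B, hB⟩ := hg
  exact ⟨hfc.add hgc, A + B, fun x r hr =>
    (abs_add_le _ _).trans ((add_le_add (hA x r hr) (hB x r hr)).trans (by ring_nf; rfl))⟩

theorem Adm.mul_left {f : X → ℝ → ℝ} (hf : Adm D f) (c : ℝ) :
    Adm D fun x r => c * f x r := by
  obtain ⟨hfc, A, hA⟩ := hf
  refine ⟨continuous_const.mul hfc, |c| * A, fun x r hr => ?_⟩
  rw [abs_mul, mul_assoc]
  exact mul_le_mul_of_nonneg_left (hA x r hr) (abs_nonneg c)

theorem Adm.fst {u : X → ℝ} (hu : Continuous u) : Adm D fun x _ => u x := by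
  obtain ⟨C, hC⟩ := Data.abs_bound hu
  exact Adm.of_bound (hu.comp continuous_fst) fun x _ _ => hC x

theorem Adm.radial_mul {A : ℝ → ℝ} (hA : Continuous A) {c : ℝ} (hc : ∀ r, |A r| ≤ c)
    {u : X → ℝ} (hu : Continuous u) : Adm D fun x r => A r * u x := by
  obtain ⟨C, hC⟩ := Data.abs_bound hu
  refine Adm.of_bound ((hA.comp continuous_snd).mul (hu.comp continuous_fst)) (C := c * C)
    fun x r _ => ?_
  rw [abs_mul]
  exact mul_le_mul (hc r) (hC x) (abs_nonneg _) ((abs_nonneg _).trans (hc r))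

theorem Adm.test_f (T : Test D) : Adm D T.f := by
  obtain ⟨C, hC⟩ := T.bound
  exact Adm.of_bound T.cont_f fun x r hr => (hC x r hr).1

theorem Adm.test_lf (T : Test D) : Adm D T.lf := by
  obtain ⟨C, hC⟩ := T.bound
  exact Adm.of_bound T.cont_lf fun x r hr => (hC x r hr).2.2.2

theorem Adm.s2_test (T : Test D) : Adm D fun x r => D.s2 x * T.f x r := by
  obtain ⟨C, hC⟩ := T.bound
  refine Adm.of_bound ((D.cont_s2.comp continuous_fst).mul T.cont_f) (C := C) fun x r hr => ?_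
  rw [abs_mul, abs_of_nonneg (D.s2_mem x).1]
  exact (mul_le_of_le_one_left (abs_nonneg _) (D.s2_mem x).2).trans (hC x r hr).1

section calc_rules

variable (h : ConeStmt D) {σ : ℝ}

include h

theorem I_mono (hσ : 0 < σ) {f g : X → ℝ → ℝ} (hf : Adm D f) (hg : Adm D g)
    (hle : ∀ x r, 0 < r → f x r ≤ g x r) : D.I σ f ≤ D.I σ g := by
  have := D.finite
  refine integral_mono_ae (h.integrable σ hσ f hf.1 hf.2) (h.integrable σ hσ g hg.1 hg.2) ?_
  have : ∀ᵐ z ∂D.cone, 0 < z.2 :=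
    Measure.quasiMeasurePreserving_snd.ae (ae_restrict_mem (μ := volume) measurableSet_Ioi)
  filter_upwards [this] with z hz
  exact mul_le_mul_of_nonneg_left (hle z.1 z.2 hz)
    (mul_nonneg (pow_nonneg hz.le m) (phi_nonneg' m hσ _ _))

theorem I_add (hσ : 0 < σ) {f g : X → ℝ → ℝ} (hf : Adm D f) (hg : Adm D g) :
    D.I σ (fun x r => f x r + g x r) = D.I σ f + D.I σ g := by
  unfold Data.I
  rw [← integral_add (h.integrable σ hσ f hf.1 hf.2) (h.integrable σ hσ g hg.1 hg.2)]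
  exact integral_congr_ae (Eventually.of_forall fun z => by simp [mul_add])

omit h in
theorem I_mul (c : ℝ) (f : X → ℝ → ℝ) :
    D.I σ (fun x r => c * f x r) = c * D.I σ f := by
  unfold Data.I
  rw [← integral_const_mul]
  exact integral_congr_ae (Eventually.of_forall fun z => by ring)

omit h in
theorem I_const (c : ℝ) : D.I σ (fun _ _ => c) = c * D.theta σ := by
  rw [Data.theta, ← I_mul]; simp

theorem I_le_const (hσ : 0 < σ) {f : X → ℝ → ℝ} (hf : Adm D f) {c : ℝ}
    (hle : ∀ x r, 0 < r → f x r ≤ c) : D.I σ f ≤ c * D.theta σ := by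
  rw [← I_const]
  exact I_mono h hσ hf (Adm.fst continuous_const) hle

theorem const_le_I (hσ : 0 < σ) {f : X → ℝ → ℝ} (hf : Adm D f) {c : ℝ}
    (hle : ∀ x r, 0 < r → c ≤ f x r) : c * D.theta σ ≤ D.I σ f := by
  rw [← I_const]
  exact I_mono h hσ (Adm.fst continuous_const) hf hle

theorem theta_deriv (hσ : 0 < σ) :
    HasDerivAt D.theta (D.I σ (fun x _ => D.s2 x) / (4 * σ ^ 2)) σ := by
  have := h.deriv (oneTest D) σ hσ
  simp only [oneTest, mul_one] at this
  rw [I_const (0 : ℝ), zero_mul, zero_add] at this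
  exact this

theorem s2_nonneg' (hσ : 0 < σ) : 0 ≤ D.I σ fun x _ => D.s2 x := by
  simpa using const_le_I h hσ (Adm.fst D.cont_s2) (c := 0) fun x _ _ => (D.s2_mem x).1

theorem theta_nonneg (hσ : 0 < σ) : 0 ≤ D.theta σ := by
  have := const_le_I h hσ (f := fun _ _ => (1 : ℝ)) (Adm.fst continuous_const) (c := 0)
    fun _ _ _ => zero_le_one
  simpa [Data.theta] using this

theorem theta_mono {s : ℝ} (hs : 0 < s) (hsσ : s ≤ σ) : D.theta s ≤ D.theta σ := by
  refine monotoneOn_of_hasDerivWithinAt_nonneg (convex_Ioi (0 : ℝ))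
    (fun u hu => (theta_deriv h hu).continuousAt.continuousWithinAt)
    (fun u hu => (theta_deriv h (interior_subset hu)).hasDerivWithinAt)
    (fun u hu => ?_) hs (lt_of_lt_of_le hs hsσ) hsσ
  exact div_nonneg (s2_nonneg' h (interior_subset hu)) (by positivity)

/-- The `S²` term of the evolution of a test function that is at most `B`. -/
theorem flux_le (hσ : 0 < σ) (T : Test D) {B : ℝ} (hB : ∀ x r, 0 < r → T.f x r ≤ B) :
    D.I σ (fun x r => D.s2 x * T.f x r) / (4 * σ ^ 2) ≤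
      B * (D.I σ (fun x _ => D.s2 x) / (4 * σ ^ 2)) := by
  rw [← mul_div_assoc, ← I_mul]
  refine div_le_div_of_nonneg_right ?_ (by positivity)
  exact I_mono h hσ (Adm.s2_test T) ((Adm.fst D.cont_s2).mul_left B) fun x r hr => by
    rw [mul_comm B]; exact mul_le_mul_of_nonneg_left (hB x r hr) (D.s2_mem x).1

theorem flux_nonneg (hσ : 0 < σ) (T : Test D) (hB : ∀ x r, 0 < r → 0 ≤ T.f x r) :
    0 ≤ D.I σ (fun x r => D.s2 x * T.f x r) / (4 * σ ^ 2) := by
  refine div_nonneg ?_ (by positivity)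
  simpa using const_le_I h hσ (Adm.s2_test T) (c := 0) fun x r hr =>
    mul_nonneg (D.s2_mem x).1 (hB x r hr)

end calc_rules

/-- A function on `(0, b]` with nonpositive derivative stays below its limit at `0`. -/
theorem le_limit_of_deriv {f f' : ℝ → ℝ} {b l σ : ℝ} (hσ : 0 < σ) (hσb : σ ≤ b)
    (hd : ∀ s ∈ Ioc 0 b, HasDerivAt f (f' s) s) (hn : ∀ s ∈ Ioc 0 b, f' s ≤ 0)
    (hl : Tendsto f (𝓝[>] 0) (𝓝 l)) : f σ ≤ l := by
  refine ge_of_tendsto hl ?_
  filter_upwards [Ioc_mem_nhdsGT hσ] with s hs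
  refine antitoneOn_of_hasDerivWithinAt_nonpos (convex_Ioc (0 : ℝ) b)
    (fun u hu => (hd u hu).continuousAt.continuousWithinAt)
    (fun u hu => (hd u (interior_subset hu)).hasDerivWithinAt)
    (fun u hu => hn u (interior_subset hu)) ⟨hs.1, hs.2.trans hσb⟩ ⟨hσ, hσb⟩ hs.2

section evolution

variable (h : ConeStmt D) (huniq : ∀ x, D.t x = 1 → x = D.p) {L s1 : ℝ}
  (hL : Tendsto D.theta (𝓝[>] 0) (𝓝 L))

include h huniq hL

theorem tendsto_I (T : Test D) : Tendsto (fun s => D.I s T.f) (𝓝[>] 0) (𝓝 (T.f D.p 1 * L)) := by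
  obtain ⟨C, hC⟩ := T.bound
  have := (h.concentrate huniq T.f T.cont_f ⟨C, fun x r hr => (hC x r hr).1⟩).add
    (hL.const_mul (T.f D.p 1))
  simpa using this

theorem upper_bound (T : Test D) {B K : ℝ} (hB : ∀ x r, 0 < r → T.f x r ≤ B)
    (hK : ∀ s ∈ Ioc 0 s1, D.I s T.lf ≤ K) {σ : ℝ} (hσ : σ ∈ Ioc 0 s1) :
    D.I σ T.f ≤ T.f D.p 1 * L + K * σ + B * (D.theta σ - L) := by
  have key := le_limit_of_deriv (f := fun s => D.I s T.f - K * s - B * D.theta s)
    (f' := fun s => D.I s T.lf + D.I s (fun x r => D.s2 x * T.f x r) / (4 * s ^ 2) - K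
      - B * (D.I s (fun x _ => D.s2 x) / (4 * s ^ 2)))
    (l := T.f D.p 1 * L - K * 0 - B * L) hσ.1 hσ.2
    (fun s hs => (((h.deriv T s hs.1).sub ((hasDerivAt_id s).const_mul K)).sub
      ((theta_deriv h hs.1).const_mul B)).congr_deriv (by simp))
    (fun s hs => by linarith [hK s hs, flux_le h hs.1 T hB])
    (((tendsto_I h huniq hL T).sub
      ((tendsto_nhdsWithin_of_tendsto_nhds tendsto_id).const_mul K)).sub (hL.const_mul B))
  simp only [mul_zero] at key
  linarith

theorem lower_bound (T : Test D) {K : ℝ} (h0 : ∀ x r, 0 < r → 0 ≤ T.f x r)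
    (hK : ∀ s ∈ Ioc 0 s1, -K ≤ D.I s T.lf) {σ : ℝ} (hσ : σ ∈ Ioc 0 s1) :
    T.f D.p 1 * L - K * σ ≤ D.I σ T.f := by
  have key := le_limit_of_deriv (f := fun s => -(D.I s T.f) - K * s)
    (f' := fun s => -(D.I s T.lf + D.I s (fun x r => D.s2 x * T.f x r) / (4 * s ^ 2)) - K)
    (l := -(T.f D.p 1 * L) - K * 0) hσ.1 hσ.2
    (fun s hs => ((h.deriv T s hs.1).neg.sub ((hasDerivAt_id s).const_mul K)).congr_deriv (by simp))
    (fun s hs => by linarith [hK s hs, flux_nonneg h hs.1 T h0])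
    ((tendsto_I h huniq hL T).neg.sub
      ((tendsto_nhdsWithin_of_tendsto_nhds tendsto_id).const_mul K))
  simp only [mul_zero] at key
  linarith

end evolution

/-- The hypotheses of the contradiction. -/
structure Small (D : Data m X) (L s1 : ℝ) : Prop where
  cone : ConeStmt D
  two_le : 2 ≤ m
  uniq : ∀ x, D.t x = 1 → x = D.p
  lim : Tendsto D.theta (𝓝[>] 0) (𝓝 L)
  one_le : 1 ≤ L
  le_theta : ∀ s, 0 < s → L ≤ D.theta s
  theta_le : ∀ s, 0 < s → D.theta s ≤ 2
  gain : D.theta s1 - L ≤ 1 / 10 ^ 12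
  scale : D.M0 * s1 = 1 / 10 ^ 5

namespace Small

variable {L s1 : ℝ} (S : Small D L s1) {σ : ℝ}

include S

theorem two_le' : (2 : ℝ) ≤ m := by exact_mod_cast S.two_le

theorem M0_pos : 0 < D.M0 := lt_of_lt_of_le (by linarith [S.two_le']) D.m_le_M0

theorem s1_pos : 0 < s1 :=
  pos_of_mul_pos_right (by rw [S.scale]; norm_num) S.M0_pos.le

theorem M_mul (hσ : σ ∈ Ioc 0 s1) : D.M0 * σ ≤ 1 / 10 ^ 5 := by
  rw [← S.scale]; exact mul_le_mul_of_nonneg_left hσ.2 S.M0_pos.le

theorem gain' (hσ : σ ∈ Ioc 0 s1) : D.theta σ - L ≤ 1 / 10 ^ 12 := by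
  linarith [S.gain, theta_mono S.cone hσ.1 hσ.2]

theorem gain_nonneg (hσ : σ ∈ Ioc 0 s1) : 0 ≤ D.theta σ - L := by
  linarith [S.le_theta σ hσ.1]

theorem abs_lR' (r : ℝ) : |lR m r| ≤ 13 * D.M0 :=
  (abs_lR S.two_le r).trans (by linarith [D.m_le_M0])

theorem const_mul_theta {c : ℝ} (hc : 0 ≤ c) (hσ : 0 < σ) : c * D.theta σ ≤ 2 * c := by
  linarith [mul_le_mul_of_nonneg_left (S.theta_le σ hσ) hc]

theorem eta_le (hσ : σ ∈ Ioc 0 s1) :
    D.I σ (fun _ r => 1 - gR r) ≤ 26 / 10 ^ 5 + 1 / 10 ^ 12 := by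
  have hM := S.M0_pos
  have := upper_bound S.cone S.uniq S.lim (etaTest D) (B := 1) (K := 26 * D.M0) (s1 := s1)
    (fun x r _ => by simp only [etaTest]; linarith [gR_nonneg r])
    (fun s hs => (I_le_const S.cone hs.1 (Adm.test_lf _) (c := 13 * D.M0) fun x r _ => by
      simp only [etaTest]; linarith [(abs_le.1 (S.abs_lR' r)).1]).trans
      ((S.const_mul_theta (by positivity) hs.1).trans (by linarith))) hσ
  simp only [etaTest, gR_one, sub_self, zero_mul, zero_add] at this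
  nlinarith [S.M_mul hσ, S.gain' hσ]

theorem a2_lower (hσ : σ ∈ Ioc 0 s1) :
    D.M0 * (1 - 34 / 10 ^ 5) ≤ D.I σ (fun x r => gR r * D.a2 x) := by
  have hM := S.M0_pos
  have := lower_bound S.cone S.uniq S.lim (prodTest D D.a2 D.sm_a2) (K := 34 * D.M0 ^ 2) (s1 := s1)
    (fun x r _ => mul_nonneg (gR_nonneg r) (D.a2_mem x).1)
    (fun s hs => le_trans (by nlinarith [S.theta_le s hs.1])
      (const_le_I S.cone hs.1 (Adm.test_lf _) (c := -(17 * D.M0 ^ 2)) fun x r _ => by
        simp only [prodTest]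
        have a0 := (D.a2_mem x).1
        have a1 := (D.a2_mem x).2
        have hl := (abs_le.1 (S.abs_lR' r)).1
        have h2 : -(2 * D.M0 ^ 2) ≤ D.Lap D.a2 x := by
          have := D.le_lap_a2 x
          nlinarith [mul_le_mul a1 a1 a0 hM.le, mul_nonneg a0 (m.cast_nonneg : (0 : ℝ) ≤ m)]
        nlinarith [mul_le_mul_of_nonneg_left h2 (wR_nonneg r), wR_le r,
          mul_le_mul_of_nonneg_right hl a0, mul_le_mul_of_nonneg_left a1 hM.le])) hσ
  simp only [prodTest, gR_one, one_mul, D.a2_p] at this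
  nlinarith [S.one_le, S.M_mul hσ]

theorem a2w_lower (hσ : σ ∈ Ioc 0 s1) :
    89 / 100 * D.M0 ≤ D.I σ (fun x r => wR r * D.a2 x) := by
  have hM := S.M0_pos
  have ca := D.sm_cont _ D.sm_a2
  have hg : ∀ r, |gR r| ≤ 1 := fun r => by rw [abs_of_nonneg (gR_nonneg r)]; exact gR_le r
  have hw : ∀ r, |wR r| ≤ 2 := fun r => by rw [abs_of_nonneg (wR_nonneg r)]; exact wR_le r
  have A1 : Adm D fun x r => gR r * D.a2 x := Adm.radial_mul continuous_gR hg ca
  have A2 : Adm D fun x r => wR r * D.a2 x := Adm.radial_mul continuous_wR hw ca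
  have A3 : Adm D fun _ r => (-20 * D.M0) * (1 - gR r) := (Adm.test_f (etaTest D)).mul_left _
  have A4 : Adm D fun _ _ => -(D.M0 / 20) := Adm.fst continuous_const
  have h2 := I_mono S.cone hσ.1 ((A1.add A3).add A4) A2 fun x r _ => by
    have a0 := (D.a2_mem x).1
    have a1 := (D.a2_mem x).2
    have := mul_le_mul_of_nonneg_right (wR_ge r (e := 1 / 20) (by norm_num)) a0
    nlinarith [mul_nonneg (sub_nonneg.2 (gR_le r)) (sub_nonneg.2 a1)]
  rw [I_add S.cone hσ.1 (A1.add A3) A4, I_add S.cone hσ.1 A1 A3, I_mul, I_const] at h2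
  nlinarith [S.a2_lower hσ, S.eta_le hσ, S.theta_le σ hσ.1]

theorem T_le (hσ : σ ∈ Ioc 0 s1) :
    D.I σ (fun x r => gR r * D.q x) ≤ 34 / 10 ^ 5 + 1 / 10 ^ 12 := by
  have hM := S.M0_pos
  have := upper_bound S.cone S.uniq S.lim (prodTest D D.q D.sm_q) (B := 1) (K := 34 * D.M0)
    (s1 := s1) (fun x r _ => mul_le_one₀ (gR_le r) (D.q_mem x).1 (D.q_mem x).2)
    (fun s hs => (I_le_const S.cone hs.1 (Adm.test_lf _) (c := 17 * D.M0) fun x r _ => by
      simp only [prodTest]
      have hl := (abs_le.1 (S.abs_lR' r)).2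
      have q0 := (D.q_mem x).1
      nlinarith [mul_le_mul_of_nonneg_left (D.lap_q_le x) (wR_nonneg r), wR_le r, (D.a2_mem x).1,
        (D.a2_mem x).2, mul_le_mul_of_nonneg_right hl q0, (D.q_mem x).2,
        mul_le_mul_of_nonneg_right (wR_le r) (D.a2_mem x).1]).trans
      ((S.const_mul_theta (by positivity) hs.1).trans (by linarith))) hσ
  simp only [prodTest, gR_one, one_mul, D.q_p, zero_mul, zero_add] at this
  nlinarith [S.M_mul hσ, S.gain' hσ]

theorem T0_le (hσ : σ ∈ Ioc 0 s1) :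
    D.I σ (fun x _ => D.q x) ≤ 60 / 10 ^ 5 + 2 / 10 ^ 12 := by
  have A1 : Adm D fun x r => gR r * D.q x := Adm.radial_mul continuous_gR
    (fun r => by rw [abs_of_nonneg (gR_nonneg r)]; exact gR_le r) (D.sm_cont _ D.sm_q)
  have A2 : Adm D fun _ r => 1 - gR r := Adm.test_f (etaTest D)
  have h2 := I_mono S.cone hσ.1 (Adm.fst (D.sm_cont _ D.sm_q)) (A1.add A2) fun x r _ => by
    nlinarith [mul_le_of_le_one_right (sub_nonneg.2 (gR_le r)) (D.q_mem x).2]
  rw [I_add S.cone hσ.1 A1 A2] at h2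
  linarith [S.T_le hσ, S.eta_le hσ]

theorem T_deriv_lower (hσ : σ ∈ Ioc 0 s1) :
    D.M0 ≤ D.I σ (prodTest D D.q D.sm_q).lf
      + D.I σ (fun x r => D.s2 x * (prodTest D D.q D.sm_q).f x r) / (4 * σ ^ 2) := by
  have hM := S.M0_pos
  have hJ := flux_nonneg S.cone hσ.1 (prodTest D D.q D.sm_q)
    fun x r _ => mul_nonneg (gR_nonneg r) (D.q_mem x).1
  have A1 : Adm D fun x r => 2 * (wR r * D.a2 x) := (Adm.radial_mul continuous_wR
    (fun r => by rw [abs_of_nonneg (wR_nonneg r)]; exact wR_le r) (D.sm_cont _ D.sm_a2)).mul_left 2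
  have A2 : Adm D fun x _ => (-21 * D.M0) * D.q x := (Adm.fst (D.sm_cont _ D.sm_q)).mul_left _
  have h2 := I_mono S.cone hσ.1 (A1.add A2) (Adm.test_lf (prodTest D D.q D.sm_q)) fun x r _ => by
    simp only [prodTest]
    have hl := (abs_le.1 (S.abs_lR' r)).1
    have q0 := (D.q_mem x).1
    nlinarith [mul_le_mul_of_nonneg_left (D.le_lap_q x) (wR_nonneg r),
      mul_le_mul_of_nonneg_right hl q0,
      mul_le_mul_of_nonneg_right (mul_le_mul (wR_le r) (D.a2_mem x).2 (D.a2_mem x).1 (by norm_num)) q0]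
  rw [I_add S.cone hσ.1 A1 A2, I_mul, I_mul] at h2
  nlinarith [S.a2w_lower hσ, S.T0_le hσ]

theorem H0_le (hσ : σ ∈ Ioc 0 s1) (hW : 0 < 40000 * s1) :
    D.I σ (fun x r => psi (40000 * s1) (r * D.b x)) ≤ 121 / 10 ^ 5 * s1 := by
  have := upper_bound S.cone S.uniq S.lim (psiTest D hW) (B := 40000 * s1)
    (K := 2 * (60 / 10 ^ 5 + 2 / 10 ^ 12)) (s1 := s1) (fun x r _ => psi_le hW _)
    (fun s hs => (I_mono S.cone hs.1 (Adm.test_lf (psiTest D hW))
      ((Adm.fst (D.sm_cont _ D.sm_q)).mul_left 2) fun x r _ => by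
        simp only [psiTest]
        nlinarith [(abs_le.1 (abs_half2 hW (r * D.b x))).2, (D.q_mem x).1]).trans
      (by rw [I_mul]; linarith [S.T0_le hs])) hσ
  simp only [psiTest, one_mul, D.b_p, psi_zero, zero_mul, zero_add] at this
  nlinarith [S.gain' hσ, hσ.2, S.s1_pos]

theorem T_near (hσ : σ ∈ Ioc 0 s1) (hW : 0 < 40000 * s1) :
    |D.I σ (fun x r => gR r * D.q x)
      - D.I σ (fun x r => gR r * half2 (40000 * s1) (r * D.b x) * D.q x)| ≤ 2 / 10 ^ 7 := by
  set W := 40000 * s1 with hWdef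
  have ch : Continuous fun z : X × ℝ => half2 W (z.2 * D.b z.1) := (continuous_half2 hW).comp D.cont_h
  have cq : Continuous fun z : X × ℝ => D.q z.1 := (D.sm_cont _ D.sm_q).comp continuous_fst
  have A1 : Adm D fun x r => gR r * D.q x := Adm.radial_mul continuous_gR
    (fun r => by rw [abs_of_nonneg (gR_nonneg r)]; exact gR_le r) (D.sm_cont _ D.sm_q)
  have A2 : Adm D fun x r => gR r * half2 W (r * D.b x) * D.q x :=
    Adm.of_bound ((((continuous_gR.comp continuous_snd).mul ch)).mul cq) (C := 1) fun x r _ => by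
      rw [abs_mul, abs_mul, abs_of_nonneg (gR_nonneg r), abs_of_nonneg (D.q_mem x).1]
      exact mul_le_one₀ (mul_le_one₀ (gR_le r) (abs_nonneg _) (abs_half2 hW _))
        (D.q_mem x).1 (D.q_mem x).2
  have A3 : Adm D fun x r => (6 / W) * psi W (r * D.b x) :=
    (Adm.test_f (psiTest D hW)).mul_left _
  have key : ∀ x r, 0 ≤ gR r * D.q x - gR r * half2 W (r * D.b x) * D.q x ∧
      gR r * D.q x - gR r * half2 W (r * D.b x) * D.q x ≤ 6 / W * psi W (r * D.b x) := by
    intro x r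
    have h1 := (abs_le.1 (abs_half2 hW (r * D.b x))).2
    have h2 := one_sub_half2 hW (r * D.b x)
    have gq0 := mul_nonneg (gR_nonneg r) (D.q_mem x).1
    have gq1 := mul_le_one₀ (gR_le r) (D.q_mem x).1 (D.q_mem x).2
    refine ⟨by nlinarith, ?_⟩
    rw [div_mul_eq_mul_div]
    calc gR r * D.q x - gR r * half2 W (r * D.b x) * D.q x
        = gR r * D.q x * (1 - half2 W (r * D.b x)) := by ring
      _ ≤ 1 * (1 - half2 W (r * D.b x)) := mul_le_mul_of_nonneg_right gq1 (by linarith)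
      _ ≤ _ := by linarith
  have u := I_mono S.cone hσ.1 A1 (A2.add A3) fun x r _ => by linarith [(key x r).2]
  have l := I_mono S.cone hσ.1 A2 A1 fun x r _ => by linarith [(key x r).1]
  rw [I_add S.cone hσ.1 A2 A3, I_mul] at u
  have hb : 6 / W * D.I σ (fun x r => psi W (r * D.b x)) ≤ 2 / 10 ^ 7 := by
    refine (mul_le_mul_of_nonneg_left (S.H0_le hσ hW) (by positivity)).trans ?_
    rw [hWdef]
    have := S.s1_pos
    rw [div_mul_eq_mul_div, div_le_iff₀ (by positivity)]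
    nlinarith
  rw [abs_le]
  constructor <;> linarith

/-- The key estimate. -/
theorem s2_lower (hσ : σ ∈ Icc (s1 / 2) s1) :
    s1 / 10 ^ 10 ≤ D.I σ (fun x _ => D.s2 x) := by
  have hs1 := S.s1_pos
  have hM := S.M0_pos
  have hW : 0 < 40000 * s1 := by positivity
  set W := 40000 * s1 with hWdef
  have hσ' : σ ∈ Ioc 0 s1 := ⟨by linarith [hσ.1], hσ.2⟩
  set T := prodTest D D.q D.sm_q with hT
  set P := gpsiTest D hW with hP
  have cb : Continuous fun z : X × ℝ => z.2 * D.b z.1 := D.cont_h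
  have chalf := (contDiff_half1 hW).continuous.comp cb
  have cg : Continuous fun z : X × ℝ => gR z.2 := continuous_gR.comp continuous_snd
  have habs : ∀ r, |gR r| ≤ 1 := fun r => by rw [abs_of_nonneg (gR_nonneg r)]; exact gR_le r
  have A2 : Adm D fun x r => gR r * half2 W (r * D.b x) * D.q x :=
    Adm.of_bound ((cg.mul ((continuous_half2 hW).comp cb)).mul
      ((D.sm_cont _ D.sm_q).comp continuous_fst)) (C := 1) fun x r _ => by
      rw [abs_mul, abs_mul, abs_of_nonneg (D.q_mem x).1]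
      exact mul_le_one₀ (mul_le_one₀ (habs r) (abs_nonneg _) (abs_half2 hW _))
        (D.q_mem x).1 (D.q_mem x).2
  have A0 : Adm D fun x r => psi W (r * D.b x) := Adm.test_f (psiTest D hW)
  -- the derivative of `I[g ψ]`
  have hH : ∀ s ∈ Ioc 0 s1, D.I s P.lf ≤
      2 * D.I s (fun x r => gR r * half2 W (r * D.b x) * D.q x) + 6 / 10 ^ 7 := by
    intro s hs
    have h2 := I_mono S.cone hs.1 (Adm.test_lf P) ((A2.mul_left 2).add (A0.mul_left (29 * D.M0)))
      fun x r _ => by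
        simp only [hP, gpsiTest]
        have p0 := psi_nonneg hW (r * D.b x)
        have hh := half1_mul_mem hW (r * D.b x)
        have hl := (abs_le.1 (S.abs_lR' r)).2
        have hd := (abs_le.1 (abs_dR r)).2
        have hM2 : 1 ≤ D.M0 := by linarith [S.two_le', D.m_le_M0]
        nlinarith [mul_le_mul_of_nonneg_right hl p0, mul_le_mul_of_nonneg_right hd hh.1,
          mul_le_mul_of_nonneg_right hM2 p0]
    rw [I_add S.cone hs.1 (A2.mul_left 2) (A0.mul_left (29 * D.M0)), I_mul, I_mul] at h2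
    have := mul_le_mul_of_nonneg_left (S.H0_le hs hW) (by positivity : (0 : ℝ) ≤ 29 * D.M0)
    nlinarith [S.scale]
  -- lower bound for `2σT - H`
  have low := le_limit_of_deriv (f := fun s => D.I s P.f - 2 * s * D.I s T.f
      + D.M0 * s ^ 2 - 10 / 10 ^ 7 * s - W * D.theta s)
    (f' := fun s => D.I s P.lf + D.I s (fun x r => D.s2 x * P.f x r) / (4 * s ^ 2)
      - (2 * D.I s T.f + 2 * s * (D.I s T.lf + D.I s (fun x r => D.s2 x * T.f x r) / (4 * s ^ 2)))
      + D.M0 * (2 * s) - 10 / 10 ^ 7 - W * (D.I s (fun x _ => D.s2 x) / (4 * s ^ 2)))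
    (l := P.f D.p 1 * L - 2 * 0 * (T.f D.p 1 * L) + D.M0 * (0 : ℝ) ^ 2 - 10 / 10 ^ 7 * 0 - W * L)
    hσ'.1 hσ'.2
    (fun s hs => by
      refine (((((S.cone.deriv P s hs.1).sub (((hasDerivAt_id s).const_mul 2).mul
        (S.cone.deriv T s hs.1))).add ((hasDerivAt_pow 2 s).const_mul D.M0)).sub
        ((hasDerivAt_id s).const_mul (10 / 10 ^ 7))).sub
        ((theta_deriv S.cone hs.1).const_mul W)).congr_deriv ?_
      simp)
    (fun s hs => by
      have hf : D.I s (fun x r => D.s2 x * P.f x r) / (4 * s ^ 2) ≤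
          W * (D.I s (fun x _ => D.s2 x) / (4 * s ^ 2)) :=
        flux_le S.cone hs.1 P fun x r _ =>
          (mul_le_of_le_one_left (psi_nonneg hW _) (gR_le r)).trans (psi_le hW _)
      have hn := S.T_near hs hW
      have hd := mul_le_mul_of_nonneg_left (S.T_deriv_lower hs)
        (by linarith [hs.1] : (0 : ℝ) ≤ 2 * s)
      rw [abs_le] at hn
      have : T.f = fun x r => gR r * D.q x := rfl
      rw [← hT] at hd
      rw [this] at hd ⊢
      linarith [hH s hs, hn.2, hn.1, mul_nonneg hM.le hs.1.le])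
    ((((tendsto_I S.cone S.uniq S.lim P).sub
      (((tendsto_nhdsWithin_of_tendsto_nhds tendsto_id).const_mul 2).mul
        (tendsto_I S.cone S.uniq S.lim T))).add
      ((((tendsto_nhdsWithin_of_tendsto_nhds tendsto_id)).pow 2).const_mul D.M0)).sub
      ((tendsto_nhdsWithin_of_tendsto_nhds tendsto_id).const_mul _) |>.sub (S.lim.const_mul W))
  have hP0 : P.f D.p 1 = 0 := by simp [hP, gpsiTest, D.b_p, psi_zero]
  rw [hP0] at low
  simp only [mul_zero, zero_mul, sub_zero, zero_pow two_ne_zero, add_zero] at low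
  -- upper bound for `2σT - H`
  have key := S.cone.ibp gR (fun r => r * dR r) (half1 W) (half2 W) contDiff_gR (contDiff_half1 hW)
    gR_deriv (half1_deriv hW) ⟨W + 5, fun r => ⟨(habs r).trans (by linarith),
      (abs_mul_dR r).trans (by linarith), (abs_half1 hW r).trans (by linarith),
      (abs_half2 hW r).trans (by linarith)⟩⟩ σ hσ'.1
  have hh : ∀ x r, |r * dR r * half1 W (r * D.b x) * D.b x| ≤ 4 * psi W (r * D.b x) := by
    intro x r
    have e : r * dR r * half1 W (r * D.b x) * D.b x =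
        dR r * (half1 W (r * D.b x) * (r * D.b x)) := by ring
    rw [e, abs_mul, abs_of_nonneg (half1_mul_mem hW _).1]
    exact mul_le_mul (abs_dR r) (half1_mul_mem hW _).2 (half1_mul_mem hW _).1 (by norm_num)
  have cE : Continuous fun z : X × ℝ => z.2 * dR z.2 * half1 W (z.2 * D.b z.1) * D.b z.1 :=
    ((continuous_snd.mul (continuous_dR.comp continuous_snd)).mul chalf).mul
      ((D.sm_cont _ D.sm_b).comp continuous_fst)
  have AE : Adm D fun x r => r * dR r * half1 W (r * D.b x) * D.b x :=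
    Adm.of_bound cE (C := 4 * W) fun x r _ => (hh x r).trans (by linarith [psi_le hW (r * D.b x)])
  rw [I_add S.cone hσ'.1 A2 AE] at key
  have hE : -(4 * D.I σ (fun x r => psi W (r * D.b x))) ≤
      D.I σ (fun x r => r * dR r * half1 W (r * D.b x) * D.b x) := by
    have := I_mono S.cone hσ'.1 (A0.mul_left (-4)) AE fun x r _ => by
      linarith [(abs_le.1 (hh x r)).1]
    rw [I_mul] at this
    linarith
  have AR : Adm D fun x r => gR r * half1 W (r * D.b x) * (r * D.b x + D.su x) := by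
    refine Adm.of_bound ((cg.mul chalf).mul (cb.add (D.cont_su.comp continuous_fst)))
      (C := 2 * W + 2) fun x r _ => ?_
    have hsu : |D.su x| ≤ 1 := by
      rw [← sq_le_one_iff_abs_le_one]
      exact (D.su_sq x).trans (D.s2_mem x).2
    have h1 := half1_mul_mem hW (r * D.b x)
    have h2 := psi_le hW (r * D.b x)
    have h3 := abs_half1 hW (r * D.b x)
    rw [mul_assoc, abs_mul]
    refine (mul_le_of_le_one_left (abs_nonneg _) (habs r)).trans ?_
    rw [mul_add]
    refine (abs_add_le _ _).trans ?_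
    rw [abs_of_nonneg h1.1, abs_mul]
    nlinarith [mul_le_mul h3 hsu (abs_nonneg _) (by linarith : (0 : ℝ) ≤ W + 1)]
  have hR := I_mono S.cone hσ'.1 AR (((Adm.test_f P).add (A0.mul_left (1 / 4000))).add
    ((Adm.fst D.cont_s2).mul_left 1000)) fun x r _ => by
      simp only [hP, gpsiTest]
      have g0 := gR_nonneg r
      have g1 := gR_le r
      have h1 := half1_mul_mem hW (r * D.b x)
      have hsq := half1_sq hW (r * D.b x)
      have h4 := mul_le_mul_of_nonneg_left h1.2 g0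
      have hz : gR r * half1 W (r * D.b x) * D.su x ≤
          1 / 4000 * psi W (r * D.b x) + 1000 * D.s2 x := by
        have hg2 : (gR r * half1 W (r * D.b x)) ^ 2 ≤ psi W (r * D.b x) := by
          rw [mul_pow]
          exact (mul_le_of_le_one_left (sq_nonneg _) (pow_le_one₀ g0 g1)).trans hsq
        nlinarith [sq_nonneg (gR r * half1 W (r * D.b x) - 2000 * D.su x), D.su_sq x]
      linarith
  rw [I_add S.cone hσ'.1 ((Adm.test_f P).add (A0.mul_left (1 / 4000)))
    ((Adm.fst D.cont_s2).mul_left 1000), I_add S.cone hσ'.1 (Adm.test_f P)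
    (A0.mul_left (1 / 4000)), I_mul, I_mul] at hR
  have hn := abs_le.1 (S.T_near hσ' hW)
  have hH0 := S.H0_le hσ' hW
  have hTf : T.f = fun x r => gR r * D.q x := rfl
  rw [hTf] at low
  have hσ2 : D.M0 * (s1 / 2) ^ 2 ≤ D.M0 * σ ^ 2 :=
    mul_le_mul_of_nonneg_left (pow_le_pow_left₀ (by linarith) hσ.1 2) hM.le
  have e1 : D.M0 * (s1 / 2) ^ 2 = s1 / (4 * 10 ^ 5) := by
    have : D.M0 * (s1 / 2) ^ 2 = D.M0 * s1 * s1 / 4 := by ring
    rw [this, S.scale]; ring
  have hb1 := mul_le_mul_of_nonneg_left hn.2 (by linarith [hσ'.1] : (0 : ℝ) ≤ 2 * σ)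
  have hb2 : 2 * σ * (4 * D.I σ (fun x r => psi W (r * D.b x))) ≤ s1 / 10 ^ 7 := by
    have hs1' : s1 ≤ 1 / 10 ^ 5 := by
      nlinarith [S.scale, S.two_le', D.m_le_M0]
    have := mul_le_mul_of_nonneg_left hH0 (by linarith [hσ'.1] : (0 : ℝ) ≤ 8 * σ)
    nlinarith [mul_le_mul hσ'.2 hs1' hs1.le hs1.le]
  have hb3 := mul_le_mul_of_nonneg_left hE (by linarith [hσ'.1] : (0 : ℝ) ≤ 2 * σ)
  have hb4 := mul_le_mul_of_nonneg_left (S.gain' hσ') hW.le
  rw [hWdef] at hb4
  nlinarith [hσ'.2]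

theorem absurd : False := by
  have hs1 := S.s1_pos
  have hd := fun s (hs : s ∈ Icc (s1 / 2) s1) =>
    theta_deriv S.cone (σ := s) (by linarith [hs.1])
  have h2 := (convex_Icc (s1 / 2) s1).mul_sub_le_image_sub_of_le_deriv
    (fun s hs => (hd s hs).continuousAt.continuousWithinAt)
    (fun s hs => (hd s (interior_subset hs)).differentiableAt.differentiableWithinAt)
    (C := 1 / (4 * 10 ^ 10 * s1))
    (fun s hs => by
      rw [(hd s (interior_subset hs)).deriv]
      have hs' := interior_subset hs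
      have h3 := S.s2_lower hs'
      have hs0 : 0 < s := by linarith [hs'.1]
      rw [div_le_div_iff₀ (by positivity) (by positivity)]
      nlinarith [mul_le_mul hs'.2 hs'.2 hs0.le hs1.le])
    (s1 / 2) (left_mem_Icc.2 (by linarith)) s1 (right_mem_Icc.2 (by linarith)) (by linarith)
  have e : 1 / (4 * 10 ^ 10 * s1) * (s1 - s1 / 2) = 1 / (8 * 10 ^ 10) := by field_simp; ring
  rw [e] at h2
  linarith [S.gain, S.le_theta (s1 / 2) (by positivity)]

end Small

/-- The gap from the data. -/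
theorem core_stmt : CoreStmt := by
  intro m hm X _ _ _ _ _ D h hlow
  by_contra! hsmall
  have hA := sphereArea_pos m
  have hle : ∀ s, 0 < s → D.theta s < 1 + 1 / 10 ^ 12 := fun s hs =>
    (h.theta_le s hs).trans_lt (by rw [div_lt_iff₀ hA]; exact hsmall)
  have hlim : Tendsto D.theta (𝓝[>] 0) (𝓝 (sInf (D.theta '' Ioi 0))) :=
    MonotoneOn.tendsto_nhdsGT (fun a ha b _ hab => theta_mono h ha hab)
      ⟨0, by rintro _ ⟨s, hs, rfl⟩; exact theta_nonneg h hs⟩
  set L := sInf (D.theta '' Ioi 0)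
  have hLle : ∀ s, 0 < s → L ≤ D.theta s := fun s hs =>
    csInf_le ⟨0, by rintro _ ⟨t, ht, rfl⟩; exact theta_nonneg h ht⟩ ⟨s, hs, rfl⟩
  have h1L : 1 ≤ L := by
    refine le_of_forall_pos_le_add fun η hη => ?_
    have := hlow D.p D.t_p univ isOpen_univ (mem_univ _) η hη
    simp only [indicator_univ] at this
    linarith [ge_of_tendsto hlim this]
  have huniq : ∀ x, D.t x = 1 → x = D.p := by
    intro y hy
    by_contra hne
    obtain ⟨U, V, hU, hV, hyU, hpV, hUV⟩ := t2_separation hne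
    obtain ⟨s, ⟨h3, h4⟩, hs0⟩ := (((hlow y hy U hU hyU (1 / 4) (by norm_num)).and
      (hlow D.p D.t_p V hV hpV (1 / 4) (by norm_num))).and
      (self_mem_nhdsWithin : Ioi (0 : ℝ) ∈ 𝓝[>] 0)).exists
    have hs : (0 : ℝ) < s := hs0
    have hint := h.integrable s hs (fun _ _ => 1) continuous_const
      ⟨1, fun x r hr => by simp; linarith⟩
    have hi : ∀ W : Set X, IsOpen W → Integrable (fun z : X × ℝ => z.2 ^ m * phi m s z.2 (D.t z.1)
        * W.indicator (fun _ => (1 : ℝ)) z.1) D.cone := by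
      intro W hW
      have e : (fun z : X × ℝ => z.2 ^ m * phi m s z.2 (D.t z.1)
          * W.indicator (fun _ => (1 : ℝ)) z.1) =
          (Prod.fst ⁻¹' W).indicator fun z => z.2 ^ m * phi m s z.2 (D.t z.1) * 1 := by
        funext z
        by_cases hz : z.1 ∈ W <;> simp [hz]
      rw [e]
      exact hint.indicator (hW.measurableSet.preimage measurable_fst)
    have := D.finite
    have hsum : D.I s (fun x _ => U.indicator (fun _ => (1 : ℝ)) x)
        + D.I s (fun x _ => V.indicator (fun _ => (1 : ℝ)) x) ≤ D.theta s := by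
      unfold Data.theta Data.I
      rw [← integral_add (hi U hU) (hi V hV)]
      refine integral_mono_ae ((hi U hU).add (hi V hV)) hint ?_
      have : ∀ᵐ z ∂D.cone, 0 < z.2 :=
        Measure.quasiMeasurePreserving_snd.ae (ae_restrict_mem (μ := volume) measurableSet_Ioi)
      filter_upwards [this] with z hz
      have hw := mul_nonneg (pow_nonneg hz.le m) (phi_nonneg' m hs z.2 (D.t z.1))
      by_cases a : z.1 ∈ U
      · simp [a, disjoint_left.1 hUV a]
      · by_cases b : z.1 ∈ V <;> simp [a, b, hw]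
    linarith [hle s hs]
  have hM : 0 < D.M0 := by
    have : (2 : ℝ) ≤ m := by exact_mod_cast hm
    linarith [D.m_le_M0]
  refine Small.absurd (D := D) (L := L) (s1 := 1 / 10 ^ 5 / D.M0)
    ⟨h, hm, huniq, hlim, h1L, hLle, fun s hs => by linarith [hle s hs], ?_, by field_simp⟩
  linarith [hle (1 / 10 ^ 5 / D.M0) (by positivity)]

end Vale.Agent.P224.Gap
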