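import Mathlib
import Vale.Agent.P224.Defs

/-!
P224, uniform volume gap: the data of a compact minimal hypersurface of the sphere that the cone
argument uses, and the Gaussian integrals over the cone.

Reading: `X` is the hypersurface, `p` a maximiser of `|A|²`, `x₀` its image, `v` the normal there;
`t = ⟪F, x₀⟫`, `b = ⟪F, v⟫`, `s2 = ⟪ν, x₀⟫²`, `q = 1 - ⟪ν, v⟫²`, `su = ⟪ν, x₀⟫⟪ν, v⟫`, `a2 = |A|²`,
`Lap` the Laplacian and `G` the inner product of gradients of the induced metric.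
-/

namespace Vale.Agent.P224.Gap

open MeasureTheory Set Filter
open scoped Topology ContDiff

/-- What the argument needs from a compact minimal hypersurface. -/
structure Data (m : ℕ) (X : Type*) [TopologicalSpace X] [CompactSpace X] [T2Space X]
    [MeasurableSpace X] [BorelSpace X] where
  μ : Measure X
  finite : IsFiniteMeasure μ
  Sm : (X → ℝ) → Prop
  Lap : (X → ℝ) → X → ℝ
  G : (X → ℝ) → (X → ℝ) → X → ℝ
  sm_const : ∀ c : ℝ, Sm fun _ => c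
  sm_cont : ∀ f, Sm f → Continuous f
  sm_comp : ∀ f g, Sm f → Sm g → ∀ K : ℝ × ℝ → ℝ, ContDiff ℝ ∞ K → Sm fun x => K (f x, g x)
  lap_cont : ∀ f, Sm f → Continuous (Lap f)
  g_cont : ∀ f g, Sm f → Sm g → Continuous (G f g)
  g_symm : ∀ f g x, G f g x = G g f x
  g_comp : ∀ f g h, Sm f → Sm g → Sm h → ∀ K : ℝ × ℝ → ℝ, ContDiff ℝ ∞ K → ∀ x,
    G (fun y => K (f y, g y)) h x =
      fderiv ℝ K (f x, g x) (1, 0) * G f h x + fderiv ℝ K (f x, g x) (0, 1) * G g h x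
  lap_comp : ∀ f g, Sm f → Sm g → ∀ K : ℝ × ℝ → ℝ, ContDiff ℝ ∞ K → ∀ x,
    Lap (fun y => K (f y, g y)) x =
      fderiv ℝ K (f x, g x) (1, 0) * Lap f x + fderiv ℝ K (f x, g x) (0, 1) * Lap g x
      + iteratedFDeriv ℝ 2 K (f x, g x) ![(1, 0), (1, 0)] * G f f x
      + 2 * iteratedFDeriv ℝ 2 K (f x, g x) ![(1, 0), (0, 1)] * G f g x
      + iteratedFDeriv ℝ 2 K (f x, g x) ![(0, 1), (0, 1)] * G g g x
  green : ∀ f g, Sm f → Sm g → ∫ x, (f x * Lap g x + G f g x) ∂μ = 0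
  t : X → ℝ
  b : X → ℝ
  q : X → ℝ
  s2 : X → ℝ
  su : X → ℝ
  a2 : X → ℝ
  sm_t : Sm t
  sm_b : Sm b
  sm_q : Sm q
  sm_a2 : Sm a2
  cont_s2 : Continuous s2
  cont_su : Continuous su
  lap_t : ∀ x, Lap t x = -(m : ℝ) * t x
  lap_b : ∀ x, Lap b x = -(m : ℝ) * b x
  g_tt : ∀ x, G t t x = 1 - t x ^ 2 - s2 x
  g_tb : ∀ x, G t b x = -(t x * b x) - su x
  g_bb : ∀ x, G b b x = q x - b x ^ 2
  abs_t : ∀ x, |t x| ≤ 1
  abs_b : ∀ x, |b x| ≤ 1
  s2_mem : ∀ x, s2 x ∈ Icc (0 : ℝ) 1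
  q_mem : ∀ x, q x ∈ Icc (0 : ℝ) 1
  su_sq : ∀ x, su x ^ 2 ≤ s2 x
  lap_q_le : ∀ x, Lap q x ≤ 2 * a2 x
  le_lap_q : ∀ x, 2 * a2 x - 4 * a2 x * q x ≤ Lap q x
  le_lap_a2 : ∀ x, 2 * a2 x * ((m : ℝ) - a2 x) ≤ Lap a2 x
  M0 : ℝ
  m_le_M0 : (m : ℝ) ≤ M0
  a2_mem : ∀ x, a2 x ∈ Icc (0 : ℝ) M0
  p : X
  t_p : t p = 1
  b_p : b p = 0
  q_p : q p = 0
  a2_p : a2 p = M0

variable {m : ℕ} {X : Type*} [TopologicalSpace X] [CompactSpace X] [T2Space X]
  [MeasurableSpace X] [BorelSpace X]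

/-- The Gaussian weight at the point at distance `r` from the vertex, `⟪·, x₀⟫ = r t`. -/
noncomputable def phi (m : ℕ) (σ r t : ℝ) : ℝ :=
  (4 * Real.pi * σ) ^ (-(((m : ℝ) + 1) / 2)) * Real.exp (-(r ^ 2 - 2 * r * t + 1) / (4 * σ))

/-- The measure on the cone, in polar coordinates, without the factor `r ^ m`. -/
noncomputable def Data.cone (D : Data m X) : Measure (X × ℝ) :=
  D.μ.prod (volume.restrict (Ioi 0))

/-- The Gaussian integral over the cone of `f`, at the scale `σ`. -/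
noncomputable def Data.I (D : Data m X) (σ : ℝ) (f : X → ℝ → ℝ) : ℝ :=
  ∫ z, z.2 ^ m * phi m σ z.2 (D.t z.1) * f z.1 z.2 ∂D.cone

/-- The Gaussian density. -/
noncomputable def Data.theta (D : Data m X) (σ : ℝ) : ℝ := D.I σ fun _ _ => 1

/-- Every preimage of the centre carries density at least one. -/
def Data.LowerDensity (D : Data m X) : Prop :=
  ∀ y, D.t y = 1 → ∀ W, IsOpen W → y ∈ W → ∀ η : ℝ, 0 < η →
    ∀ᶠ σ in 𝓝[>] (0 : ℝ), 1 - η ≤ D.I σ fun x _ => W.indicator (fun _ => (1 : ℝ)) x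

/-- A bounded test function on the cone with bounded Laplacian `lf`. -/
structure Test (D : Data m X) where
  f : X → ℝ → ℝ
  fr : X → ℝ → ℝ
  frr : X → ℝ → ℝ
  lf : X → ℝ → ℝ
  cont_f : Continuous fun z : X × ℝ => f z.1 z.2
  cont_fr : Continuous fun z : X × ℝ => fr z.1 z.2
  cont_frr : Continuous fun z : X × ℝ => frr z.1 z.2
  cont_lf : Continuous fun z : X × ℝ => lf z.1 z.2
  deriv1 : ∀ x r, HasDerivAt (f x) (fr x r) r
  deriv2 : ∀ x r, HasDerivAt (fr x) (frr x r) r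
  sm : ∀ r, D.Sm fun x => f x r
  lap_eq : ∀ x r, 0 < r →
    r ^ 2 * lf x r = r ^ 2 * frr x r + (m : ℝ) * r * fr x r + D.Lap (fun y => f y r) x
  bound : ∃ C, ∀ x r, 0 < r → |f x r| ≤ C ∧ |fr x r| ≤ C ∧ |frr x r| ≤ C ∧ |lf x r| ≤ C

end Vale.Agent.P224.Gap
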