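import Vale.Agent.P224.Simons.Point

/-!
P224, uniform volume gap: the identities for the height functions of `F` and of the normal at the
origin of adapted coordinates of a minimal hypersurface of the sphere.
-/

namespace Vale.Agent.P224.Simons

open scoped RealInnerProductSpace ContDiff Topology

variable {m : ℕ}

theorem D_inner_const {U : Set (Fin m → ℝ)} (hU : IsOpen U)
    {F : (Fin m → ℝ) → EuclideanSpace ℝ (Fin (m + 2))} (hF : ContDiffOn ℝ ∞ F U)
    (a : EuclideanSpace ℝ (Fin (m + 2))) (i : Fin m) {x : Fin m → ℝ} (hx : x ∈ U) :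
    D (fun y => ⟪F y, a⟫) i x = ⟪D F i x, a⟫ := by
  rw [D_inner hU hF contDiffOn_const i hx, D_const_eq hU (fun _ _ => rfl) i hx]
  simp

theorem D2_inner_const {U : Set (Fin m → ℝ)} (hU : IsOpen U)
    {F : (Fin m → ℝ) → EuclideanSpace ℝ (Fin (m + 2))} (hF : ContDiffOn ℝ ∞ F U)
    (a : EuclideanSpace ℝ (Fin (m + 2))) (i j : Fin m) {x : Fin m → ℝ} (hx : x ∈ U) :
    D (D (fun y => ⟪F y, a⟫) i) j x = ⟪D (D F i) j x, a⟫ := by
  rw [D_congr hU (fun y hy => D_inner_const hU hF a i hy) j hx,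
    D_inner_const hU (D_smooth hU hF i) a j hx]

/-- The identities at the origin of adapted coordinates. -/
theorem point_facts {U : Set (Fin m → ℝ)} (hU : IsOpen U) (h0 : (0 : Fin m → ℝ) ∈ U)
    {F ν : (Fin m → ℝ) → EuclideanSpace ℝ (Fin (m + 2))}
    (hF : ContDiffOn ℝ ∞ F U) (hν : ContDiffOn ℝ ∞ ν U)
    (hFF : ∀ x ∈ U, ⟪F x, F x⟫ = (1:ℝ)) (hνν : ∀ x ∈ U, ⟪ν x, ν x⟫ = (1:ℝ))
    (hνF : ∀ x ∈ U, ⟪ν x, F x⟫ = (0:ℝ))
    (hνT : ∀ x ∈ U, ∀ i, ⟪ν x, D F i x⟫ = (0:ℝ))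
    (horth : ∀ i j, ⟪D F i 0, D F j 0⟫ = if i = j then (1:ℝ) else 0)
    (htan : ∀ i j l, ⟪D (D F i) j 0, D F l 0⟫ = (0:ℝ))
    (M : Fin m → Fin m → (Fin m → ℝ) → ℝ) (hMs : ∀ i j, ContDiffOn ℝ ∞ (M i j) U)
    (hM : ∀ x ∈ U, ∀ i j, ∑ l, ⟪D F i x, D F l x⟫ * M l j x = -⟪D F i x, D ν j x⟫)
    (htr : ∀ x ∈ U, ∑ i, M i i x = 0) :
    0 ≤ ∑ i, ∑ j, M i j 0 * M j i 0 ∧
    (∀ a c : EuclideanSpace ℝ (Fin (m + 2)),
      ∑ i, D (D (fun y => ⟪F y, a⟫) i) i 0 = -(m : ℝ) * ⟪F 0, a⟫ ∧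
      ∑ i, D (fun y => ⟪F y, a⟫) i 0 * D (fun y => ⟪F y, c⟫) i 0
        = ⟪a, c⟫ - ⟪F 0, a⟫ * ⟪F 0, c⟫ - ⟪ν 0, a⟫ * ⟪ν 0, c⟫) ∧
    ∀ a : EuclideanSpace ℝ (Fin (m + 2)),
      ∑ i, D (D (fun y => ⟪ν y, a⟫) i) i 0 = -(∑ i, ∑ j, M i j 0 * M j i 0) * ⟪ν 0, a⟫ ∧
      ∑ i, D (fun y => ⟪ν y, a⟫) i 0 * D (fun y => ⟪ν y, a⟫) i 0
        ≤ (∑ i, ∑ j, M i j 0 * M j i 0) * (‖a‖ ^ 2 - ⟪F 0, a⟫ ^ 2 - ⟪ν 0, a⟫ ^ 2) := by
  have s1 : ∀ i, ContDiffOn ℝ ∞ (D F i) U := fun i => D_smooth hU hF i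
  have s2 : ∀ i j, ContDiffOn ℝ ∞ (D (D F i) j) U := fun i j => D_smooth hU (s1 i) j
  have t1 : ∀ i, ContDiffOn ℝ ∞ (D ν i) U := fun i => D_smooth hU hν i
  -- first order identities on U
  have eF1 : ∀ x ∈ U, ∀ i, ⟪F x, D F i x⟫ = (0:ℝ) := by
    intro x hx i
    have := D_const_eq hU hFF i hx
    rw [D_inner hU hF hF i hx, real_inner_comm (F x) (D F i x)] at this
    linarith
  have eν1 : ∀ x ∈ U, ∀ i, ⟪D ν i x, ν x⟫ = (0:ℝ) := by
    intro x hx i
    have := D_const_eq hU hνν i hx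
    rw [D_inner hU hν hν i hx, real_inner_comm (D ν i x) (ν x)] at this
    linarith
  have eν1F : ∀ x ∈ U, ∀ i, ⟪D ν i x, F x⟫ = (0:ℝ) := by
    intro x hx i
    have := D_const_eq hU hνF i hx
    rw [D_inner hU hν hF i hx, hνT x hx i] at this
    linarith
  have eν1T : ∀ x ∈ U, ∀ i j, ⟪D ν j x, D F i x⟫ + ⟪ν x, D (D F i) j x⟫ = (0:ℝ) := by
    intro x hx i j
    have := D_const_eq hU (fun y hy => hνT y hy i) j hx
    rw [D_inner hU hν (s1 i) j hx] at this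
    linarith
  -- data at the origin
  set h : Fin m → Fin m → ℝ := fun i j => ⟪D (D F i) j 0, ν 0⟫ with hh
  have hsymm : ∀ i j, h i j = h j i := by
    intro i j; simp only [hh, D_comm hU hF i j h0]
  have exp := frame_expand (fun l => D F l 0) (ν 0) (F 0) horth (hνν 0 h0) (hFF 0 h0) (hνF 0 h0)
    (fun i => by rw [real_inner_comm]; exact hνT 0 h0 i)
    (fun i => by rw [real_inner_comm]; exact eF1 0 h0 i)
  have e2F : ∀ i, ⟪D (D F i) i 0, F 0⟫ = -1 := by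
    intro i
    have := D_const_eq hU (fun y hy => eF1 y hy i) i h0
    rw [D_inner hU hF (s1 i) i h0, horth, if_pos rfl, real_inner_comm (D (D F i) i 0) (F 0)] at this
    linarith
  have eT : ∀ i j, ⟪D ν j 0, D F i 0⟫ = -h i j := by
    intro i j
    have := eν1T 0 h0 i j
    simp only [hh]
    rw [real_inner_comm (D (D F i) j 0) (ν 0)] at this
    linarith
  have e21 : ∀ l i j, ⟪D ν j 0, D (D F l) i 0⟫ = (0:ℝ) := by
    intro l i j
    rw [exp]
    simp [htan, eν1 0 h0, eν1F 0 h0]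
  have hMh : ∀ x ∈ U, ∀ i j,
      ∑ l, ⟪D F i x, D F l x⟫ * M l j x = ⟪D (D F i) j x, ν x⟫ := by
    intro x hx i j
    have := eν1T x hx i j
    rw [hM x hx i j, real_inner_comm (D ν j x), real_inner_comm (ν x)]
    linarith
  have M0 : ∀ i j, M i j 0 = h i j := by
    intro i j
    simpa [horth] using hMh 0 h0 i j
  have hS : ∑ i, ∑ j, M i j 0 * M j i 0 = ∑ i, ∑ j, h i j ^ 2 := by
    simp only [M0]
    exact Finset.sum_congr rfl fun i _ => Finset.sum_congr rfl fun j _ => by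
      rw [hsymm j i]; ring
  have htr0 : ∑ i, h i i = 0 := by simpa [M0] using htr 0 h0
  -- Codazzi and minimality
  have hcod : ∀ l, ∑ a, ⟪D (D (D F l) a) a 0, ν 0⟫ = (0:ℝ) := by
    intro l
    have hgs : ∀ i j, ContDiffOn ℝ ∞ (fun y => ⟪D F i y, D F j y⟫) U :=
      fun i j => (s1 i).inner ℝ (s1 j)
    have g10 : ∀ i j b, D (fun y => ⟪D F i y, D F j y⟫) b 0 = 0 := by
      intro i j b
      rw [D_inner hU (s1 i) (s1 j) b h0, real_inner_comm (D (D F j) b 0), htan, htan, add_zero]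
    have e1 : ∀ a, D (M a a) l 0 = ⟪D (D (D F a) a) l 0, ν 0⟫ := by
      intro a
      have e := D_congr hU (fun y hy => hMh y hy a a) l h0
      rw [D_sum hU _ (f := fun r y => ⟪D F a y, D F r y⟫ * M r a y)
        (fun r => (hgs a r).mul (hMs r a)) l h0, D_inner hU (s2 a a) hν l h0,
        real_inner_comm (D ν l 0) (D (D F a) a 0), e21, zero_add] at e
      rw [← e]
      have et : ∀ r, D (fun y => ⟪D F a y, D F r y⟫ * M r a y) l 0
          = (if a = r then 1 else 0) * D (M r a) l 0 := by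
        intro r
        rw [D_mul hU (hgs a r) (hMs r a) l h0, g10, horth]
        ring
      simp [et]
    have e2 : ∑ a, D (M a a) l 0 = 0 := by
      rw [← D_sum hU _ (fun a => hMs a a) l h0]
      exact D_const_eq hU htr l h0
    rw [← e2]
    refine Finset.sum_congr rfl fun a _ => ?_
    rw [e1, D_congr hU (fun y hy => D_comm hU hF l a hy) a h0, D_comm hU (s1 a) l a h0]
  refine ⟨?_, fun a c => ⟨?_, ?_⟩, fun a => ⟨?_, ?_⟩⟩
  · rw [hS]; positivity
  · have e : ∀ i, D (D (fun y => ⟪F y, a⟫) i) i 0 = h i i * ⟪ν 0, a⟫ - ⟪F 0, a⟫ := by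
      intro i
      rw [D2_inner_const hU hF a i i h0, exp]
      simp only [htan, zero_mul, Finset.sum_const_zero, zero_add, e2F, hh,
        real_inner_comm (ν 0) a, real_inner_comm (F 0) a]
      ring
    simp only [e, Finset.sum_sub_distrib, ← Finset.sum_mul, htr0, zero_mul, zero_sub,
      Finset.sum_const, Finset.card_univ, Fintype.card_fin, nsmul_eq_mul, neg_mul]
  · have e := exp a c
    simp only [D_inner_const hU hF _ _ h0]
    rw [e, real_inner_comm a (F 0), real_inner_comm c (F 0), real_inner_comm a (ν 0),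
      real_inner_comm c (ν 0)]
    have : ∑ i, ⟪D F i 0, a⟫ * ⟪D F i 0, c⟫ = ∑ l, ⟪a, D F l 0⟫ * ⟪c, D F l 0⟫ :=
      Finset.sum_congr rfl fun i _ => by rw [real_inner_comm (D F i 0) a, real_inner_comm (D F i 0) c]
    rw [this]
    ring
  · have e : ∀ i, D (D (fun y => ⟪ν y, a⟫) i) i 0
        = -(∑ l, ⟪D (D (D F l) i) i 0, ν 0⟫ * ⟪a, D F l 0⟫)
          - (∑ l, h i l ^ 2) * ⟪ν 0, a⟫ + h i i * ⟪F 0, a⟫ := by
      intro i
      have cT : ∀ l, ⟪D (D ν i) i 0, D F l 0⟫ = -⟪D (D (D F l) i) i 0, ν 0⟫ := by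
        intro l
        have := D_const_eq hU (fun y hy => eν1T y hy l i) i h0
        rw [D_add hU ((t1 i).inner ℝ (s1 l)) (hν.inner ℝ (s2 l i)) i h0,
          D_inner hU (t1 i) (s1 l) i h0, D_inner hU hν (s2 l i) i h0, e21,
          real_inner_comm (D (D (D F l) i) i 0) (ν 0)] at this
        linarith
      have cN : ⟪D (D ν i) i 0, ν 0⟫ = -∑ l, h i l ^ 2 := by
        have := D_const_eq hU (fun y hy => eν1 y hy i) i h0
        rw [D_inner hU (t1 i) hν i h0, exp (D ν i 0) (D ν i 0)] at this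
        simp only [eT, eν1 0 h0, eν1F 0 h0, mul_zero, add_zero, neg_mul_neg] at this
        have hl : ∑ l, h l i * h l i = ∑ l, h i l ^ 2 :=
          Finset.sum_congr rfl fun l _ => by rw [hsymm l i]; ring
        linarith
      have cF : ⟪D (D ν i) i 0, F 0⟫ = h i i := by
        have := D_const_eq hU (fun y hy => eν1F y hy i) i h0
        rw [D_inner hU (t1 i) hF i h0, eT] at this
        linarith
      rw [D2_inner_const hU hν a i i h0, exp, cN, cF]
      simp only [cT, neg_mul, Finset.sum_neg_distrib, real_inner_comm (ν 0) a,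
        real_inner_comm (F 0) a]
      ring
    simp only [e, Finset.sum_add_distrib, Finset.sum_sub_distrib, Finset.sum_neg_distrib,
      ← Finset.sum_mul, htr0, hS, zero_mul, add_zero]
    rw [Finset.sum_comm]
    simp only [← Finset.sum_mul, hcod, zero_mul, Finset.sum_const_zero]
    ring
  · have e : ∀ i, D (fun y => ⟪ν y, a⟫) i 0 = -∑ l, h i l * ⟪a, D F l 0⟫ := by
      intro i
      rw [D_inner_const hU hν a i h0, exp]
      simp only [eT, eν1 0 h0, eν1F 0 h0, zero_mul, add_zero, neg_mul, Finset.sum_neg_distrib]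
      simp only [hsymm]
    have et : ∑ l, ⟪a, D F l 0⟫ ^ 2 = ‖a‖ ^ 2 - ⟪F 0, a⟫ ^ 2 - ⟪ν 0, a⟫ ^ 2 := by
      have := exp a a
      rw [real_inner_self_eq_norm_sq] at this
      rw [real_inner_comm a (F 0), real_inner_comm a (ν 0)]
      simp only [pow_two] at this ⊢
      linarith
    rw [← et, hS, Finset.sum_mul]
    refine Finset.sum_le_sum fun i _ => ?_
    rw [e, neg_mul_neg, ← pow_two]
    exact Finset.sum_mul_sq_le_sq_mul_sq _ _ _

end Vale.Agent.P224.Simons
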