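import Vale.Agent.P224.Gap.ChartDefs
import Vale.Agent.P224.Gap.PointAdapted
import Vale.Agent.P224.Simons.Reparam

/-!
P224, uniform volume gap: the pointwise identities of a minimal hypersurface of the sphere in
arbitrary coordinates, by passing to coordinates adapted to the point.
-/

namespace Vale.Agent.P224.Gap

open scoped RealInnerProductSpace ContDiff Topology Matrix

variable {m : ℕ}

theorem inv_entry_smooth {X : Type*} [NormedAddCommGroup X] [NormedSpace ℝ X] {O : Set X}
    {g : X → Matrix (Fin m) (Fin m) ℝ} (hg : ∀ i j, ContDiffOn ℝ ∞ (fun x => g x i j) O)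
    (hd : ∀ x ∈ O, (g x).det ≠ 0) (a b : Fin m) :
    ContDiffOn ℝ ∞ (fun x => (g x)⁻¹ a b) O := by
  have hdet : ContDiffOn ℝ ∞ (fun x => (g x).det) O := by
    simp only [Matrix.det_apply']
    exact ContDiffOn.sum fun σ _ => contDiffOn_const.mul (contDiffOn_prod fun r _ => hg (σ r) r)
  have hadj : ContDiffOn ℝ ∞ (fun x => (g x).adjugate a b) O := by
    simp only [Matrix.adjugate_apply, Matrix.det_apply']
    refine ContDiffOn.sum fun σ _ => contDiffOn_const.mul (contDiffOn_prod fun r _ => ?_)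
    simp only [Matrix.updateRow_apply]
    split_ifs
    · exact contDiffOn_const
    · exact hg _ _
  simp only [Matrix.inv_def, Matrix.smul_apply, Ring.inverse_eq_inv', smul_eq_mul]
  exact (hdet.inv hd).mul hadj

theorem D_smooth' {W : Type*} [NormedAddCommGroup W] [NormedSpace ℝ W] {U : Set (E m)}
    {g : E m → W} (hU : IsOpen U) (hg : ContDiffOn ℝ ∞ g U) (i : Fin m) :
    ContDiffOn ℝ ∞ (D g i) U :=
  (hg.fderiv_of_isOpen hU (m := ∞) (by simp)).clm_apply contDiffOn_const

theorem sum_gram {L : Fin m → Fin m → ℝ} {gi : Matrix (Fin m) (Fin m) ℝ}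
    (hgi : ∀ k r, ∑ a, L a k * L a r = gi k r) (B : Fin m → Fin m → ℝ) :
    ∑ a, ∑ k, ∑ r, L a k * (L a r * B k r) = ∑ k, ∑ r, gi k r * B k r := by
  rw [Finset.sum_comm]
  refine Finset.sum_congr rfl fun k _ => ?_
  rw [Finset.sum_comm]
  refine Finset.sum_congr rfl fun r _ => ?_
  rw [← hgi, Finset.sum_mul]
  exact Finset.sum_congr rfl fun a _ => by ring

/-- The shape operator of a smooth family of normals is smooth. -/
theorem shapeOp_smooth {U : Set (E m)} (hU : IsOpen U) {f ν : E m → E (m + 2)}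
    (hf : ContDiffOn ℝ ∞ f U) (hν : ContDiffOn ℝ ∞ ν U) (hg : ∀ p ∈ U, (metric f p).det ≠ 0)
    (i j : Fin m) : ContDiffOn ℝ ∞ (fun p => shapeOp f p (ν p) i j) U := by
  simp only [shapeOp, Matrix.mul_apply]
  refine ContDiffOn.sum fun a _ => ?_
  refine (inv_entry_smooth (g := fun p => metric f p)
    (fun k r => (D_smooth' hU hf k).inner ℝ (D_smooth' hU hf r)) hg i a).mul ?_
  exact (D_smooth' hU (D_smooth' hU hf a) j).inner ℝ hν

/-- The identities at one point. -/
theorem point_at {U : Set (E m)} {f ν : E m → E (m + 2)} (hU : IsOpen U)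
    (hf : ContDiffOn ℝ ∞ f U) (hν : ContDiffOn ℝ ∞ ν U) (hs : ∀ p ∈ U, ‖f p‖ = 1)
    (hg : ∀ p ∈ U, (metric f p).det ≠ 0) (hn : ∀ p ∈ U, IsUnitNormal f p (ν p))
    (hH : ∀ p ∈ U, meanCurv f p (ν p) = 0) {p : E m} (hp : p ∈ U) :
      0 ≤ normSq f p (ν p) ∧
      (∀ a c : E (m + 2), lapU f (fun y => ⟪f y, a⟫) p = -(m : ℝ) * ⟪f p, a⟫ ∧
        gradU f (fun y => ⟪f y, a⟫) (fun y => ⟪f y, c⟫) p =
          ⟪a, c⟫ - ⟪f p, a⟫ * ⟪f p, c⟫ - ⟪ν p, a⟫ * ⟪ν p, c⟫) ∧
      (∀ a : E (m + 2), lapU f (fun y => ⟪ν y, a⟫) p = -normSq f p (ν p) * ⟪ν p, a⟫ ∧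
        gradU f (fun y => ⟪ν y, a⟫) (fun y => ⟪ν y, a⟫) p ≤
          normSq f p (ν p) * (‖a‖ ^ 2 - ⟪f p, a⟫ ^ 2 - ⟪ν p, a⟫ ^ 2)) ∧
      2 * normSq f p (ν p) * ((m : ℝ) - normSq f p (ν p)) ≤
        lapU f (fun y => normSq f y (ν y)) p := by
  classical
  let e := (EuclideanSpace.equiv (Fin m) ℝ).symm
  have hsingle : ∀ i : Fin m, e (Pi.single i 1) = EuclideanSpace.single i 1 := fun i => rfl
  -- an orthonormal frame
  let T : (Fin m → ℝ) →ₗ[ℝ] E (m + 2) := Fintype.linearCombination ℝ fun k => D f k p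
  have hTa : ∀ v, T v = ∑ k, v k • D f k p := fun v => by simp [T, Fintype.linearCombination_apply]
  obtain ⟨L, hL⟩ : ∃ L : Fin m → Fin m → ℝ,
      ∀ i j, ⟪T (L i), T (L j)⟫ = if i = j then (1:ℝ) else 0 := by
    have hT : Function.Injective T := by
      refine (injective_iff_map_eq_zero _).2 fun v hv => ?_
      have hz : metric f p *ᵥ v = 0 := by
        funext a
        have : ⟪D f a p, T v⟫ = (0:ℝ) := by rw [hv]; simp
        rw [hTa] at this
        simpa [Matrix.mulVec, dotProduct, metric, inner_sum, inner_smul_right, mul_comm] using this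
      exact Matrix.eq_zero_of_mulVec_eq_zero (hg p hp) hz
    have hr : Module.finrank ℝ (LinearMap.range T) = m := by
      rw [LinearMap.finrank_range_of_inj hT]; simp
    let b := (stdOrthonormalBasis ℝ (LinearMap.range T)).reindex (finCongr hr)
    have hb : ∀ i, ∃ v, T v = (b i : E (m + 2)) := fun i => (b i).2
    choose L hL using hb
    refine ⟨L, fun i j => ?_⟩
    rw [hL, hL]
    exact orthonormal_iff_ite.1 b.orthonormal i j
  have hgi : ∀ k r, ∑ a, L a k * L a r = (metric f p)⁻¹ k r := by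
    have h1 : Matrix.of L * (metric f p * (Matrix.of L)ᵀ) = 1 := by
      ext i j
      rw [Matrix.one_apply, ← hL, hTa, hTa]
      simp only [Matrix.mul_apply, Matrix.of_apply, Matrix.transpose_apply, metric, sum_inner,
        inner_sum, real_inner_smul_left, real_inner_smul_right, Finset.mul_sum]
      rw [Finset.sum_comm]
      exact Finset.sum_congr rfl fun a _ => Finset.sum_congr rfl fun b _ => by ring
    have h2 : metric f p * ((Matrix.of L)ᵀ * Matrix.of L) = 1 := by
      rw [← Matrix.mul_assoc]; exact mul_eq_one_comm.1 h1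
    intro k r
    rw [Matrix.inv_eq_right_inv h2]
    simp [Matrix.mul_apply]
  -- the coordinates
  set D2 : Fin m → Fin m → E (m + 2) :=
    fun i j => ∑ k, L i k • ∑ r, L j r • D (D f k) r p with hD2
  have hD2s : ∀ i j, D2 i j = D2 j i := by
    intro i j
    have hc : ∀ k r, D (D f k) r p = D (D f r) k p := by
      intro k r
      have hs2 : IsSymmSndFDerivAt ℝ f p :=
        (hf.contDiffAt (hU.mem_nhds hp)).isSymmSndFDerivAt
          (by simp only [minSmoothness_of_isRCLikeNormedField]; exact WithTop.coe_le_coe.mpr le_top)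
      have hd : DifferentiableAt ℝ (fderiv ℝ f) p :=
        (((hf.fderiv_of_isOpen hU (m := ∞) (by simp))).contDiffAt
          (hU.mem_nhds hp)).differentiableAt (by simp)
      unfold D
      rw [fderiv_clm_apply hd (differentiableAt_const _),
        fderiv_clm_apply hd (differentiableAt_const _)]
      simp [hs2.eq]
    simp only [hD2, Finset.smul_sum, smul_smul]
    rw [Finset.sum_comm]
    refine Finset.sum_congr rfl fun k _ => Finset.sum_congr rfl fun r _ => ?_
    rw [hc r k, mul_comm]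
  set Q : Fin m → Fin m → Fin m → ℝ :=
    fun i j => -∑ l, ⟪D2 i j, T (L l)⟫ • L l with hQ
  have hQs : ∀ i j, Q i j = Q j i := fun i j => by simp only [hQ, hD2s i j]
  set φ := Simons.quad (e.symm p) L Q with hφd
  have hφ : ContDiff ℝ ∞ φ := Simons.quad_smooth _ L Q
  set ψ : (Fin m → ℝ) → E m := fun y => e (φ y) with hψd
  have hψ : ContDiff ℝ ∞ ψ := e.contDiff.comp hφ
  have hψ0 : ψ 0 = p := by simp [hψd, hφd, Simons.quad]
  let J : (Fin m → ℝ) → Matrix (Fin m) (Fin m) ℝ :=
    fun y => Matrix.of fun k i => Simons.D φ i y k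
  have hJ : ∀ k i, ContDiff ℝ ∞ (fun y => J y k i) := by
    intro k i
    have := (hφ.fderiv_right (m := ∞) (by simp)).clm_apply (contDiff_const (c := Pi.single i 1))
    exact (contDiff_apply ℝ ℝ k).comp this
  have hdet : Continuous fun y => (J y).det :=
    Continuous.matrix_det (continuous_matrix fun k i => (hJ k i).continuous)
  set O := ψ ⁻¹' U ∩ {y | (J y).det ≠ 0} with hO
  have hOo : IsOpen O := (hU.preimage hψ.continuous).inter (isOpen_ne_fun hdet continuous_const)
  have J0 : ∀ k i, J 0 k i = L i k := by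
    intro k i; simp [J, hφd, Simons.D_quad _ L Q hQs]
  have hO0 : (0 : Fin m → ℝ) ∈ O := by
    refine ⟨by simp [hψ0, hp], ?_⟩
    have hli : LinearIndependent ℝ L := by
      apply LinearIndependent.of_comp T
      exact (orthonormal_iff_ite.2 hL).linearIndependent
    have h' : (J 0)ᵀ = Matrix.of L := by ext i k; simp [J0]
    show (J 0).det ≠ 0
    rw [← Matrix.det_transpose, h']
    exact ((Matrix.linearIndependent_rows_iff_isUnit.1 hli).map Matrix.detMonoidHom).ne_zero
  have maps : Set.MapsTo ψ O U := fun y hy => hy.1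
  have comp {X : Type} [NormedAddCommGroup X] [NormedSpace ℝ X] {u : E m → X}
      (hu : ContDiffOn ℝ ∞ u U) : ContDiffOn ℝ ∞ (fun y => u (ψ y)) O :=
    hu.comp hψ.contDiffOn maps
  have chain {X : Type} [NormedAddCommGroup X] [NormedSpace ℝ X] {u : E m → X}
      (hu : ContDiffOn ℝ ∞ u U) {y : Fin m → ℝ} (hy : y ∈ O) (i : Fin m) :
      Simons.D (fun z => u (ψ z)) i y = ∑ k, J y k i • D u k (ψ y) := by
    have hd : DifferentiableAt ℝ u (e (φ y)) :=
      (hu.contDiffAt (hU.mem_nhds hy.1)).differentiableAt (by simp)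
    rw [show (fun z => u (ψ z)) = fun z => (u ∘ e) (φ z) from rfl,
      Simons.D_comp (hd.comp _ e.differentiableAt) (hφ.differentiable (by simp) y) i]
    refine Finset.sum_congr rfl fun k _ => ?_
    congr 1
    show fderiv ℝ (u ∘ e) (φ y) (Pi.single k 1) = fderiv ℝ u (ψ y) (EuclideanSpace.single k 1)
    rw [e.comp_right_fderiv, ← hsingle]
    rfl
  have chain0 {X : Type} [NormedAddCommGroup X] [NormedSpace ℝ X] {u : E m → X}
      (hu : ContDiffOn ℝ ∞ u U) (i : Fin m) :
      Simons.D (fun z => u (ψ z)) i 0 = ∑ k, L i k • D u k p := by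
    rw [chain hu hO0, hψ0]
    simp only [J0]
  have dJ : ∀ i j k, Simons.D (fun y => J y k i) j 0 = Q i j k := by
    intro i j k
    have : (fun y => J y k i) = fun y => L i k + ∑ r, y r * Q i r k := by
      funext y; simp [J, hφd, Simons.D_quad _ L Q hQs, Finset.sum_apply]
    rw [this]
    have h := (HasFDerivAt.fun_sum (u := Finset.univ) fun r (_ : r ∈ Finset.univ) =>
      ((hasFDerivAt_apply (𝕜 := ℝ) (F' := fun _ : Fin m => ℝ) r
        (0 : Fin m → ℝ))).mul_const (Q i r k)).const_add (L i k)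
    unfold Simons.D
    rw [h.fderiv]
    simp [Pi.single_apply]
  have second {X : Type} [NormedAddCommGroup X] [NormedSpace ℝ X] {u : E m → X}
      (hu : ContDiffOn ℝ ∞ u U) (i j : Fin m) :
      Simons.D (Simons.D (fun z => u (ψ z)) i) j 0
        = (∑ k, L i k • ∑ r, L j r • D (D u k) r p) + ∑ k, Q i j k • D u k p := by
    rw [Simons.D_congr hOo (fun y hy => chain hu hy i) j hO0,
      Simons.D_sum hOo _ (f := fun k y => J y k i • D u k (ψ y))
        (fun k => (hJ k i).contDiffOn.smul (comp (D_smooth' hU hu k))) j hO0,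
      ← Finset.sum_add_distrib]
    refine Finset.sum_congr rfl fun k _ => ?_
    rw [Simons.D_smul hOo (hJ k i).contDiffOn (comp (D_smooth' hU hu k)) j hO0,
      chain0 (D_smooth' hU hu k), dJ, hψ0]
    simp only [J0]
  -- gradient and Laplacian at the point
  have grad : ∀ u w : E m → ℝ, ContDiffOn ℝ ∞ u U → ContDiffOn ℝ ∞ w U →
      ∑ a, Simons.D (fun z => u (ψ z)) a 0 * Simons.D (fun z => w (ψ z)) a 0
        = gradU f u w p := by
    intro u w hu hw
    simp only [chain0 hu, chain0 hw, gradU, smul_eq_mul, Finset.sum_mul, Finset.mul_sum]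
    rw [← sum_gram hgi]
    refine Finset.sum_congr rfl fun a _ => ?_
    rw [Finset.sum_comm]
    exact Finset.sum_congr rfl fun k _ => Finset.sum_congr rfl fun r _ => by ring
  have lap : ∀ u : E m → ℝ, ContDiffOn ℝ ∞ u U →
      ∑ a, Simons.D (Simons.D (fun z => u (ψ z)) a) a 0 = lapU f u p := by
    intro u hu
    set c : E (m + 2) → ℝ :=
      fun x => ∑ k, ∑ r, ⟪x, D f k p⟫ * (metric f p)⁻¹ k r * D u r p with hc
    have hcQ : ∀ a, ∑ k, Q a a k • D u k p
        = -∑ i, ∑ j, L a i * (L a j * c (D (D f i) j p)) := by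
      intro a
      have hlin : ∀ x, ∑ l, ⟪x, T (L l)⟫ * ∑ k, L l k * D u k p = c x := by
        intro x
        simp only [hTa, inner_sum, real_inner_smul_right, Finset.sum_mul, Finset.mul_sum, hc]
        calc _ = ∑ l, ∑ k, ∑ r, L l k * (L l r * (⟪x, D f k p⟫ * D u r p)) := by
              refine Finset.sum_congr rfl fun l _ => ?_
              rw [Finset.sum_comm]
              exact Finset.sum_congr rfl fun k _ => Finset.sum_congr rfl fun r _ => by ring
          _ = _ := by
              rw [sum_gram hgi]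
              exact Finset.sum_congr rfl fun k _ => Finset.sum_congr rfl fun r _ => by ring
      have h1 : ∑ k, Q a a k • D u k p = -c (D2 a a) := by
        rw [← hlin]
        simp only [hQ, Pi.neg_apply, Finset.sum_apply, Pi.smul_apply, smul_eq_mul, neg_mul,
          Finset.sum_neg_distrib, Finset.sum_mul, Finset.mul_sum, mul_assoc]
        rw [Finset.sum_comm]
      rw [h1]
      simp only [hc, hD2, sum_inner, real_inner_smul_left, Finset.sum_mul, Finset.mul_sum,
        mul_assoc]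
      congr 1
      rw [Finset.sum_comm_cycle]
      refine Finset.sum_congr rfl fun i _ => ?_
      rw [Finset.sum_comm_cycle]
    simp only [second hu, hcQ]
    simp only [smul_eq_mul, Finset.mul_sum]
    rw [Finset.sum_add_distrib, Finset.sum_neg_distrib, sum_gram hgi, sum_gram hgi]
    simp only [lapU, hc, mul_sub, Finset.sum_sub_distrib]
    ring
  -- the hypersurface in the adapted coordinates
  have hnn : ∀ y ∈ U, ⟪ν y, ν y⟫ = (1:ℝ) := fun y hy => by
    rw [real_inner_self_eq_norm_sq, (hn y hy).1]; norm_num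
  have hff : ∀ y ∈ U, ⟪f y, f y⟫ = (1:ℝ) := fun y hy => by
    rw [real_inner_self_eq_norm_sq, hs y hy]; norm_num
  have hII : ∀ y ∈ U, ∀ i j, secondForm f y (ν y) i j = -⟪D f i y, D ν j y⟫ := by
    intro y hy i j
    have hd : DifferentiableAt ℝ (D f i) y :=
      ((D_smooth' hU hf i).contDiffAt (hU.mem_nhds hy)).differentiableAt (by simp)
    have hd' : DifferentiableAt ℝ ν y :=
      (hν.contDiffAt (hU.mem_nhds hy)).differentiableAt (by simp)
    have h : (fun z => ⟪D f i z, ν z⟫) =ᶠ[𝓝 y] fun _ => (0 : ℝ) := by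
      filter_upwards [hU.mem_nhds hy] with z hz using (hn z hz).2.2 i
    have h0 : fderiv ℝ (fun z => ⟪D f i z, ν z⟫) y (EuclideanSpace.single j 1) = 0 := by
      simp [h.fderiv_eq]
    rw [fderiv_inner_apply ℝ hd hd'] at h0
    show ⟪fderiv ℝ (D f i) y _, ν y⟫ = -⟪D f i y, fderiv ℝ ν y _⟫
    linarith
  let MM : (Fin m → ℝ) → Matrix (Fin m) (Fin m) ℝ := fun y => shapeOp f (ψ y) (ν (ψ y))
  let MG : (Fin m → ℝ) → Matrix (Fin m) (Fin m) ℝ := fun y => (J y)⁻¹ * MM y * J y
  have hunit : ∀ y ∈ O, IsUnit (J y).det := fun y hy => isUnit_iff_ne_zero.2 hy.2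
  have hMMs : ∀ a b, ContDiffOn ℝ ∞ (fun y => MM y a b) O :=
    fun a b => comp (shapeOp_smooth hU hf hν hg a b)
  have hMGs : ∀ i j, ContDiffOn ℝ ∞ (fun y => MG y i j) O := by
    intro i j
    simp only [MG, Matrix.mul_apply]
    exact ContDiffOn.sum fun a _ => (ContDiffOn.sum fun b _ =>
      (inv_entry_smooth (fun k r => (hJ k r).contDiffOn) (fun y hy => hy.2) i b).mul
        (hMMs b a)).mul (hJ a j).contDiffOn
  set F := fun z => f (ψ z) with hFd
  set N := fun z => ν (ψ z) with hNd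
  have hNT : ∀ y ∈ O, ∀ i, ⟪N y, Simons.D F i y⟫ = (0:ℝ) := by
    intro y hy i
    rw [chain hf hy, inner_sum]
    refine Finset.sum_eq_zero fun k _ => ?_
    rw [real_inner_smul_right, real_inner_comm]
    simp only [hNd, (hn _ hy.1).2.2 k, mul_zero]
  have horth : ∀ i j, ⟪Simons.D F i 0, Simons.D F j 0⟫ = if i = j then (1:ℝ) else 0 := by
    intro i j
    rw [chain0 hf, chain0 hf, ← hTa, ← hTa, hL]
  have htan : ∀ i j l, ⟪Simons.D (Simons.D F i) j 0, Simons.D F l 0⟫ = (0:ℝ) := by
    intro i j l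
    rw [second hf, chain0 hf, ← hTa, ← hTa, inner_add_left]
    change ⟪D2 i j, T (L l)⟫ + ⟪T (Q i j), T (L l)⟫ = 0
    simp [hQ, map_sum, map_smul, inner_neg_left, sum_inner, real_inner_smul_left, hL]
  have hM : ∀ y ∈ O, ∀ i j, ∑ l, ⟪Simons.D F i y, Simons.D F l y⟫ * MG y l j
      = -⟪Simons.D F i y, Simons.D N j y⟫ := by
    intro y hy i j
    have hl : ∀ i l, ⟪Simons.D F i y, Simons.D F l y⟫
        = ((J y)ᵀ * metric f (ψ y) * J y) i l := by
      intro i l
      simp only [hFd, chain hf hy, sum_inner, inner_sum, real_inner_smul_left,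
        real_inner_smul_right, Matrix.mul_apply, Matrix.transpose_apply, Finset.sum_mul,
        metric, Matrix.of_apply]
      exact Finset.sum_congr rfl fun a _ => Finset.sum_congr rfl fun b _ => by ring
    have hr : -⟪Simons.D F i y, Simons.D N j y⟫
        = ((J y)ᵀ * secondForm f (ψ y) (ν (ψ y)) * J y) i j := by
      simp only [hFd, hNd, chain hf hy, chain hν hy, sum_inner, inner_sum, real_inner_smul_left,
        real_inner_smul_right, Matrix.mul_apply, Matrix.transpose_apply, Finset.sum_mul,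
        hII _ hy.1, ← Finset.sum_neg_distrib]
      exact Finset.sum_congr rfl fun a _ => Finset.sum_congr rfl fun b _ => by ring
    rw [hr]
    simp only [hl]
    rw [← Matrix.mul_apply]
    show ((J y)ᵀ * metric f (ψ y) * J y * ((J y)⁻¹ * MM y * J y)) i j = _
    simp [MM, shapeOp, Matrix.mul_assoc, Matrix.mul_nonsing_inv_cancel_left _ _ (hunit y hy),
      Matrix.mul_nonsing_inv_cancel_left _ _ (isUnit_iff_ne_zero.2 (hg _ hy.1))]
  have htr : ∀ y ∈ O, ∑ i, MG y i i = 0 := by
    intro y hy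
    show Matrix.trace ((J y)⁻¹ * MM y * J y) = 0
    rw [Matrix.trace_mul_cycle, Matrix.mul_nonsing_inv _ (hunit y hy), Matrix.one_mul]
    exact hH _ hy.1
  have hΦ : ∀ y ∈ O, normSq f (ψ y) (ν (ψ y)) = ∑ i, ∑ j, MG y i j * MG y j i := by
    intro y hy
    have e1 : ∑ i, ∑ j, MG y i j * MG y j i = Matrix.trace (MG y * MG y) := by
      simp [Matrix.trace, Matrix.mul_apply]
    have e2 : MG y * MG y = (J y)⁻¹ * (MM y * MM y) * J y := by
      simp [MG, Matrix.mul_assoc, Matrix.mul_nonsing_inv_cancel_left _ _ (hunit y hy)]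
    rw [e1, e2, Matrix.trace_mul_cycle, Matrix.mul_nonsing_inv _ (hunit y hy), Matrix.one_mul]
    rfl
  have hFF : ∀ y ∈ O, ⟪F y, F y⟫ = (1:ℝ) := fun y hy => hff _ hy.1
  have hNN : ∀ y ∈ O, ⟪N y, N y⟫ = (1:ℝ) := fun y hy => hnn _ hy.1
  have hNF : ∀ y ∈ O, ⟪N y, F y⟫ = (0:ℝ) := fun y hy => by
    rw [real_inner_comm]; exact (hn _ hy.1).2.1
  obtain ⟨h1, h2, h3⟩ := Simons.point_facts hOo hO0 (comp hf) (comp hν) hFF hNN hNF hNT horth htan
    (fun i j y => MG y i j) hMGs hM htr
  have h4 := Simons.simons_point_le hOo hO0 (comp hf) (comp hν) hFF hNN hNF hNT horth htan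
    (fun i j y => MG y i j) hMGs hM htr (fun y => normSq f (ψ y) (ν (ψ y))) hΦ
  have hN0 : normSq f p (ν p) = ∑ i, ∑ j, MG 0 i j * MG 0 j i := by
    rw [← hΦ 0 hO0, hψ0]
  have hfa : ∀ a, ContDiffOn ℝ ∞ (fun y => ⟪f y, a⟫) U := fun a => hf.inner ℝ contDiffOn_const
  have hνa : ∀ a, ContDiffOn ℝ ∞ (fun y => ⟪ν y, a⟫) U := fun a => hν.inner ℝ contDiffOn_const
  have hNs : ContDiffOn ℝ ∞ (fun y => normSq f y (ν y)) U := by
    simp only [normSq, Matrix.trace, Matrix.diag, Matrix.mul_apply]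
    exact ContDiffOn.sum fun i _ => ContDiffOn.sum fun j _ =>
      (shapeOp_smooth hU hf hν hg i j).mul (shapeOp_smooth hU hf hν hg j i)
  refine ⟨by rw [hN0]; exact h1, fun a c => ⟨?_, ?_⟩, fun a => ⟨?_, ?_⟩, ?_⟩
  · rw [← lap _ (hfa a), ← hψ0]; exact (h2 a c).1
  · rw [← grad _ _ (hfa a) (hfa c), ← hψ0]; exact (h2 a c).2
  · rw [← lap _ (hνa a), hN0, ← hψ0]; exact (h3 a).1
  · rw [← grad _ _ (hνa a) (hνa a), hN0, ← hψ0]; exact (h3 a).2
  · rw [← lap _ hNs]
    simpa only [hψ0] using h4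

/-- The pointwise identities of a minimal hypersurface of the sphere. -/
theorem point_stmt {m : ℕ} : PointStmt m := by
  intro U f ν hU hf hν hs hg hn hH
  refine ⟨?_, fun p hp => point_at hU hf hν hs hg hn hH hp⟩
  simp only [normSq, Matrix.trace, Matrix.diag, Matrix.mul_apply]
  exact ContDiffOn.sum fun i _ => ContDiffOn.sum fun j _ =>
    (shapeOp_smooth hU hf hν hg i j).mul (shapeOp_smooth hU hf hν hg j i)

end Vale.Agent.P224.Gap
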