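import Vale.Agent.P224.Gap.Local
import Vale.Agent.P224.Gap.Point

/-!
P224, uniform volume gap: on a connected domain, `|A|² = 0` everywhere forces the image into a
great sphere, so an immersion whose image lies in no great `m`-sphere has `|A|² ≠ 0` somewhere.
-/

namespace Vale.Agent.P224.Gap

open Set Filter
open scoped RealInnerProductSpace Topology ContDiff Manifold Matrix

variable {m : ℕ}

/-- Two unit normals differ by a sign. -/
theorem normal_unique {U : Set (E m)} (hU : IsOpen U) {f : E m → E (m + 2)}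
    (hf : ContDiffOn ℝ ∞ f U) (hs : ∀ q ∈ U, ‖f q‖ = 1) {p : E m} (hp : p ∈ U)
    (hg : (metric f p).det ≠ 0) {ν v : E (m + 2)} (hν : IsUnitNormal f p ν)
    (hv : IsUnitNormal f p v) : v = ν ∨ v = -ν := by
  have hli := linearIndependent_frame hU hf hs hp hg
  set S := Submodule.span ℝ
    (Set.range (Fin.cons (f p) (fun i => D f i p) : Fin (m + 1) → E (m + 2))) with hS
  have hS1 : Module.finrank ℝ S = m + 1 := by
    rw [hS, finrank_span_eq_card hli, Fintype.card_fin]
  have hperp : Module.finrank ℝ Sᗮ = 1 := by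
    have := S.finrank_add_finrank_orthogonal
    rw [hS1, finrank_euclideanSpace_fin] at this
    omega
  have hmem : ∀ x, IsUnitNormal f p x → x ∈ Sᗮ := fun x hx => by
    rw [Submodule.mem_orthogonal]
    intro y hy
    induction hy using Submodule.span_induction with
    | mem y hy =>
      obtain ⟨i, rfl⟩ := hy
      induction i using Fin.cases with
      | zero => simpa using hx.2.1
      | succ i => simpa using hx.2.2 i
    | zero => simp
    | add a b _ _ ha hb => rw [inner_add_left, ha, hb, add_zero]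
    | smul c a _ ha => rw [real_inner_smul_left, ha, mul_zero]
  have hν0 : (⟨ν, hmem ν hν⟩ : Sᗮ) ≠ 0 := fun h => by
    have : ν = 0 := congrArg Subtype.val h
    simpa [this] using hν.1
  obtain ⟨c, hc⟩ := (finrank_eq_one_iff_of_nonzero' _ hν0).1 hperp ⟨v, hmem v hv⟩
  have hc' : c • ν = v := congrArg Subtype.val hc
  have hc1 : |c| = 1 := by
    have := hv.1
    rw [← hc', norm_smul, hν.1, mul_one, Real.norm_eq_abs] at this
    exact this
  rcases abs_choice c with h | h <;> rw [h] at hc1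
  · exact Or.inl (by rw [← hc', hc1, one_smul])
  · exact Or.inr (by rw [← hc', neg_eq_iff_eq_neg.1 hc1, neg_one_smul])

/-- Where `|A|²` vanishes the unit normal has zero differential. -/
theorem fderiv_normal_eq_zero {U : Set (E m)} (hU : IsOpen U) {f ν : E m → E (m + 2)}
    (hf : ContDiffOn ℝ ∞ f U) (hν : ContDiffOn ℝ ∞ ν U) (hs : ∀ q ∈ U, ‖f q‖ = 1)
    (hg : ∀ q ∈ U, (metric f q).det ≠ 0) (hn : ∀ q ∈ U, IsUnitNormal f q (ν q))
    (hH : ∀ q ∈ U, meanCurv f q (ν q) = 0) {p : E m} (hp : p ∈ U)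
    (h0 : normSq f p (ν p) = 0) : fderiv ℝ ν p = 0 := by
  have key : ∀ a i, ⟪D ν i p, a⟫ = 0 := by
    intro a i
    have h := ((point_at hU hf hν hs hg hn hH hp).2.2.1 a).2
    set w : E m → ℝ := fun y => ⟪ν y, a⟫
    rw [h0, zero_mul] at h
    have hX : gradVec f w p = 0 := by
      have e : ⟪gradVec f w p, gradVec f w p⟫ = gradU f w w p := by
        change ⟪∑ k, ∑ l, ((metric f p)⁻¹ k l * D w l p) • D f k p, gradVec f w p⟫ = _
        simp only [sum_inner, real_inner_smul_left, inner_gradVec (hg p hp), gradU]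
        exact Finset.sum_congr rfl fun k _ => Finset.sum_congr rfl fun l _ => by ring
      exact inner_self_eq_zero.1 (le_antisymm (e ▸ h) real_inner_self_nonneg)
    have hw := inner_gradVec (hg p hp) w i
    rw [hX, inner_zero_right] at hw
    have e : D w i p = ⟪D ν i p, a⟫ := by
      show fderiv ℝ (fun y => ⟪ν y, a⟫) p _ = _
      rw [fderiv_inner_apply ℝ (diffAt hU hν hp) (differentiableAt_const _)]
      simp [D]
    rw [← e, ← hw]
  ext1 v
  rw [fderiv_eq_sum_D, zero_apply]
  refine Finset.sum_eq_zero fun i _ => ?_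
  rw [inner_self_eq_zero.1 (key (D ν i p) i), smul_zero]

variable {M : Type*} [TopologicalSpace M] [ChartedSpace (E m) M] [IsManifold (𝓡 m) ∞ M]

/-- A connected minimal immersion with `|A|² = 0` everywhere lies in an equator. -/
theorem equator_of_normSq_eq_zero [ConnectedSpace M] {F : M → E (m + 2)}
    (hF : IsMinimalImmersion F)
    (h0 : ∀ x, ∀ p ∈ (chartAt (E m) x).target, ∀ ν, IsUnitNormal (rep F x) p ν →
      normSq (rep F x) p ν = 0) :
    ∃ v : E (m + 2), ‖v‖ = 1 ∧ ∀ x, ⟪F x, v⟫ = 0 := by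
  -- near every point the image lies in the hyperplane of any normal there
  have hloc : ∀ x : M, ∃ (B : Set (E m)) (ν : E (m + 2)), IsOpen B ∧
      B ⊆ (chartAt (E m) x).target ∧ chartAt (E m) x x ∈ B ∧
      ∀ q ∈ B, IsUnitNormal (rep F x) q ν := by
    intro x
    set U := (chartAt (E m) x).target
    have hU : IsOpen U := (chartAt (E m) x).open_target
    have hf : ContDiffOn ℝ ∞ (rep F x) U := contMDiffOn_iff_contDiffOn.1
      (hF.smooth.comp_contMDiffOn (contMDiffOn_chart_symm (n := ∞) (I := 𝓡 m) (x := x)))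
    have hs : ∀ q ∈ U, ‖rep F x q‖ = 1 := fun q _ => hF.sphere _
    obtain ⟨N, hN, hn⟩ := exists_normal hU hf hs (hF.immersion x)
    obtain ⟨r, hr, hball⟩ := Metric.isOpen_iff.1 hU _ (mem_chart_target (E m) x)
    refine ⟨Metric.ball (chartAt (E m) x x) r, N (chartAt (E m) x x), Metric.isOpen_ball, hball,
      Metric.mem_ball_self hr, fun q hq => ?_⟩
    have hz : ∀ z ∈ Metric.ball (chartAt (E m) x x) r, fderiv ℝ N z = 0 := fun z hz =>
      fderiv_normal_eq_zero hU hf hN hs (hF.immersion x) hn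
        (fun q hq => hF.minimal x q hq _ (hn q hq)) (hball hz) (h0 x z (hball hz) _ (hn z (hball hz)))
    rw [Metric.isOpen_ball.is_const_of_fderiv_eq_zero
      (convex_ball _ _).isPreconnected ((hN.mono hball).differentiableOn (by simp)) hz
      (Metric.mem_ball_self hr) hq]
    exact hn q (hball hq)
  choose B n hBo hBT hBx hBn using hloc
  set A : M → Set M := fun x₀ => {x | ∀ᶠ y in 𝓝 x, ⟪F y, n x₀⟫ = 0} with hA
  obtain ⟨x₀⟩ := (inferInstance : Nonempty M)
  have hnhds : ∀ x, (chartAt (E m) x).source ∩ chartAt (E m) x ⁻¹' B x ∈ 𝓝 x := fun x =>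
    ((chartAt (E m) x).isOpen_inter_preimage (hBo x)).mem_nhds
      ⟨mem_chart_source _ x, hBx x⟩
  have hself : ∀ x, ∀ᶠ y in 𝓝 x, ⟪F y, n x⟫ = 0 := fun x => by
    filter_upwards [hnhds x] with y hy
    simpa [rep, (chartAt (E m) x).left_inv hy.1] using (hBn x _ hy.2).2.1
  have hclosed : IsClosed (A x₀) := by
    refine isClosed_iff_clusterPt.2 fun x hx => ?_
    -- a point of `A x₀` in the chart at `x`
    obtain ⟨y, hy, hyA⟩ := clusterPt_principal_iff.1 hx _ (hnhds x)
    set φ := chartAt (E m) x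
    have hu : IsUnitNormal (rep F x) (φ y) (n x₀) := by
      have hν : ‖n x₀‖ = 1 := (hBn x₀ _ (hBx x₀)).1
      have hev : ∀ᶠ q in 𝓝 (φ y), ⟪rep F x q, n x₀⟫ = 0 := by
        have ht : Tendsto φ.symm (𝓝 (φ y)) (𝓝 y) := φ.tendsto_symm hy.1
        exact ht.eventually hyA
      refine ⟨hν, hev.self_of_nhds, fun i => ?_⟩
      have hd : DifferentiableAt ℝ (rep F x) (φ y) := diffAt φ.open_target
        (contMDiffOn_iff_contDiffOn.1 (hF.smooth.comp_contMDiffOn
          (contMDiffOn_chart_symm (n := ∞) (I := 𝓡 m) (x := x)))) (φ.map_source hy.1)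
      have h1 : fderiv ℝ (fun q => ⟪rep F x q, n x₀⟫) (φ y) (EuclideanSpace.single i 1) = 0 := by
        rw [Filter.EventuallyEq.fderiv_eq
          (show (fun q => ⟪rep F x q, n x₀⟫) =ᶠ[𝓝 (φ y)] fun _ => (0 : ℝ) from hev)]
        simp
      rw [fderiv_inner_apply ℝ hd (differentiableAt_const _)] at h1
      simpa [D] using h1
    have hU : IsOpen φ.target := φ.open_target
    have hq : φ y ∈ φ.target := φ.map_source hy.1
    rcases normal_unique hU (contMDiffOn_iff_contDiffOn.1 (hF.smooth.comp_contMDiffOn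
        (contMDiffOn_chart_symm (n := ∞) (I := 𝓡 m) (x := x)))) (fun q _ => hF.sphere _) hq
        (hF.immersion x _ hq) (hBn x _ hy.2) hu with h | h
    · show ∀ᶠ z in 𝓝 x, ⟪F z, n x₀⟫ = 0
      rw [h]; exact hself x
    · show ∀ᶠ z in 𝓝 x, ⟪F z, n x₀⟫ = 0
      rw [h]
      exact (hself x).mono fun z hz => by rw [inner_neg_right, hz, neg_zero]
  have huniv : A x₀ = univ := IsClopen.eq_univ ⟨hclosed, isOpen_setOfPred_eventually_nhds⟩ ⟨x₀, hself x₀⟩
  exact ⟨n x₀, (hBn x₀ _ (hBx x₀)).1, fun x =>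
    (show x ∈ A x₀ by rw [huniv]; trivial : ∀ᶠ y in 𝓝 x, ⟪F y, n x₀⟫ = 0).self_of_nhds⟩

/-- An immersion of a connected manifold whose image lies in no great `m`-sphere is not flat. -/
theorem exists_normSq_ne [ConnectedSpace M] {F : M → E (m + 2)} (hF : IsMinimalImmersion F)
    (_hm : 2 ≤ m) (hne : ∀ v : E (m + 2), v ≠ 0 → ∃ x, ⟪F x, v⟫ ≠ 0) :
    ∃ x, ∃ p ∈ (chartAt (E m) x).target, ∃ ν, IsUnitNormal (rep F x) p ν ∧
      normSq (rep F x) p ν ≠ 0 := by
  by_contra! h
  obtain ⟨v, hv, hv0⟩ := equator_of_normSq_eq_zero hF h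
  obtain ⟨x, hx⟩ := hne v fun h0 => by simp [h0] at hv
  exact hx (hv0 x)

end Vale.Agent.P224.Gap
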