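import Vale.Agent.P224.Gap.ChartDefs
import Vale.Agent.P224.Normal
import Vale.Agent.P224.Jac

/-!
P224, uniform volume gap: calculus of `gradU` and `lapU` inside one chart (invariance under a change
of coordinates, chain rules, divergence theorem).
-/

namespace Vale.Agent.P224.Gap

open MeasureTheory Set Filter
open scoped RealInnerProductSpace Topology ContDiff Matrix
open Matrix

variable {m : ℕ} {U : Set (E m)} {f : E m → E (m + 2)}

section basic

variable {W : Type*} [NormedAddCommGroup W] [NormedSpace ℝ W]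

theorem DD_symm (hU : IsOpen U) {u : E m → W} (hu : ContDiffOn ℝ ∞ u U) {p : E m} (hp : p ∈ U)
    (i j : Fin m) : D (D u i) j p = D (D u j) i p := by
  have hs : IsSymmSndFDerivAt ℝ u p := (hu.contDiffAt (hU.mem_nhds hp)).isSymmSndFDerivAt
    (by simp only [minSmoothness_of_isRCLikeNormedField]; exact WithTop.coe_le_coe.mpr le_top)
  have hd := diffAt hU (hu.fderiv_of_isOpen hU (m := ∞) (by simp)) hp
  have hk : ∀ a b : Fin m, D (D u a) b p = fderiv ℝ (fderiv ℝ u) p
      (EuclideanSpace.single b 1) (EuclideanSpace.single a 1) := fun a b => by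
    unfold D
    rw [fderiv_clm_apply hd (differentiableAt_const _)]
    simp
  rw [hk, hk, hs.eq]

theorem D_congr_on (hU : IsOpen U) {u v : E m → W} (h : Set.EqOn u v U) {p : E m} (hp : p ∈ U)
    (i : Fin m) : D u i p = D v i p := by
  unfold D
  rw [(Filter.eventuallyEq_of_mem (hU.mem_nhds hp) h).fderiv_eq]

theorem D_fun_sum {ι : Type*} (s : Finset ι) {u : ι → E m → W} {p : E m}
    (hu : ∀ k ∈ s, DifferentiableAt ℝ (u k) p) (i : Fin m) :
    D (fun y => ∑ k ∈ s, u k y) i p = ∑ k ∈ s, D (u k) i p := by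
  unfold D
  rw [fderiv_fun_sum hu]
  simp

theorem D_fun_smul {a : E m → ℝ} {u : E m → W} {p : E m} (ha : DifferentiableAt ℝ a p)
    (hu : DifferentiableAt ℝ u p) (i : Fin m) :
    D (fun y => a y • u y) i p = a p • D u i p + D a i p • u p := by
  unfold D
  rw [fderiv_fun_smul ha hu]
  simp

theorem D_fun_mul {a u : E m → ℝ} {p : E m} (ha : DifferentiableAt ℝ a p)
    (hu : DifferentiableAt ℝ u p) (i : Fin m) :
    D (fun y => a y * u y) i p = a p * D u i p + D a i p * u p :=
  D_fun_smul (W := ℝ) ha hu i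

theorem euclid_eq_sum (v : E m) : v = ∑ i, v i • EuclideanSpace.single i (1 : ℝ) := by
  ext j
  simp [Pi.single_apply]

theorem fderiv_eq_sum_D {u : E m → W} (p v : E m) : fderiv ℝ u p v = ∑ i, v i • D u i p := by
  conv_lhs => rw [euclid_eq_sum v]
  simp [map_sum, D]

/-- Chain rule in coordinates. -/
theorem D_comp {u : E m → W} {φ : E m → E m} {p : E m} (hu : DifferentiableAt ℝ u (φ p))
    (hφ : DifferentiableAt ℝ φ p) (i : Fin m) :
    D (u ∘ φ) i p = ∑ k, D φ i p k • D u k (φ p) := by
  show fderiv ℝ (u ∘ φ) p _ = _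
  rw [fderiv_comp p hu hφ, ContinuousLinearMap.comp_apply, fderiv_eq_sum_D]
  rfl

end basic

/-! ### The metric -/

theorem metric_symm (p : E m) (i j : Fin m) : metric f p i j = metric f p j i := by
  simp only [metric, Matrix.of_apply]
  exact real_inner_comm _ _

theorem metric_transpose (p : E m) : (metric f p)ᵀ = metric f p :=
  Matrix.ext fun i j => metric_symm p j i

theorem inv_metric_symm (p : E m) (i j : Fin m) :
    (metric f p)⁻¹ i j = (metric f p)⁻¹ j i := by
  have h : ((metric f p)⁻¹)ᵀ = (metric f p)⁻¹ := by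
    rw [transpose_nonsing_inv, metric_transpose]
  conv_lhs => rw [← h, transpose_apply]

theorem det_metric_pos {p : E m} (hg : (metric f p).det ≠ 0) : 0 < (metric f p).det := by
  refine lt_of_le_of_ne (Matrix.PosSemidef.det_nonneg ?_) hg.symm
  refine Matrix.posSemidef_iff_dotProduct_mulVec.2 ⟨?_, fun a => ?_⟩
  · ext i j
    simp [metric_symm p j i]
  · rw [star_trivial, sum_metric]
    positivity

theorem contDiffOn_metric (hU : IsOpen U) (hf : ContDiffOn ℝ ∞ f U) (i j : Fin m) :
    ContDiffOn ℝ ∞ (fun y => metric f y i j) U :=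
  (D_smooth hU hf i).inner ℝ (D_smooth hU hf j)

theorem contDiffOn_det_metric (hU : IsOpen U) (hf : ContDiffOn ℝ ∞ f U) :
    ContDiffOn ℝ ∞ (fun y => (metric f y).det) U := by
  simp only [Matrix.det_apply']
  exact ContDiffOn.sum fun σ _ =>
    contDiffOn_const.mul (contDiffOn_prod fun a _ => contDiffOn_metric hU hf (σ a) a)

theorem contDiffOn_inv_metric (hU : IsOpen U) (hf : ContDiffOn ℝ ∞ f U)
    (hg : ∀ p ∈ U, (metric f p).det ≠ 0) (i j : Fin m) :
    ContDiffOn ℝ ∞ (fun y => (metric f y)⁻¹ i j) U := by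
  have hadj : ContDiffOn ℝ ∞ (fun y => (metric f y).adjugate i j) U := by
    simp only [Matrix.adjugate_apply, Matrix.det_apply']
    refine ContDiffOn.sum fun σ _ => contDiffOn_const.mul (contDiffOn_prod fun r _ => ?_)
    simp only [Matrix.updateRow_apply]
    split_ifs
    · exact contDiffOn_const
    · exact contDiffOn_metric hU hf _ _
  simp only [Matrix.inv_def, Matrix.smul_apply, Ring.inverse_eq_inv', smul_eq_mul]
  exact ((contDiffOn_det_metric hU hf).inv hg).mul hadj

theorem contDiffOn_volDensity (hU : IsOpen U) (hf : ContDiffOn ℝ ∞ f U)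
    (hg : ∀ p ∈ U, (metric f p).det ≠ 0) : ContDiffOn ℝ ∞ (volDensity f) U :=
  (contDiffOn_det_metric hU hf).sqrt hg

/-- The tangential gradient of `u`, as a vector of the ambient space. -/
noncomputable def gradVec (f : E m → E (m + 2)) (u : E m → ℝ) (p : E m) : E (m + 2) :=
  ∑ k, ∑ l, ((metric f p)⁻¹ k l * D u l p) • D f k p

/-- The covariant Hessian. -/
noncomputable def hessU (f : E m → E (m + 2)) (u : E m → ℝ) (p : E m) : Matrix (Fin m) (Fin m) ℝ :=
  Matrix.of fun i j => D (D u i) j p - ⟪D (D f i) j p, gradVec f u p⟫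

/-- The vector of the partial derivatives. -/
noncomputable def dvec (u : E m → ℝ) (p : E m) : Fin m → ℝ := fun i => D u i p

theorem gradU_eq (u w : E m → ℝ) (p : E m) :
    gradU f u w p = dvec u p ⬝ᵥ ((metric f p)⁻¹ *ᵥ dvec w p) := by
  simp only [gradU, dvec, dotProduct, Matrix.mulVec, Finset.mul_sum]
  exact Finset.sum_congr rfl fun i _ => Finset.sum_congr rfl fun j _ => by ring

theorem gradU_symm (u w : E m → ℝ) (p : E m) : gradU f u w p = gradU f w u p := by
  simp only [gradU]
  rw [Finset.sum_comm]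
  exact Finset.sum_congr rfl fun i _ => Finset.sum_congr rfl fun j _ => by
    rw [inv_metric_symm p j i]; ring

theorem lapU_eq (u : E m → ℝ) (p : E m) :
    lapU f u p = ∑ i, ∑ j, (metric f p)⁻¹ i j * hessU f u p i j := by
  refine Finset.sum_congr rfl fun i _ => Finset.sum_congr rfl fun j _ => ?_
  simp only [hessU, gradVec, Matrix.of_apply, inner_sum, real_inner_smul_right]
  congr 2
  exact Finset.sum_congr rfl fun k _ => Finset.sum_congr rfl fun l _ => by ring

theorem inner_gradVec {p : E m} (hg : (metric f p).det ≠ 0) (u : E m → ℝ) (j : Fin m) :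
    ⟪D f j p, gradVec f u p⟫ = D u j p := by
  have h : (metric f p * (metric f p)⁻¹) = 1 := Matrix.mul_nonsing_inv _ (isUnit_iff_ne_zero.2 hg)
  have e : ⟪D f j p, gradVec f u p⟫ = ((metric f p * (metric f p)⁻¹) *ᵥ dvec u p) j := by
    rw [← Matrix.mulVec_mulVec]
    simp only [gradVec, inner_sum, real_inner_smul_right, Matrix.mulVec, dotProduct,
      Finset.mul_sum, dvec, metric, Matrix.of_apply]
    exact Finset.sum_congr rfl fun k _ => Finset.sum_congr rfl fun l _ => by ring
  rw [e, h, Matrix.one_mulVec, dvec]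

theorem contDiffOn_gradU (hU : IsOpen U) (hf : ContDiffOn ℝ ∞ f U)
    (hg : ∀ p ∈ U, (metric f p).det ≠ 0) {u w : E m → ℝ} (hu : ContDiffOn ℝ ∞ u U)
    (hw : ContDiffOn ℝ ∞ w U) : ContDiffOn ℝ ∞ (gradU f u w) U :=
  ContDiffOn.sum fun i _ => ContDiffOn.sum fun j _ =>
    (contDiffOn_inv_metric hU hf hg i j).mul ((D_smooth hU hu i).mul (D_smooth hU hw j))

theorem contDiffOn_lapU (hU : IsOpen U) (hf : ContDiffOn ℝ ∞ f U)
    (hg : ∀ p ∈ U, (metric f p).det ≠ 0) {u : E m → ℝ} (hu : ContDiffOn ℝ ∞ u U) :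
    ContDiffOn ℝ ∞ (lapU f u) U :=
  ContDiffOn.sum fun i _ => ContDiffOn.sum fun j _ => (contDiffOn_inv_metric hU hf hg i j).mul
    ((D_smooth hU (D_smooth hU hu i) j).sub (ContDiffOn.sum fun k _ => ContDiffOn.sum fun l _ =>
      (((D_smooth hU (D_smooth hU hf i) j).inner ℝ (D_smooth hU hf k)).mul
        (contDiffOn_inv_metric hU hf hg k l)).mul (D_smooth hU hu l)))

theorem gradU_congr (hU : IsOpen U) {u u' w w' : E m → ℝ} (hu : Set.EqOn u u' U)
    (hw : Set.EqOn w w' U) {p : E m} (hp : p ∈ U) : gradU f u w p = gradU f u' w' p := by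
  simp only [gradU, D_congr_on hU hu hp, D_congr_on hU hw hp]

theorem lapU_congr (hU : IsOpen U) {u u' : E m → ℝ} (hu : Set.EqOn u u' U) {p : E m}
    (hp : p ∈ U) : lapU f u p = lapU f u' p := by
  have h1 : ∀ i, Set.EqOn (D u i) (D u' i) U := fun i y hy => D_congr_on hU hu hy i
  simp only [lapU, D_congr_on hU hu hp, fun i j => D_congr_on hU (h1 i) hp j]

/-! ### Chain rules -/

theorem D_comp₂ {u w : E m → ℝ} {K : ℝ × ℝ → ℝ} {p : E m} (hu : DifferentiableAt ℝ u p)
    (hw : DifferentiableAt ℝ w p) (hK : DifferentiableAt ℝ K (u p, w p)) (i : Fin m) :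
    D (fun y => K (u y, w y)) i p =
      fderiv ℝ K (u p, w p) (1, 0) * D u i p + fderiv ℝ K (u p, w p) (0, 1) * D w i p := by
  have h := hK.hasFDerivAt.comp p (hu.hasFDerivAt.prodMk hw.hasFDerivAt)
  show fderiv ℝ (K ∘ fun y => (u y, w y)) p _ = _
  rw [h.fderiv, ContinuousLinearMap.comp_apply, ContinuousLinearMap.prod_apply]
  have e : ((fderiv ℝ u p) (EuclideanSpace.single i (1 : ℝ)),
      (fderiv ℝ w p) (EuclideanSpace.single i (1 : ℝ))) =
      D u i p • ((1 : ℝ), (0 : ℝ)) + D w i p • ((0 : ℝ), (1 : ℝ)) := by simp [D]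
  rw [e, map_add, map_smul, map_smul, smul_eq_mul, smul_eq_mul]
  ring

theorem gradU_comp (hU : IsOpen U) {u w v : E m → ℝ} (hu : ContDiffOn ℝ ∞ u U)
    (hw : ContDiffOn ℝ ∞ w U) {K : ℝ × ℝ → ℝ} (hK : ContDiff ℝ ∞ K) {p : E m} (hp : p ∈ U) :
    gradU f (fun y => K (u y, w y)) v p =
      fderiv ℝ K (u p, w p) (1, 0) * gradU f u v p +
        fderiv ℝ K (u p, w p) (0, 1) * gradU f w v p := by
  simp only [gradU, D_comp₂ (diffAt hU hu hp) (diffAt hU hw hp)
    (hK.differentiable (by simp) _), Finset.mul_sum, ← Finset.sum_add_distrib]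
  exact Finset.sum_congr rfl fun i _ => Finset.sum_congr rfl fun j _ => by ring

theorem DD_comp₂ (hU : IsOpen U) {u w : E m → ℝ} (hu : ContDiffOn ℝ ∞ u U)
    (hw : ContDiffOn ℝ ∞ w U) {K : ℝ × ℝ → ℝ} (hK : ContDiff ℝ ∞ K) {p : E m} (hp : p ∈ U)
    (i j : Fin m) :
    D (D (fun y => K (u y, w y)) i) j p =
      fderiv ℝ K (u p, w p) (1, 0) * D (D u i) j p +
        fderiv ℝ K (u p, w p) (0, 1) * D (D w i) j p +
        iteratedFDeriv ℝ 2 K (u p, w p) ![(1, 0), (1, 0)] * (D u i p * D u j p) +
        iteratedFDeriv ℝ 2 K (u p, w p) ![(1, 0), (0, 1)] * (D u i p * D w j p + D w i p * D u j p) +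
        iteratedFDeriv ℝ 2 K (u p, w p) ![(0, 1), (0, 1)] * (D w i p * D w j p) := by
  have hK1 : ∀ e : ℝ × ℝ, ContDiff ℝ ∞ fun z => fderiv ℝ K z e := fun e =>
    (hK.fderiv_right (m := ∞) (by simp)).clm_apply contDiff_const
  have e1 : Set.EqOn (D (fun y => K (u y, w y)) i)
      (fun y => fderiv ℝ K (u y, w y) (1, 0) * D u i y +
        fderiv ℝ K (u y, w y) (0, 1) * D w i y) U := fun y hy =>
    D_comp₂ (diffAt hU hu hy) (diffAt hU hw hy) (hK.differentiable (by simp) _) i
  have hc : ∀ e : ℝ × ℝ, DifferentiableAt ℝ (fun y => fderiv ℝ K (u y, w y) e) p := fun e =>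
    ((hK1 e).differentiable (by simp) _).comp p ((diffAt hU hu hp).prodMk (diffAt hU hw hp))
  have hd1 := diffAt hU (D_smooth hU hu i) hp
  have hd2 := diffAt hU (D_smooth hU hw i) hp
  rw [D_congr_on hU e1 hp j]
  have e2 : D (fun y => fderiv ℝ K (u y, w y) (1, 0) * D u i y +
      fderiv ℝ K (u y, w y) (0, 1) * D w i y) j p =
      D (fun y => fderiv ℝ K (u y, w y) (1, 0) * D u i y) j p +
        D (fun y => fderiv ℝ K (u y, w y) (0, 1) * D w i y) j p := by
    have ha : DifferentiableAt ℝ (fun y => fderiv ℝ K (u y, w y) (1, 0) * D u i y) p :=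
      (hc _).mul hd1
    have hb : DifferentiableAt ℝ (fun y => fderiv ℝ K (u y, w y) (0, 1) * D w i y) p :=
      (hc _).mul hd2
    show fderiv ℝ _ p _ = fderiv ℝ _ p _ + fderiv ℝ _ p _
    rw [fderiv_fun_add ha hb, _root_.add_apply]
  have h2 : ∀ a e : ℝ × ℝ, fderiv ℝ (fun z => fderiv ℝ K z e) (u p, w p) a =
      fderiv ℝ (fderiv ℝ K) (u p, w p) a e := fun a e => by
    rw [fderiv_clm_apply ((hK.fderiv_right (m := ∞) (by simp)).differentiable (by simp) _)
      (differentiableAt_const _)]
    simp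
  have hs : IsSymmSndFDerivAt ℝ K (u p, w p) := hK.contDiffAt.isSymmSndFDerivAt
    (by simp only [minSmoothness_of_isRCLikeNormedField]; exact WithTop.coe_le_coe.mpr le_top)
  rw [e2, D_fun_mul (hc _) hd1, D_fun_mul (hc _) hd2,
    D_comp₂ (diffAt hU hu hp) (diffAt hU hw hp) ((hK1 (1, 0)).differentiable (by simp) _),
    D_comp₂ (diffAt hU hu hp) (diffAt hU hw hp) ((hK1 (0, 1)).differentiable (by simp) _)]
  simp only [iteratedFDeriv_two_apply, h2, Matrix.cons_val_zero, Matrix.cons_val_one]
  rw [hs.eq (1, 0) (0, 1)]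
  ring

theorem lapU_comp (hU : IsOpen U) {u w : E m → ℝ} (hu : ContDiffOn ℝ ∞ u U)
    (hw : ContDiffOn ℝ ∞ w U) {K : ℝ × ℝ → ℝ} (hK : ContDiff ℝ ∞ K) {p : E m} (hp : p ∈ U) :
    lapU f (fun y => K (u y, w y)) p =
      fderiv ℝ K (u p, w p) (1, 0) * lapU f u p + fderiv ℝ K (u p, w p) (0, 1) * lapU f w p
      + iteratedFDeriv ℝ 2 K (u p, w p) ![(1, 0), (1, 0)] * gradU f u u p
      + 2 * iteratedFDeriv ℝ 2 K (u p, w p) ![(1, 0), (0, 1)] * gradU f u w p
      + iteratedFDeriv ℝ 2 K (u p, w p) ![(0, 1), (0, 1)] * gradU f w w p := by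
  set a := fderiv ℝ K (u p, w p) (1, 0)
  set b := fderiv ℝ K (u p, w p) (0, 1)
  have hX : gradVec f (fun y => K (u y, w y)) p = a • gradVec f u p + b • gradVec f w p := by
    simp only [gradVec, D_comp₂ (diffAt hU hu hp) (diffAt hU hw hp)
      (hK.differentiable (by simp) _), Finset.smul_sum, smul_smul, ← Finset.sum_add_distrib,
      ← add_smul]
    exact Finset.sum_congr rfl fun k _ => Finset.sum_congr rfl fun l _ => by congr 1; ring
  rw [two_mul, add_mul]
  nth_rewrite 2 [gradU_symm u w]
  simp only [lapU_eq, hessU, Matrix.of_apply, hX, DD_comp₂ hU hu hw hK hp, inner_add_right,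
    real_inner_smul_right, gradU, Finset.mul_sum, ← Finset.sum_add_distrib]
  exact Finset.sum_congr rfl fun i _ => Finset.sum_congr rfl fun j _ => by ring

/-! ### Change of coordinates -/

theorem invariance : InvarianceStmt m := by
  intro U f V φ hU hV hf hφ hmap hg p hp hJ0
  have hq : φ p ∈ U := hmap hp
  have hφd := diffAt hV hφ hp
  have hdet := hg _ hq
  set q := φ p with hqd
  set J : Matrix (Fin m) (Fin m) ℝ := Matrix.of fun k i => D φ i p k with hJd
  have hchain : ∀ {W : Type} [NormedAddCommGroup W] [NormedSpace ℝ W] {u : E m → W},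
      ContDiffOn ℝ ∞ u U → ∀ i, D (u ∘ φ) i p = ∑ k, J k i • D u k q := fun hu i =>
    D_comp (diffAt hU hu hq) hφd i
  have hJdet : (fderiv ℝ φ p).det = J.det := by
    let bs := (EuclideanSpace.basisFun (Fin m) ℝ).toBasis
    show LinearMap.det (fderiv ℝ φ p).toLinearMap = J.det
    rw [← LinearMap.det_toMatrix bs]
    congr 1
  have hJu : IsUnit J.det := isUnit_iff_ne_zero.2 (hJdet ▸ hJ0)
  have hmet : metric (f ∘ φ) p = Jᵀ * metric f q * J := by
    ext i j
    simp only [Matrix.mul_apply, Matrix.transpose_apply, metric, Matrix.of_apply, hchain hf,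
      sum_inner, inner_sum, real_inner_smul_left, real_inner_smul_right, Finset.sum_mul]
    refine Finset.sum_congr rfl fun a _ => Finset.sum_congr rfl fun b _ => ?_
    rw [real_inner_comm (D f a q) (D f b q)]
    ring
  have hinv : J * (metric (f ∘ φ) p)⁻¹ * Jᵀ = (metric f q)⁻¹ := by
    rw [hmet, Matrix.mul_inv_rev, Matrix.mul_inv_rev, Matrix.mul_nonsing_inv_cancel_left _ _ hJu,
      Matrix.mul_assoc, Matrix.nonsing_inv_mul _ (J.isUnit_det_transpose hJu), Matrix.mul_one]
  have hdv : ∀ u : E m → ℝ, ContDiffOn ℝ ∞ u U → dvec (u ∘ φ) p = Jᵀ *ᵥ dvec u q := by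
    intro u hu
    ext i
    simp [dvec, hchain hu, Matrix.mulVec, dotProduct, mul_comm]
  have hDD : ∀ {W : Type} [NormedAddCommGroup W] [NormedSpace ℝ W] {u : E m → W},
      ContDiffOn ℝ ∞ u U → ∀ i j, D (D (u ∘ φ) i) j p =
        (∑ k, J k i • ∑ l, J l j • D (D u k) l q) +
          ∑ k, D (fun y => D φ i y k) j p • D u k q := by
    intro W _ _ u hu i j
    have e1 : Set.EqOn (D (u ∘ φ) i) (fun y => ∑ k, D φ i y k • D u k (φ y)) V := fun y hy =>
      D_comp (diffAt hU hu (hmap hy)) (diffAt hV hφ hy) i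
    have hc : ∀ k, DifferentiableAt ℝ (fun y => D φ i y k) p := fun k =>
      diffAt hV ((contDiffOn_euclidean.1 (D_smooth hV hφ i)) k) hp
    have hu' : ∀ k, DifferentiableAt ℝ (fun y => D u k (φ y)) p := fun k =>
      (diffAt hU (D_smooth hU hu k) hq).comp p hφd
    have hs : ∀ k ∈ (Finset.univ : Finset (Fin m)),
        DifferentiableAt ℝ (fun y => D φ i y k • D u k (φ y)) p := fun k _ => (hc k).smul (hu' k)
    rw [D_congr_on hV e1 hp j, D_fun_sum _ hs,
      ← Finset.sum_add_distrib]
    refine Finset.sum_congr rfl fun k _ => ?_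
    rw [D_fun_smul (hc k) (hu' k), show (fun y => D u k (φ y)) = D u k ∘ φ from rfl,
      hchain (D_smooth hU hu k) j]
    rfl
  have hlin : ∀ ν : E (m + 2), (∀ i, ⟪D (f ∘ φ) i p, ν⟫ = 0) ↔ ∀ k, ⟪D f k q, ν⟫ = 0 := by
    intro ν
    have e : (fun i => ⟪D (f ∘ φ) i p, ν⟫) = Jᵀ *ᵥ fun k => ⟪D f k q, ν⟫ := by
      ext i
      simp [hchain hf, sum_inner, real_inner_smul_left, Matrix.mulVec, dotProduct]
    constructor
    · intro h
      have := Matrix.eq_zero_of_mulVec_eq_zero (J.isUnit_det_transpose hJu).ne_zero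
        (e.symm.trans (funext h))
      exact congrFun this
    · intro h i
      have := congrFun e i
      rw [this]
      simp [Matrix.mulVec, dotProduct, h]
  refine ⟨fun u w hu hw => ⟨?_, ?_⟩, ?_, ?_, ?_⟩
  · rw [gradU_eq, gradU_eq, hdv u hu, hdv w hw, ← hinv, Matrix.mul_assoc,
      ← Matrix.mulVec_mulVec, ← Matrix.mulVec_mulVec, Matrix.mulVec_transpose,
      Matrix.dotProduct_mulVec (dvec u q) J]
  · have hgv : gradVec (f ∘ φ) (u ∘ φ) p = gradVec f u q := by
      have e : ∀ (g : E m → E (m + 2)) (v : E m → ℝ) (y : E m),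
          gradVec g v y = ∑ k, ((metric g y)⁻¹ *ᵥ dvec v y) k • D g k y := fun g v y => by
        simp [gradVec, Matrix.mulVec, dotProduct, dvec, Finset.sum_smul]
      rw [e, e, hdv u hu, ← hinv, Matrix.mul_assoc, ← Matrix.mulVec_mulVec,
        ← Matrix.mulVec_mulVec, Matrix.mulVec_mulVec]
      simp only [hchain hf, Finset.smul_sum, smul_smul]
      rw [Finset.sum_comm]
      refine Finset.sum_congr rfl fun k _ => ?_
      rw [← Finset.sum_smul]
      congr 1
      simp only [Matrix.mulVec, dotProduct]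
      exact Finset.sum_congr rfl fun i _ => by ring
    have hH : hessU (f ∘ φ) (u ∘ φ) p = Jᵀ * hessU f u q * J := by
      ext i j
      simp only [hessU, Matrix.of_apply, hgv, hDD hu i j, hDD hf i j, Matrix.mul_apply,
        Matrix.transpose_apply, inner_add_left, sum_inner, real_inner_smul_left,
        inner_gradVec hdet, smul_eq_mul]
      rw [add_sub_add_right_eq_sub, ← Finset.sum_sub_distrib]
      simp only [Finset.mul_sum, Finset.sum_mul, ← Finset.sum_sub_distrib]
      rw [Finset.sum_comm]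
      refine Finset.sum_congr rfl fun a _ => Finset.sum_congr rfl fun b _ => ?_
      ring
    have e : ∀ (g : E m → E (m + 2)) (v : E m → ℝ) (y : E m),
        lapU g v y = ((metric g y)⁻¹ * (hessU g v y)ᵀ).trace := fun g v y => by
      simp [lapU_eq, Matrix.trace, Matrix.mul_apply]
    rw [e, e, hH, ← hinv, Matrix.transpose_mul, Matrix.transpose_mul,
      Matrix.transpose_transpose]
    simp only [← Matrix.mul_assoc]
    rw [Matrix.trace_mul_comm _ J]
    simp only [← Matrix.mul_assoc]
  · have h2 : (metric (f ∘ φ) p).det = J.det ^ 2 * (metric f q).det := by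
      rw [hmet, Matrix.det_mul, Matrix.det_mul, Matrix.det_transpose]; ring
    rw [volDensity, volDensity, h2, Real.sqrt_mul (sq_nonneg _), Real.sqrt_sq_eq_abs, hJdet]
  · intro ν
    simp only [IsUnitNormal, Function.comp_apply, ← hqd, hlin ν]
  · intro ν hν
    have hsec : secondForm (f ∘ φ) p ν = Jᵀ * secondForm f q ν * J := by
      ext i j
      simp only [secondForm, Matrix.of_apply, hDD hf i j, Matrix.mul_apply,
        Matrix.transpose_apply, inner_add_left, sum_inner, real_inner_smul_left, hν.2.2,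
        mul_zero, Finset.sum_const_zero, add_zero, Finset.mul_sum, Finset.sum_mul]
      rw [Finset.sum_comm]
      refine Finset.sum_congr rfl fun a _ => Finset.sum_congr rfl fun b _ => ?_
      ring
    have hS : shapeOp (f ∘ φ) p ν = J⁻¹ * shapeOp f q ν * J := by
      rw [shapeOp, shapeOp, hsec, ← hinv]
      simp only [← Matrix.mul_assoc, Matrix.nonsing_inv_mul _ hJu, Matrix.one_mul]
    show (shapeOp (f ∘ φ) p ν * shapeOp (f ∘ φ) p ν).trace =
      (shapeOp f q ν * shapeOp f q ν).trace
    rw [hS]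
    set S := shapeOp f q ν
    have : J⁻¹ * S * J * (J⁻¹ * S * J) = J⁻¹ * (S * S) * J := by
      simp [Matrix.mul_assoc, Matrix.mul_nonsing_inv_cancel_left _ _ hJu]
    rw [this, Matrix.trace_mul_cycle, Matrix.mul_nonsing_inv _ hJu, Matrix.one_mul]

/-! ### Divergence theorem -/

/-- The derivative of a determinant of a family of matrices. -/
theorem D_det {A : E m → Matrix (Fin m) (Fin m) ℝ} {p : E m}
    (hA : ∀ a b, DifferentiableAt ℝ (fun y => A y a b) p) (i : Fin m) :
    D (fun y => (A y).det) i p = ∑ a, ∑ b, (A p).adjugate b a * D (fun y => A y a b) i p := by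
  let dm : ContinuousMultilinearMap ℝ (fun _ : Fin m => Fin m → ℝ) ℝ :=
    ⟨(Matrix.detRowAlternating (n := Fin m) (R := ℝ)).toMultilinearMap, by
      exact Continuous.matrix_det continuous_id⟩
  let A' : E m → Fin m → Fin m → ℝ := fun y a b => A y a b
  have hA' : DifferentiableAt ℝ A' p :=
    differentiableAt_pi.2 fun a => differentiableAt_pi.2 fun b => hA a b
  have h := (dm.hasFDerivAt (A' p)).comp p hA'.hasFDerivAt
  show fderiv ℝ (dm ∘ A') p _ = _
  rw [h.fderiv, ContinuousLinearMap.comp_apply, ContinuousMultilinearMap.linearDeriv_apply]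
  refine Finset.sum_congr rfl fun a _ => ?_
  have e : ∀ b, fderiv ℝ A' p (EuclideanSpace.single i 1) a b = D (fun y => A y a b) i p := by
    intro b
    have hh : HasFDerivAt (fun y => A y a b) _ p := hasFDerivAt_pi'.1 (hasFDerivAt_pi'.1 hA'.hasFDerivAt a) b
    show _ = fderiv ℝ (fun y => A y a b) p _
    rw [hh.fderiv]
    rfl
  show Matrix.det ((A p).updateRow a (fderiv ℝ A' p (EuclideanSpace.single i 1) a)) = _
  rw [← Matrix.cramer_transpose_apply, Matrix.cramer_eq_adjugate_mulVec,
    ← Matrix.adjugate_transpose]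
  simp only [Matrix.mulVec, dotProduct, Matrix.transpose_apply, e]

theorem D_metric (hU : IsOpen U) (hf : ContDiffOn ℝ ∞ f U) {p : E m} (hp : p ∈ U)
    (a b i : Fin m) : D (fun y => metric f y a b) i p =
      ⟪D (D f a) i p, D f b p⟫ + ⟪D (D f b) i p, D f a p⟫ := by
  show fderiv ℝ (fun y => ⟪D f a y, D f b y⟫) p _ = _
  rw [fderiv_inner_apply ℝ (diffAt hU (D_smooth hU hf a) hp) (diffAt hU (D_smooth hU hf b) hp),
    real_inner_comm (D f a p), add_comm]
  rfl

/-- The flux in the `i`-th coordinate of the gradient of `u`. -/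
noncomputable def flux (f : E m → E (m + 2)) (u : E m → ℝ) (i : Fin m) (y : E m) : ℝ :=
  volDensity f y * ∑ j, (metric f y)⁻¹ i j * D u j y

theorem div_flux (hU : IsOpen U) (hf : ContDiffOn ℝ ∞ f U)
    (hg : ∀ p ∈ U, (metric f p).det ≠ 0) {u : E m → ℝ} (hu : ContDiffOn ℝ ∞ u U) {p : E m}
    (hp : p ∈ U) : ∑ i, D (flux f u i) i p = volDensity f p * lapU f u p := by
  classical
  set g := metric f p with hgd
  set h := g⁻¹ with hhd
  set γ : Fin m → Fin m → Fin m → ℝ := fun a i b => ⟪D (D f a) i p, D f b p⟫ with hγ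
  have hγs : ∀ a i b, γ a i b = γ i a b := fun a i b => by
    simp only [hγ, DD_symm hU hf hp a i]
  have hh : ∀ a b, h a b = h b a := fun a b => inv_metric_symm p a b
  have hpos := det_metric_pos (hg p hp)
  have hu1 : IsUnit g.det := isUnit_iff_ne_zero.2 (hg p hp)
  have hdg : ∀ a b i, D (fun y => metric f y a b) i p = γ a i b + γ b i a := fun a b i =>
    D_metric hU hf hp a b i
  have hinvd : ∀ a b, DifferentiableAt ℝ (fun y => (metric f y)⁻¹ a b) p := fun a b =>
    diffAt hU (contDiffOn_inv_metric hU hf hg a b) hp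
  have hmd : ∀ a b, DifferentiableAt ℝ (fun y => metric f y a b) p := fun a b =>
    diffAt hU (contDiffOn_metric hU hf a b) hp
  -- derivative of the volume density
  have hvol : ∀ i, D (volDensity f) i p =
      volDensity f p * ∑ a, ∑ b, h a b * γ a i b := by
    intro i
    have hd : DifferentiableAt ℝ (fun y => (metric f y).det) p :=
      diffAt hU (contDiffOn_det_metric hU hf) hp
    have e : D (volDensity f) i p =
        1 / (2 * volDensity f p) * D (fun y => (metric f y).det) i p := by
      show fderiv ℝ (fun y => √((metric f y).det)) p _ = _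
      rw [(hd.hasFDerivAt.sqrt (hg p hp)).fderiv]
      simp [D, volDensity]
    have e2 : D (fun y => (metric f y).det) i p =
        g.det * (2 * ∑ a, ∑ b, h a b * γ a i b) := by
      have hadj : ∀ a b, g.adjugate a b = g.det * h a b := fun a b => by
        rw [hhd, Matrix.inv_def, Matrix.smul_apply, Ring.inverse_eq_inv', smul_eq_mul, ← mul_assoc,
          mul_inv_cancel₀ (hg p hp), one_mul]
      rw [D_det hmd]
      simp only [hdg, ← hgd, hadj, mul_add, Finset.sum_add_distrib, two_mul, Finset.mul_sum]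
      congr 1
      · exact Finset.sum_congr rfl fun a _ => Finset.sum_congr rfl fun b _ => by
          rw [hh b a]; ring
      · rw [Finset.sum_comm]
        exact Finset.sum_congr rfl fun a _ => Finset.sum_congr rfl fun b _ => by ring
    have hv : volDensity f p * volDensity f p = g.det := Real.mul_self_sqrt hpos.le
    have hv0 : volDensity f p ≠ 0 := Real.sqrt_ne_zero'.2 hpos
    rw [e, e2, ← hv]
    field_simp
  -- derivative of the inverse
  have hinv : ∀ i a c, D (fun y => (metric f y)⁻¹ a c) i p =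
      -∑ b, ∑ d, h a b * (γ b i d + γ d i b) * h d c := by
    intro i
    set DH : Matrix (Fin m) (Fin m) ℝ :=
      Matrix.of fun a b => D (fun y => (metric f y)⁻¹ a b) i p with hDH
    set DG : Matrix (Fin m) (Fin m) ℝ := Matrix.of fun a b => γ a i b + γ b i a with hDG
    have h0 : DH * g + h * DG = 0 := by
      ext a b
      have e : Set.EqOn (fun y => ∑ c, (metric f y)⁻¹ a c * metric f y c b)
          (fun _ => (1 : Matrix (Fin m) (Fin m) ℝ) a b) U := fun y hy => by
        show ∑ c, (metric f y)⁻¹ a c * metric f y c b = _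
        rw [← Matrix.mul_apply, Matrix.nonsing_inv_mul _ (isUnit_iff_ne_zero.2 (hg y hy))]
      have h1 := D_congr_on hU e hp i
      have hs : ∀ c ∈ (Finset.univ : Finset (Fin m)), DifferentiableAt ℝ
          (fun y => (metric f y)⁻¹ a c * metric f y c b) p := fun c _ => (hinvd a c).mul (hmd c b)
      rw [D_fun_sum _ hs] at h1
      simp only [fun c => D_fun_mul (hinvd a c) (hmd c b) i, hdg] at h1
      rw [show D (fun _ : E m => (1 : Matrix (Fin m) (Fin m) ℝ) a b) i p = 0 by simp [D],
        Finset.sum_add_distrib, add_comm] at h1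
      simpa [Matrix.mul_apply, hDH, hDG, ← hgd, ← hhd] using h1
    have h3 : DH = -(h * DG * h) := by
      calc DH = DH * g * h := by rw [Matrix.mul_nonsing_inv_cancel_right _ _ hu1]
        _ = -(h * DG) * h := by rw [eq_neg_of_add_eq_zero_left h0]
        _ = _ := Matrix.neg_mul _ _
    intro a c
    have := congrFun (congrFun h3 a) c
    simp only [hDH, hDG, Matrix.of_apply, Matrix.neg_apply, Matrix.mul_apply, Finset.sum_mul] at this
    rw [this, Finset.sum_comm]
  -- assembly
  have hflux : ∀ i, D (flux f u i) i p = ∑ j,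
      (volDensity f p * (h i j * D (D u j) i p + D (fun y => (metric f y)⁻¹ i j) i p * D u j p) +
        D (volDensity f) i p * (h i j * D u j p)) := by
    intro i
    have hd : ∀ j, DifferentiableAt ℝ (fun y => (metric f y)⁻¹ i j * D u j y) p := fun j =>
      (hinvd i j).mul (diffAt hU (D_smooth hU hu j) hp)
    have hs : DifferentiableAt ℝ (fun y => ∑ j, (metric f y)⁻¹ i j * D u j y) p :=
      DifferentiableAt.fun_sum fun j _ => hd j
    rw [show flux f u i = fun y => volDensity f y * ∑ j, (metric f y)⁻¹ i j * D u j y from rfl,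
      D_fun_mul (diffAt hU (contDiffOn_volDensity hU hf hg) hp) hs,
      D_fun_sum _ fun j _ => hd j]
    simp only [fun j => D_fun_mul (hinvd i j) (diffAt hU (D_smooth hU hu j) hp) i,
      Finset.mul_sum, ← hgd, ← hhd]
    rw [← Finset.sum_add_distrib]
  have key : ∀ j, ∑ i, ((∑ a, ∑ b, h a b * γ a i b) * h i j +
      -∑ b, ∑ d, h i b * (γ b i d + γ d i b) * h d j) =
      -∑ i, ∑ a, ∑ b, h i a * γ a i b * h b j := by
    intro j
    have T : ∑ i, ∑ a, ∑ b, h a b * γ a i b * h i j =
        ∑ i, ∑ a, ∑ b, h i a * γ b i a * h b j := by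
      rw [Finset.sum_comm]
      refine Finset.sum_congr rfl fun a _ => ?_
      rw [Finset.sum_comm]
      refine Finset.sum_congr rfl fun b _ => Finset.sum_congr rfl fun i _ => ?_
      rw [hγs i a b]
    simp only [mul_add, add_mul, Finset.sum_add_distrib, Finset.sum_mul, neg_add,
      Finset.sum_neg_distrib, T]
    ring
  simp only [hflux]
  rw [Finset.sum_comm]
  calc ∑ j, ∑ i, (volDensity f p * (h i j * D (D u j) i p +
          D (fun y => (metric f y)⁻¹ i j) i p * D u j p) +
          D (volDensity f) i p * (h i j * D u j p))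
      = ∑ j, ∑ i, (volDensity f p * (h i j * D (D u i) j p) + volDensity f p * D u j p *
          ((∑ a, ∑ b, h a b * γ a i b) * h i j +
            -∑ b, ∑ d, h i b * (γ b i d + γ d i b) * h d j)) :=
        Finset.sum_congr rfl fun j _ => Finset.sum_congr rfl fun i _ => by
          rw [hvol, hinv, DD_symm hU hu hp j i]; ring
    _ = ∑ j, ((∑ i, volDensity f p * (h i j * D (D u i) j p)) - volDensity f p * D u j p *
          ∑ i, ∑ a, ∑ b, h i a * γ a i b * h b j) :=
        Finset.sum_congr rfl fun j _ => by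
          rw [Finset.sum_add_distrib, ← Finset.mul_sum (a := volDensity f p * D u j p), key]
          ring
    _ = _ := by
      rw [Finset.sum_sub_distrib, lapU]
      simp only [mul_sub, Finset.mul_sum, Finset.sum_sub_distrib]
      congr 1
      · exact Finset.sum_comm
      · rw [Finset.sum_comm]
        refine Finset.sum_congr rfl fun i _ => ?_
        rw [Finset.sum_comm]
        refine Finset.sum_congr rfl fun a _ => ?_
        rw [Finset.sum_comm]
        refine Finset.sum_congr rfl fun k _ => Finset.sum_congr rfl fun l _ => ?_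
        show volDensity f p * D u l p * (h i a * γ a i k * h k l) =
          volDensity f p * (h i a * (γ i a k * h k l * D u l p))
        rw [hγs a i k]
        ring

theorem divergence : DivergenceStmt m := by
  intro U f hU hf hg u w hu hw ⟨K, hK, hKU, hw0⟩
  set Y : Fin m → E m → ℝ := flux f u
  set P : Fin m → E m → ℝ := fun i y => w y * Y i y with hP
  have hY : ∀ i, ContDiffOn ℝ ∞ (Y i) U := fun i =>
    (contDiffOn_volDensity hU hf hg).mul (ContDiffOn.sum fun j _ =>
      (contDiffOn_inv_metric hU hf hg i j).mul (D_smooth hU hu j))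
  have hP0 : ∀ i y, y ∉ K → P i y = 0 := fun i y hy => by simp [hP, hw0 y hy]
  have hPs : ∀ i, ContDiff ℝ ∞ (P i) := fun i => contDiff_iff_contDiffAt.2 fun y => by
    by_cases hy : y ∈ U
    · exact (hw.mul (hY i)).contDiffAt (hU.mem_nhds hy)
    · exact contDiffAt_const.congr_of_eventuallyEq (Filter.eventuallyEq_of_mem
        (hK.isClosed.isOpen_compl.mem_nhds fun h => hy (hKU h)) fun z hz => hP0 i z hz)
  have hPc : ∀ i, HasCompactSupport (P i) := fun i => HasCompactSupport.intro hK fun y hy => hP0 i y hy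
  have hDPc : ∀ i j, Continuous (D (P i) j) := fun i j =>
    ((hPs i).continuous_fderiv (by simp)).clm_apply continuous_const
  have hDPs : ∀ i j, HasCompactSupport (D (P i) j) := fun i j =>
    (hPc i).fderiv_apply (𝕜 := ℝ) (EuclideanSpace.single j 1)
  have hint : ∀ i j, Integrable (D (P i) j) := fun i j =>
    (hDPc i j).integrable_of_hasCompactSupport (hDPs i j)
  have hzero : ∀ i j, ∫ y, D (P i) j y = 0 := fun i j => by
    have h := integral_mul_fderiv_eq_neg_fderiv_mul_of_integrable (μ := (volume : Measure (E m)))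
      (f := fun _ => (1 : ℝ)) (g := P i) (v := EuclideanSpace.single j 1) (by simp)
      (by simp only [one_mul]; exact hint i j)
      (by simpa using (hPs i).continuous.integrable_of_hasCompactSupport (hPc i))
      (fun _ _ => differentiableAt_const _) (fun y _ => (hPs i).differentiable (by simp) y)
    simp only [one_mul, fderiv_fun_const, Pi.zero_apply, _root_.zero_apply, zero_mul,
      integral_zero, neg_zero] at h
    exact h
  have hout : ∀ i y, y ∉ U → D (P i) i y = 0 := fun i y hy => by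
    unfold D
    rw [(Filter.eventuallyEq_of_mem (hK.isClosed.isOpen_compl.mem_nhds fun h => hy (hKU h))
      (fun z hz => hP0 i z hz) : P i =ᶠ[𝓝 y] fun _ => (0 : ℝ)).fderiv_eq]
    simp
  have hin : ∀ y ∈ U, ∑ i, D (P i) i y =
      (w y * lapU f u y + gradU f w u y) * volDensity f y := fun y hy => by
    simp only [hP, fun i => D_fun_mul (diffAt hU hw hy) (diffAt hU (hY i) hy) i,
      Finset.sum_add_distrib, ← Finset.mul_sum]
    rw [div_flux hU hf hg hu hy, add_mul]
    congr 1
    · ring
    · simp only [Y, flux, gradU, Finset.mul_sum, Finset.sum_mul]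
      exact Finset.sum_congr rfl fun i _ => Finset.sum_congr rfl fun j _ => by ring
  rw [← setIntegral_congr_fun hU.measurableSet hin,
    setIntegral_eq_integral_of_forall_compl_eq_zero fun y hy =>
      Finset.sum_eq_zero fun i _ => hout i y hy, integral_finsetSum _ fun i _ => hint i i]
  exact Finset.sum_eq_zero fun i _ => hzero i i

end Vale.Agent.P224.Gap
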