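import Vale.Agent.P224.Gap.Interfaces
import Vale.Agent.P224.Gap.Glob.Density
import Vale.Agent.P224.Gap.Local
import Vale.Agent.P224.Gap.Point

/-!
P224, uniform volume gap: the data of a minimal immersion that is not totally geodesic.
-/

namespace Vale.Agent.P224.Gap

open Set Filter MeasureTheory Glob
open scoped RealInnerProductSpace Topology ContDiff Matrix Manifold ENNReal

/-- The data of a minimal immersion, from the statements inside one chart. -/
theorem globStmt_of (hI : ∀ m, InvarianceStmt m) (hP : ∀ m, PointStmt m)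
    (hDiv : ∀ m, DivergenceStmt m) : GlobStmt := by
  intro m hm M _ _ _ _ _ _ _ F hF hne
  obtain ⟨x, q, hq, n, hn, hn0⟩ := hne
  have hI := hI m
  have hP := hP m
  obtain ⟨μ, hfin, hvol, hres⟩ := exists_measure hI hF
  set z := (chartAt (E m) x).symm q
  have hz : z ∈ (chartAt (E m) x).source := (chartAt (E m) x).map_target hq
  have hA : sqA F z ≠ 0 := by
    rw [(nu_eq hI hF hz (n := n) (by rw [(chartAt (E m) x).right_inv hq]; exact hn)).2,
      (chartAt (E m) x).right_inv hq]
    exact hn0
  have hS := smOn_sqA hI hP hF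
  have : Nonempty M := ⟨z⟩
  obtain ⟨p, -, hp⟩ := isCompact_univ.exists_isMaxOn (univ_nonempty (α := M))
    hS.continuous.continuousOn
  have hmax : ∀ y, sqA F y ≤ sqA F p := fun y => hp (mem_univ y)
  have hpos : 0 < sqA F p :=
    lt_of_lt_of_le (lt_of_le_of_ne (identities hI hP hF z).1 hA.symm) (hmax z)
  have hM0 : (m : ℝ) ≤ sqA F p := by
    have h := le_trans (identities hI hP hF p).2.2.2 (lapM_nonpos_of_max hF hS hmax)
    nlinarith
  set x₀ := F p
  set v := nu F p
  obtain ⟨hv1, hv2, -⟩ := nu_spec hF p
  have hFv : ⟪F p, v⟫ = 0 := by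
    simpa [rep, (chartAt (E m) p).left_inv (mem_chart_source (E m) p)] using hv2
  have hx₀ : ‖x₀‖ = 1 := hF.sphere p
  have hvv : ⟪v, v⟫ = 1 := by rw [real_inner_self_eq_norm_sq, hv1, one_pow]
  have hxx : ⟪x₀, x₀⟫ = 1 := by rw [real_inner_self_eq_norm_sq, hx₀, one_pow]
  have hnu : ∀ (y : M) (a : E (m + 2)), ‖a‖ = 1 → |⟪nu F y, a⟫| ≤ 1 := fun y a ha => by
    simpa [(nu_spec hF y).1, ha] using abs_real_inner_le_norm (nu F y) a
  have hhts : ∀ (y : M) (a : E (m + 2)), ‖a‖ = 1 → |⟪F y, a⟫| ≤ 1 := fun y a ha => by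
    simpa [hF.sphere, ha] using abs_real_inner_le_norm (F y) a
  have hsq : ∀ w : ℝ, |w| ≤ 1 → w * w ≤ 1 := fun w hw => by nlinarith [abs_le.1 hw]
  have hcont := fun a c => (smOn_nu hI hF a c).continuous
  let D : Data m M :=
    { μ := μ
      finite := hfin
      Sm := SmOn
      Lap := lapM F
      G := gradM F
      sm_const := SmOn.const
      sm_cont := fun _ h => h.continuous
      sm_comp := fun _ _ hf hg _ hK => hf.comp hg hK
      lap_cont := fun _ h => continuous_lapM hI hF h
      g_cont := fun _ _ hf hg => continuous_gradM hI hF hf hg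
      g_symm := fun _ _ _ => Glob.gradU_symm _ _
      g_comp := fun f g h hf hg _ K hK y => by
        have e := Glob.gradU_comp (f := rep F y) K hK (chartAt (E m) y).open_target (hf y) (hg y)
          (loc h y) (mem_chart_target (E m) y)
        simp only [loc, Function.comp_apply,
          (chartAt (E m) y).left_inv (mem_chart_source (E m) y)] at e
        exact e
      lap_comp := fun f g hf hg K hK y => by
        have e := Glob.lapU_comp (f := rep F y) K hK (chartAt (E m) y).open_target (hf y) (hg y)
          (mem_chart_target (E m) y)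
        simp only [loc, Function.comp_apply,
          (chartAt (E m) y).left_inv (mem_chart_source (E m) y)] at e
        exact e
      green := fun _ _ hf hg => green hI (hDiv m) hF hres hf hg
      t := fun y => ⟪F y, x₀⟫
      b := fun y => ⟪F y, v⟫
      q := fun y => 1 - ⟪nu F y, v⟫ * ⟪nu F y, v⟫
      s2 := fun y => ⟪nu F y, x₀⟫ * ⟪nu F y, x₀⟫
      su := fun y => ⟪nu F y, x₀⟫ * ⟪nu F y, v⟫
      a2 := sqA F
      sm_t := smOn_height hF x₀
      sm_b := smOn_height hF v
      sm_q := (SmOn.const (1 : ℝ)).comp (smOn_nu hI hF v v) (K := fun w => w.1 - w.2) (by fun_prop)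
      sm_a2 := hS
      cont_s2 := hcont x₀ x₀
      cont_su := hcont x₀ v
      lap_t := fun y => ((identities hI hP hF y).2.1 x₀ x₀).1
      lap_b := fun y => ((identities hI hP hF y).2.1 v v).1
      g_tt := fun y => by rw [((identities hI hP hF y).2.1 x₀ x₀).2, hxx]; ring
      g_tb := fun y => by rw [((identities hI hP hF y).2.1 x₀ v).2, hFv]; ring
      g_bb := fun y => by rw [((identities hI hP hF y).2.1 v v).2, hvv]; ring
      abs_t := fun y => hhts y x₀ hx₀
      abs_b := fun y => hhts y v hv1
      s2_mem := fun y => ⟨mul_self_nonneg _, hsq _ (hnu y x₀ hx₀)⟩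
      q_mem := fun y => ⟨sub_nonneg.2 (hsq _ (hnu y v hv1)), sub_le_self _ (mul_self_nonneg _)⟩
      su_sq := fun y => by
        rw [mul_pow, sq, sq]
        exact mul_le_of_le_one_right (mul_self_nonneg _) (hsq _ (hnu y v hv1))
      lap_q_le := fun y => ((identities hI hP hF y).2.2.1 v hv1).1
      le_lap_q := fun y => ((identities hI hP hF y).2.2.1 v hv1).2
      le_lap_a2 := fun y => (identities hI hP hF y).2.2.2
      M0 := sqA F p
      m_le_M0 := hM0
      a2_mem := fun y => ⟨(identities hI hP hF y).1, hmax y⟩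
      p := p
      t_p := hxx
      b_p := hFv
      q_p := by rw [hvv]; norm_num
      a2_p := rfl }
  refine ⟨D, fun y hy W hW hyW η hη => ?_, hvol⟩
  exact density_ge hF hres hx₀ hy hW hyW hη

/-- Every minimal immersion that is not totally geodesic carries the data. -/
theorem glob_stmt : GlobStmt :=
  globStmt_of (fun _ => invariance) (fun _ => point_stmt) (fun _ => divergence)

end Vale.Agent.P224.Gap
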