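import Vale.Agent.P224.Gap.Defs

/-!
P224, uniform volume gap: the statements of the modules.

`ConeStmt`: Gaussian calculus on the cone (module `Gap/Cone`).
`GlobStmt`: the data of a minimal immersion (modules `Gap/Local`, `Gap/Glob`).
`CoreStmt`: the gap from the data (module `Gap/Core`).
-/

namespace Vale.Agent.P224.Gap

open MeasureTheory Set Filter
open scoped Topology ContDiff Manifold

/-- Gaussian calculus on the cone. -/
structure ConeStmt {m : ℕ} {X : Type*} [TopologicalSpace X] [CompactSpace X] [T2Space X]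
    [MeasurableSpace X] [BorelSpace X] (D : Data m X) : Prop where
  integrable : ∀ σ : ℝ, 0 < σ → ∀ f : X → ℝ → ℝ, Continuous (fun z : X × ℝ => f z.1 z.2) →
    (∃ C, ∀ x r, 0 < r → |f x r| ≤ C * (1 + r)) →
    Integrable (fun z : X × ℝ => z.2 ^ m * phi m σ z.2 (D.t z.1) * f z.1 z.2) D.cone
  deriv : ∀ (T : Test D) (σ : ℝ), 0 < σ → HasDerivAt (fun s => D.I s T.f)
    (D.I σ T.lf + D.I σ (fun x r => D.s2 x * T.f x r) / (4 * σ ^ 2)) σ
  ibp : ∀ A A' P P' : ℝ → ℝ, ContDiff ℝ ∞ A → ContDiff ℝ ∞ P →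
    (∀ r, HasDerivAt A (A' r) r) → (∀ h, HasDerivAt P (P' h) h) →
    (∃ C, ∀ r, |A r| ≤ C ∧ |A' r| ≤ C ∧ |P r| ≤ C ∧ |P' r| ≤ C) → ∀ σ : ℝ, 0 < σ →
    2 * σ * D.I σ (fun x r => A r * P' (r * D.b x) * D.q x + A' r * P (r * D.b x) * D.b x) =
      D.I σ (fun x r => A r * P (r * D.b x) * (r * D.b x + D.su x))
  concentrate : (∀ x, D.t x = 1 → x = D.p) → ∀ f : X → ℝ → ℝ,
    Continuous (fun z : X × ℝ => f z.1 z.2) → (∃ C, ∀ x r, 0 < r → |f x r| ≤ C) →
    Tendsto (fun σ => D.I σ f - f D.p 1 * D.theta σ) (𝓝[>] 0) (𝓝 0)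
  theta_le : ∀ σ : ℝ, 0 < σ → D.theta σ ≤ D.μ.real univ / sphereArea m

/-- The data of a minimal immersion that is not totally geodesic. -/
def GlobStmt : Prop :=
  ∀ {m : ℕ}, 2 ≤ m → ∀ {M : Type} [TopologicalSpace M] [ChartedSpace (E m) M]
    [IsManifold (𝓡 m) ∞ M] [CompactSpace M] [T2Space M] [MeasurableSpace M] [BorelSpace M]
    {F : M → E (m + 2)}, IsMinimalImmersion F →
    (∃ x, ∃ p ∈ (chartAt (E m) x).target, ∃ ν, IsUnitNormal (rep F x) p ν ∧
      normSq (rep F x) p ν ≠ 0) →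
    ∃ D : Data m M, D.LowerDensity ∧ ENNReal.ofReal (D.μ.real univ) ≤ vol F

/-- The gap from the data. -/
def CoreStmt : Prop :=
  ∀ {m : ℕ}, 2 ≤ m → ∀ {X : Type} [TopologicalSpace X] [CompactSpace X] [T2Space X]
    [MeasurableSpace X] [BorelSpace X] (D : Data m X), ConeStmt D → D.LowerDensity →
    (1 + 1 / 10 ^ 12) * sphereArea m ≤ D.μ.real univ

end Vale.Agent.P224.Gap
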