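import Vale.Agent.P224.Gap.Defs
import Vale.Agent.P224.Gap.Local

/-!
P224, uniform volume gap: in a chart, every point carries Gaussian density at least one in the
limit of vanishing scale (the chart form of `Data.LowerDensity`).
-/

namespace Vale.Agent.P224.Gap

open MeasureTheory Set Filter Metric
open scoped RealInnerProductSpace Topology ContDiff Matrix ENNReal
open Matrix

variable {m : ℕ} {U : Set (E m)} {f : E m → E (m + 2)}

/-- The Gaussian weight on the cone over a chart, in the coordinates `(q, r)`, with the centre at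
`f p`. -/
noncomputable def chartWeight (f : E m → E (m + 2)) (p : E m) (σ : ℝ) (z : E m × ℝ) : ℝ :=
  z.2 ^ m * phi m σ z.2 ⟪f z.1, f p⟫ * volDensity f z.1

theorem chartWeight_nonneg {p : E m} {σ : ℝ} (hσ : 0 ≤ σ) {z : E m × ℝ} (hz : 0 ≤ z.2) :
    0 ≤ chartWeight f p σ z :=
  mul_nonneg (mul_nonneg (pow_nonneg hz _)
    (mul_nonneg (Real.rpow_nonneg (by positivity) _) (Real.exp_nonneg _))) (Real.sqrt_nonneg _)

theorem continuousOn_chartWeight (hU : IsOpen U) (hf : ContDiffOn ℝ ∞ f U)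
    (hg : ∀ q ∈ U, (metric f q).det ≠ 0) (p : E m) (σ : ℝ) :
    ContinuousOn (chartWeight f p σ) (U ×ˢ univ) := by
  have h1 : ContinuousOn (fun z : E m × ℝ => f z.1) (U ×ˢ univ) :=
    hf.continuousOn.comp continuousOn_fst fun z hz => hz.1
  have h2 : ContinuousOn (fun z : E m × ℝ => volDensity f z.1) (U ×ˢ univ) :=
    (contDiffOn_volDensity hU hf hg).continuousOn.comp continuousOn_fst fun z hz => hz.1
  unfold chartWeight phi
  exact ((continuousOn_snd.pow m).mul (continuousOn_const.mul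
    (((((continuousOn_snd.pow 2).sub
      ((continuousOn_const.mul continuousOn_snd).mul (h1.inner continuousOn_const))).add
      continuousOn_const).neg.div_const _).rexp))).mul h2

/-- A linear map with the same lengths as the differential. -/
theorem exists_isometric_lin (p : E m) (hg : (metric f p).det ≠ 0) :
    ∃ L : E m →ₗ[ℝ] E m, |LinearMap.det L| = volDensity f p ∧ 0 < volDensity f p ∧
      ∀ v, ‖L v‖ = ‖fderiv ℝ f p v‖ := by
  have hpsd : (metric f p).PosSemidef := by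
    refine Matrix.posSemidef_iff_dotProduct_mulVec.2 ⟨?_, fun a => ?_⟩
    · ext i j
      simp [metric_symm p j i]
    · rw [star_trivial, sum_metric]
      positivity
  obtain ⟨C, k, hC, -⟩ := exists_frame hpsd hg hpsd.1
  have hd : IsUnit C.det := by
    refine isUnit_iff_ne_zero.2 fun h => ?_
    have := congrArg Matrix.det hC
    simp [Matrix.det_mul, h] at this
  have hB : (C⁻¹)ᵀ * C⁻¹ = metric f p := by
    calc (C⁻¹)ᵀ * C⁻¹ = (C⁻¹)ᵀ * (Cᵀ * metric f p * C) * C⁻¹ := by rw [hC, Matrix.mul_one]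
      _ = (C * C⁻¹)ᵀ * metric f p * (C * C⁻¹) := by
        rw [Matrix.transpose_mul]; simp only [Matrix.mul_assoc]
      _ = _ := by rw [Matrix.mul_nonsing_inv _ hd]; simp
  refine ⟨Matrix.toEuclideanLin C⁻¹, ?_, Real.sqrt_pos.2 (det_metric_pos hg), fun v => ?_⟩
  · rw [Matrix.toEuclideanLin_eq_toLin_orthonormal, LinearMap.det_toLin, volDensity, ← hB,
      Matrix.det_mul, Matrix.det_transpose, ← sq, Real.sqrt_sq_eq_abs]
  · refine (pow_left_inj₀ (norm_nonneg _) (norm_nonneg _) two_ne_zero).1 ?_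
    rw [fderiv_eq_sum_D, ← sum_metric p (fun i => v i), ← hB, ← Matrix.mulVec_mulVec,
      Matrix.dotProduct_mulVec, Matrix.vecMul_transpose, ← real_inner_self_eq_norm_sq,
      PiLp.inner_apply]
    simp [dotProduct, sq, Matrix.toLpLin_apply]

/-- The Gaussian of the differential has total mass one. -/
theorem limit_mass {p : E m} (hg : (metric f p).det ≠ 0) :
    Integrable (fun z : E m × ℝ => (4 * Real.pi) ^ (-(((m : ℝ) + 1) / 2)) * volDensity f p *
      (Real.exp (-(1 / 4) * ‖fderiv ℝ f p z.1‖ ^ 2) * Real.exp (-(1 / 4) * z.2 ^ 2))) ∧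
    ∫ z : E m × ℝ, (4 * Real.pi) ^ (-(((m : ℝ) + 1) / 2)) * volDensity f p *
      (Real.exp (-(1 / 4) * ‖fderiv ℝ f p z.1‖ ^ 2) * Real.exp (-(1 / 4) * z.2 ^ 2)) = 1 := by
  obtain ⟨L, hdet, hpos, hL⟩ := exists_isometric_lin p hg
  have h0 : LinearMap.det L ≠ 0 := fun h => by simp [h] at hdet; linarith
  have hz : ∫ v : E m, Real.exp (-(1 / 4) * ‖fderiv ℝ f p v‖ ^ 2) =
      (volDensity f p)⁻¹ * (4 * Real.pi) ^ ((m : ℝ) / 2) := by
    simp only [← hL]
    have hc : Continuous L := L.continuous_of_finiteDimensional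
    rw [← integral_map (φ := L) (f := fun y : E m => Real.exp (-(1 / 4) * ‖y‖ ^ 2))
      hc.aemeasurable ((by fun_prop : Continuous fun y : E m => Real.exp (-(1 / 4) * ‖y‖ ^ 2))
        |>.aestronglyMeasurable),
      Measure.map_linearMap_addHaar_eq_smul_addHaar _ h0, integral_smul_measure,
      GaussianFourier.integral_rexp_neg_mul_sq_norm (by norm_num), finrank_euclideanSpace_fin,
      ENNReal.toReal_ofReal (abs_nonneg _), abs_inv, hdet, smul_eq_mul,
      show Real.pi / (1 / 4) = 4 * Real.pi by ring]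
  have hs : ∫ s : ℝ, Real.exp (-(1 / 4) * s ^ 2) = (4 * Real.pi) ^ ((1 : ℝ) / 2) := by
    rw [integral_gaussian, show Real.pi / (1 / 4) = 4 * Real.pi by ring, Real.sqrt_eq_rpow]
  have hne : ∫ v : E m, Real.exp (-(1 / 4) * ‖fderiv ℝ f p v‖ ^ 2) ≠ 0 := by
    rw [hz]; positivity
  refine ⟨?_, ?_⟩
  · exact ((Integrable.of_integral_ne_zero hne).mul_prod
      (integrable_exp_neg_mul_sq (by norm_num))).const_mul _
  · rw [integral_const_mul, Measure.volume_eq_prod,
      integral_prod_mul (fun v : E m => Real.exp (-(1 / 4) * ‖fderiv ℝ f p v‖ ^ 2))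
        (fun s : ℝ => Real.exp (-(1 / 4) * s ^ 2)), hz, hs]
    have h4 : (0 : ℝ) < 4 * Real.pi := by positivity
    have e : (4 * Real.pi) ^ (-(((m : ℝ) + 1) / 2)) * ((4 * Real.pi) ^ ((m : ℝ) / 2) *
        (4 * Real.pi) ^ ((1 : ℝ) / 2)) = 1 := by
      rw [← Real.rpow_add h4, ← Real.rpow_add h4]
      convert Real.rpow_zero (4 * Real.pi) using 2
      ring
    field_simp
    linarith

theorem setIntegral_affine (G : E m × ℝ → ℝ) (x₀ : E m × ℝ) {c : ℝ} (hc : 0 < c) (R : ℝ) :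
    ∫ z in closedBall x₀ (c * R), G z = c ^ (m + 1) * ∫ w in closedBall 0 R, G (x₀ + c • w) := by
  have : (volume : Measure (E m × ℝ)).IsAddHaarMeasure :=
    Measure.prod.instIsAddHaarMeasure _ _
  rw [← integral_indicator measurableSet_closedBall, ← integral_indicator measurableSet_closedBall]
  have e : ∀ w, (closedBall (0 : E m × ℝ) R).indicator (fun w => G (x₀ + c • w)) w =
      (closedBall x₀ (c * R)).indicator G (x₀ + c • w) := by
    intro w
    have : x₀ + c • w ∈ closedBall x₀ (c * R) ↔ w ∈ closedBall (0 : E m × ℝ) R := by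
      rw [mem_closedBall, dist_eq_norm, add_sub_cancel_left, norm_smul, Real.norm_eq_abs,
        abs_of_pos hc, mem_closedBall_zero_iff, mul_le_mul_iff_right₀ hc]
    by_cases h : w ∈ closedBall (0 : E m × ℝ) R
    · rw [indicator_of_mem h, indicator_of_mem (this.2 h)]
    · rw [indicator_of_notMem h, indicator_of_notMem (mt this.1 h)]
  have key := Measure.integral_comp_smul (volume : Measure (E m × ℝ))
    (fun y => (closedBall x₀ (c * R)).indicator G (x₀ + y)) c
  rw [integral_add_left_eq_self (μ := (volume : Measure (E m × ℝ)))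
    ((closedBall x₀ (c * R)).indicator G) x₀] at key
  simp only [e, key, Module.finrank_prod, finrank_euclideanSpace_fin, Module.finrank_self,
    smul_eq_mul]
  rw [abs_of_pos (by positivity), ← mul_assoc, mul_inv_cancel₀ (by positivity), one_mul]

/-- The density at `p`, from a small box around `(p, 1)`. -/
theorem laplace_box (hU : IsOpen U) (hf : ContDiffOn ℝ ∞ f U) (hs : ∀ q ∈ U, ‖f q‖ = 1)
    (hg : ∀ q ∈ U, (metric f q).det ≠ 0) {p : E m} (hp : p ∈ U) {η : ℝ} (hη : 0 < η)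
    {S : Set (E m)} (hS : S ∈ 𝓝 p) :
    ∀ᶠ σ in 𝓝[>] (0 : ℝ), ∃ T : Set (E m × ℝ), IsCompact T ∧ T ⊆ (S ∩ U) ×ˢ Ioi 0 ∧
      IntegrableOn (chartWeight f p σ) T ∧ 1 - η ≤ ∫ z in T, chartWeight f p σ z := by
  set a : ℝ := -(((m : ℝ) + 1) / 2) with ha
  set H : E m × ℝ → ℝ := fun z => (4 * Real.pi) ^ a * volDensity f p *
    (Real.exp (-(1 / 4) * ‖fderiv ℝ f p z.1‖ ^ 2) * Real.exp (-(1 / 4) * z.2 ^ 2)) with hH
  obtain ⟨hHi, hH1⟩ := limit_mass (f := f) (hg p hp)
  -- a large box for the rescaled integrand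
  obtain ⟨R, hR0, hR⟩ : ∃ R : ℝ, 0 < R ∧ 1 - η < ∫ z in closedBall (0 : E m × ℝ) R, H z := by
    have h := tendsto_setIntegral_of_monotone (μ := (volume : Measure (E m × ℝ)))
      (s := fun n : ℕ => closedBall (0 : E m × ℝ) n) (f := H)
      (fun n => measurableSet_closedBall)
      (fun a b hab => closedBall_subset_closedBall (Nat.cast_le.2 hab))
      (hHi.integrableOn)
    rw [iUnion_closedBall_nat, Measure.restrict_univ, hH1] at h
    obtain ⟨n, hn, hn0⟩ :=
      ((h.eventually_const_lt (by linarith : 1 - η < 1)).and (eventually_gt_atTop 0)).exists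
    exact ⟨n, Nat.cast_pos.2 hn0, hn⟩
  -- a compact neighbourhood
  obtain ⟨ρ, hρ0, hρ⟩ : ∃ ρ : ℝ, 0 < ρ ∧ closedBall p ρ ⊆ S ∩ U :=
    nhds_basis_closedBall.mem_iff.1 (Filter.inter_mem hS (hU.mem_nhds hp))
  obtain ⟨C, hC⟩ := (isCompact_closedBall p ρ).exists_bound_of_continuousOn
    ((contDiffOn_volDensity hU hf hg).continuousOn.mono fun z hz => (hρ hz).2)
  set K : ℝ → E m × ℝ → ℝ := fun σ w =>
    √σ ^ (m + 1) * chartWeight f p σ ((p, 1) + √σ • w) with hK
  have hsqrt : Tendsto (fun σ : ℝ => √σ) (𝓝[>] 0) (𝓝[>] 0) := by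
    refine tendsto_nhdsWithin_iff.2 ⟨?_, ?_⟩
    · exact tendsto_nhdsWithin_of_tendsto_nhds (by simpa using Real.continuous_sqrt.tendsto 0)
    · exact eventually_nhdsWithin_of_forall fun σ hσ => Real.sqrt_pos.2 hσ
  have hev : ∀ᶠ σ in 𝓝[>] (0 : ℝ), 0 < √σ ∧ √σ * R ≤ ρ ∧ √σ * R < 1 := by
    have h1 : Tendsto (fun σ : ℝ => √σ * R) (𝓝[>] 0) (𝓝 0) := by
      simpa using (hsqrt.mono_right nhdsWithin_le_nhds).mul_const R
    filter_upwards [hsqrt.eventually self_mem_nhdsWithin, h1.eventually_le_const hρ0,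
      h1.eventually_lt_const one_pos] with σ a b c using ⟨a, b, c⟩
  have hbox : ∀ σ, √σ * R ≤ ρ → √σ * R < 1 →
      closedBall ((p, 1) : E m × ℝ) (√σ * R) ⊆ (S ∩ U) ×ˢ Ioi 0 := by
    intro σ h1 h2 z hz
    rw [← closedBall_prod_same, mem_prod, Real.closedBall_eq_Icc] at hz
    exact ⟨hρ (closedBall_subset_closedBall h1 hz.1), by simp only [mem_Ioi]; linarith [hz.2.1]⟩
  have hform : ∀ σ, 0 < σ → ∀ w : E m × ℝ, p + √σ • w.1 ∈ U →
      K σ w = (1 + √σ * w.2) ^ m * (4 * Real.pi) ^ a *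
        Real.exp (-(1 / 4) * (w.2 ^ 2 +
          (1 + √σ * w.2) * ‖(√σ)⁻¹ • (f (p + √σ • w.1) - f p)‖ ^ 2)) *
        volDensity f (p + √σ • w.1) := by
    intro σ hσ w hw
    have hc : 0 < √σ := Real.sqrt_pos.2 hσ
    have h1 : √σ ^ (m + 1) * (4 * Real.pi * σ) ^ a = (4 * Real.pi) ^ a := by
      rw [Real.mul_rpow (by positivity) hσ.le, Real.sqrt_eq_rpow, ← Real.rpow_natCast,
        ← Real.rpow_mul hσ.le, mul_comm, mul_assoc, ← Real.rpow_add hσ]
      have : a + 1 / 2 * ((m + 1 : ℕ) : ℝ) = 0 := by rw [ha]; push_cast; ring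
      rw [this, Real.rpow_zero, mul_one]
    have h2 : -((1 + √σ * w.2) ^ 2 - 2 * (1 + √σ * w.2) * ⟪f (p + √σ • w.1), f p⟫ + 1) / (4 * σ) =
        -(1 / 4) * (w.2 ^ 2 +
          (1 + √σ * w.2) * ‖(√σ)⁻¹ • (f (p + √σ • w.1) - f p)‖ ^ 2) := by
      rw [norm_smul, mul_pow, norm_sub_sq_real, hs _ hw, hs p hp, Real.norm_eq_abs, sq_abs,
        inv_pow, Real.sq_sqrt hσ.le]
      have hsq : √σ ^ 2 = σ := Real.sq_sqrt hσ.le
      field_simp
      linear_combination (-(w.2 ^ 2)) * hsq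
    simp only [hK, chartWeight, phi, Prod.fst_add, Prod.snd_add, Prod.smul_fst, Prod.smul_snd,
      smul_eq_mul, ← ha, h2]
    rw [← h1]
    ring
  have hlim : Tendsto (fun σ => ∫ w in closedBall (0 : E m × ℝ) R, K σ w) (𝓝[>] 0)
      (𝓝 (∫ w in closedBall (0 : E m × ℝ) R, H w)) := by
    refine tendsto_integral_filter_of_dominated_convergence
      (fun _ => (2 : ℝ) ^ m * (4 * Real.pi) ^ a * C) ?_ ?_ ?_ ?_
    · filter_upwards [hev] with σ ⟨hc, h1, h2⟩
      refine ContinuousOn.aestronglyMeasurable ?_ measurableSet_closedBall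
      refine continuousOn_const.mul ((continuousOn_chartWeight hU hf hg p σ).comp
        (by fun_prop) fun w hw => ?_)
      have := hbox σ h1 h2 (show (p, 1) + √σ • w ∈ closedBall ((p, 1) : E m × ℝ) (√σ * R) by
        rw [mem_closedBall, dist_eq_norm, add_sub_cancel_left, norm_smul, Real.norm_eq_abs,
          abs_of_pos hc]
        exact mul_le_mul_of_nonneg_left (mem_closedBall_zero_iff.1 hw) hc.le)
      exact ⟨this.1.2, mem_univ _⟩
    · filter_upwards [hev, self_mem_nhdsWithin] with σ ⟨hc, h1, h2⟩ (hσ : 0 < σ)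
      refine ae_restrict_of_forall_mem measurableSet_closedBall fun w hw => ?_
      rw [mem_closedBall_zero_iff, Prod.norm_def, max_le_iff, Real.norm_eq_abs] at hw
      have hq : p + √σ • w.1 ∈ closedBall p ρ := by
        rw [mem_closedBall, dist_eq_norm, add_sub_cancel_left, norm_smul, Real.norm_eq_abs,
          abs_of_pos hc]
        exact (mul_le_mul_of_nonneg_left hw.1 hc.le).trans h1
      have hr : |√σ * w.2| ≤ 1 := by
        rw [abs_mul, abs_of_pos hc]
        nlinarith [hw.2, abs_nonneg w.2]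
      obtain ⟨hr1, hr2⟩ := abs_le.1 hr
      have hr0 : 0 ≤ 1 + √σ * w.2 := by linarith
      rw [hform σ hσ w (hρ hq).2, Real.norm_eq_abs, abs_of_nonneg (mul_nonneg (mul_nonneg
        (mul_nonneg (pow_nonneg hr0 _) (by positivity)) (Real.exp_nonneg _))
        (show (0 : ℝ) ≤ volDensity f (p + √σ • w.1) from Real.sqrt_nonneg _))]
      refine mul_le_mul ?_ ((le_abs_self _).trans (hC _ hq)) (Real.sqrt_nonneg _) (by positivity)
      refine (mul_le_of_le_one_right (mul_nonneg (pow_nonneg hr0 _) (by positivity)) ?_).trans ?_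
      · refine Real.exp_le_one_iff.2 ?_
        nlinarith [sq_nonneg w.2, mul_nonneg hr0 (sq_nonneg ‖(√σ)⁻¹ • (f (p + √σ • w.1) - f p)‖)]
      · exact mul_le_mul_of_nonneg_right (pow_le_pow_left₀ hr0 (by linarith) _) (by positivity)
    · have : IsFiniteMeasure ((volume : Measure (E m × ℝ)).restrict (closedBall 0 R)) :=
        isFiniteMeasure_restrict.2 measure_closedBall_lt_top.ne
      exact integrable_const _
    · refine Eventually.of_forall fun w => ?_
      have hq : Tendsto (fun σ : ℝ => p + √σ • w.1) (𝓝[>] 0) (𝓝 p) := by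
        simpa using ((hsqrt.mono_right nhdsWithin_le_nhds).smul_const w.1).const_add p
      have hd : HasDerivAt (fun c : ℝ => f (p + c • w.1)) (fderiv ℝ f p w.1) 0 := by
        have h1 : HasDerivAt (fun c : ℝ => p + c • w.1) w.1 0 := by
          simpa using ((hasDerivAt_id (0 : ℝ)).smul_const w.1).const_add p
        exact (diffAt hU hf hp).hasFDerivAt.comp_hasDerivAt_of_eq 0 h1 (by simp)
      have hΔ : Tendsto (fun σ : ℝ => (√σ)⁻¹ • (f (p + √σ • w.1) - f p)) (𝓝[>] 0)
          (𝓝 (fderiv ℝ f p w.1)) := by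
        have := hd.tendsto_slope_zero_right.comp hsqrt
        simpa [Function.comp_def] using this
      have hr : Tendsto (fun σ : ℝ => 1 + √σ * w.2) (𝓝[>] 0) (𝓝 1) := by
        simpa using ((hsqrt.mono_right nhdsWithin_le_nhds).mul_const w.2).const_add 1
      have hv : Tendsto (fun σ : ℝ => volDensity f (p + √σ • w.1)) (𝓝[>] 0)
          (𝓝 (volDensity f p)) :=
        ((contDiffOn_volDensity hU hf hg).continuousOn.continuousAt (hU.mem_nhds hp)).tendsto.comp
          hq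
      have := ((((hr.pow m).mul_const ((4 * Real.pi) ^ a)).mul
        (((hr.mul (hΔ.norm.pow 2)).const_add (w.2 ^ 2)).const_mul (-(1 / 4) : ℝ)).rexp).mul hv)
      have hv1 : (1 : ℝ) ^ m * (4 * Real.pi) ^ a *
          Real.exp (-(1 / 4) * (w.2 ^ 2 + 1 * ‖fderiv ℝ f p w.1‖ ^ 2)) * volDensity f p = H w := by
        simp only [hH, one_pow, one_mul, mul_add, Real.exp_add]
        ring
      rw [← hv1]
      refine this.congr' ?_
      filter_upwards [self_mem_nhdsWithin, hq.eventually (hU.mem_nhds hp)] with σ hσ hqU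
      exact (hform σ hσ w hqU).symm
  filter_upwards [hev, self_mem_nhdsWithin, hlim.eventually_const_lt hR] with σ ⟨hc, h1, h2⟩ _ h3
  refine ⟨closedBall ((p, 1) : E m × ℝ) (√σ * R), isCompact_closedBall _ _, hbox σ h1 h2,
    ((continuousOn_chartWeight hU hf hg p σ).mono fun z hz =>
      ⟨(hbox σ h1 h2 hz).1.2, mem_univ _⟩).integrableOn_compact (isCompact_closedBall _ _), ?_⟩
  rw [setIntegral_affine _ _ hc, ← integral_const_mul]
  exact h3.le

/-- `chartWeight` on a set on which it is integrable: density at least one in the limit. -/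
theorem laplace_lower (hU : IsOpen U) (hf : ContDiffOn ℝ ∞ f U) (hs : ∀ q ∈ U, ‖f q‖ = 1)
    (hg : ∀ q ∈ U, (metric f q).det ≠ 0) {p : E m} (hp : p ∈ U) {η : ℝ} (hη : 0 < η)
    {S : Set (E m)} (hS : S ∈ 𝓝 p) (hSm : MeasurableSet S) :
    ∀ᶠ σ in 𝓝[>] (0 : ℝ), IntegrableOn (chartWeight f p σ) (S ×ˢ Ioi 0) →
      1 - η ≤ ∫ z in S ×ˢ Ioi 0, chartWeight f p σ z := by
  filter_upwards [laplace_box hU hf hs hg hp hη hS, self_mem_nhdsWithin] with σ ⟨T, _, hTS, _, hT⟩
    (hσ : 0 < σ) hi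
  refine hT.trans (setIntegral_mono_set hi
    (ae_restrict_of_forall_mem (hSm.prod measurableSet_Ioi) fun z hz =>
      chartWeight_nonneg hσ.le (le_of_lt hz.2))
    (Eventually.of_forall fun z hz => ⟨(hTS hz).1.1, (hTS hz).2⟩))

/-- The same as a lower integral, with no integrability hypothesis. -/
theorem laplace_lintegral (hU : IsOpen U) (hf : ContDiffOn ℝ ∞ f U) (hs : ∀ q ∈ U, ‖f q‖ = 1)
    (hg : ∀ q ∈ U, (metric f q).det ≠ 0) {p : E m} (hp : p ∈ U) {η : ℝ} (hη : 0 < η)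
    {S : Set (E m)} (hS : S ∈ 𝓝 p) :
    ∀ᶠ σ in 𝓝[>] (0 : ℝ), ENNReal.ofReal (1 - η) ≤
      ∫⁻ z in S ×ˢ Ioi 0, ENNReal.ofReal (chartWeight f p σ z) := by
  filter_upwards [laplace_box hU hf hs hg hp hη hS, self_mem_nhdsWithin] with σ ⟨T, hTc, hTS, hi, hT⟩
    (hσ : 0 < σ)
  calc ENNReal.ofReal (1 - η) ≤ ENNReal.ofReal (∫ z in T, chartWeight f p σ z) :=
        ENNReal.ofReal_le_ofReal hT
    _ = ∫⁻ z in T, ENNReal.ofReal (chartWeight f p σ z) :=
        ofReal_integral_eq_lintegral_ofReal hi (ae_restrict_of_forall_mem hTc.measurableSet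
          fun z hz => chartWeight_nonneg hσ.le (le_of_lt (hTS hz).2))
    _ ≤ _ := lintegral_mono_set (show T ⊆ S ×ˢ Ioi 0 from fun z hz => ⟨(hTS hz).1.1, (hTS hz).2⟩)

end Vale.Agent.P224.Gap
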